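import Vale.Agent.P137.Mol

/-!
The multiscale comparison of a function at the two ends of parabolic displacements.
-/

namespace Vale.Agent.P137

open MeasureTheory Metric Set Filter Topology
open scoped RealInnerProductSpace ENNReal

variable {d : ℕ}

theorem disp_nonneg {v : Euc d} (hv : ‖v‖ = 1) (g : Euc d → Euc d) (x : Euc d) :
    0 ≤ disp v g x := by
  have := real_inner_le_norm (g x) v
  rw [hv, mul_one] at this
  simp only [disp]; linarith

/-- A displacement inside a paraboloid about `v` loses at most the defect. -/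
theorem inner_ge_of_parabolic {v u g : Euc d} {L : ℝ} (hv : ‖v‖ = 1) (hL : 0 ≤ L)
    (hu : ‖u‖ ^ 2 ≤ L * ⟪u, v⟫) : -(2 * L * (‖g‖ - ⟪g, v⟫)) ≤ ⟪g, u⟫ := by
  set a := ⟪g, v⟫ with ha
  set b := ⟪u, v⟫ with hb
  have ha' : |a| ≤ ‖g‖ := by simpa [hv] using abs_real_inner_le_norm g v
  have hb' : |b| ≤ ‖u‖ := by simpa [hv] using abs_real_inner_le_norm u v
  have hE : 0 ≤ ‖g‖ - a := by linarith [le_abs_self a]
  have huL : ‖u‖ ≤ L := by
    rcases (norm_nonneg u).eq_or_lt with h | h
    · rw [← h]; exact hL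
    · have : ‖u‖ * ‖u‖ ≤ L * ‖u‖ := by
        nlinarith [mul_le_mul_of_nonneg_left ((le_abs_self b).trans hb') hL]
      exact le_of_mul_le_mul_right this h
  rcases le_or_gt a 0 with h0 | h0
  · have := neg_le_of_abs_le (abs_real_inner_le_norm g u)
    nlinarith [mul_le_mul_of_nonneg_left huL (norm_nonneg g), mul_nonneg hL hE]
  · have hb0 : 0 ≤ L * b := le_trans (sq_nonneg _) hu
    have hbnn : 0 ≤ b := by
      rcases hL.eq_or_lt with h | h
      · have : ‖u‖ = 0 := le_antisymm (huL.trans h.ge) (norm_nonneg u)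
        rw [hb, norm_eq_zero.1 this, inner_zero_left]
      · exact nonneg_of_mul_nonneg_right hb0 h
    have hcs := real_inner_mul_inner_self_le (g - a • v) (u - b • v)
    have hvv : ⟪v, v⟫ = 1 := by rw [real_inner_self_eq_norm_sq, hv]; norm_num
    have egv : ⟪g, v⟫ = a := rfl
    have evg : ⟪v, g⟫ = a := (real_inner_comm g v).trans egv
    have euv : ⟪u, v⟫ = b := rfl
    have evu : ⟪v, u⟫ = b := (real_inner_comm u v).trans euv
    have x1 : ⟪g - a • v, u - b • v⟫ = ⟪g, u⟫ - a * b := by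
      simp only [inner_sub_left, inner_sub_right, real_inner_smul_left, real_inner_smul_right,
        egv, evu, hvv]
      ring
    have x2 : ⟪g - a • v, g - a • v⟫ = ‖g‖ ^ 2 - a ^ 2 := by
      simp only [inner_sub_left, inner_sub_right, real_inner_smul_left, real_inner_smul_right,
        egv, evg, real_inner_self_eq_norm_sq, norm_smul, hv, mul_one, Real.norm_eq_abs, sq_abs]
      ring
    have x3 : ⟪u - b • v, u - b • v⟫ = ‖u‖ ^ 2 - b ^ 2 := by
      simp only [inner_sub_left, inner_sub_right, real_inner_smul_left, real_inner_smul_right,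
        euv, evu, real_inner_self_eq_norm_sq, norm_smul, hv, mul_one, Real.norm_eq_abs, sq_abs]
      ring
    rw [x1, x2, x3] at hcs
    set E := ‖g‖ - a with hEdef
    have hgE : ‖g‖ = a + E := by linarith
    rw [hgE] at hcs
    have h1 : (a * b + 2 * L * E) ^ 2 ≥ (⟪g, u⟫ - a * b) ^ 2 := by
      have : ‖u‖ ^ 2 - b ^ 2 ≤ ‖u‖ ^ 2 := by nlinarith
      nlinarith [mul_le_mul_of_nonneg_left hu (mul_nonneg hE h0.le),
        mul_nonneg (sq_nonneg E) (sub_nonneg.2 (pow_le_pow_left₀ (norm_nonneg u) huL 2)),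
        mul_nonneg (mul_nonneg hE h0.le) (sq_nonneg b), mul_nonneg (sq_nonneg E) (sq_nonneg b),
        sq_nonneg (a * b), mul_nonneg (sq_nonneg E) (sq_nonneg L),
        mul_nonneg (mul_nonneg hE h0.le) hb0]
    have h2 := abs_le_of_sq_le_sq' h1 (by positivity)
    linarith [h2.1]

theorem seg_mol {δ : ℝ} (hδ : 0 < δ) {f : Euc d → ℝ} (hf : ContDiff ℝ 1 f) (hfi : Integrable f)
    (hgi : Integrable (gradient f)) :
    ∀ n, Continuous (mol δ f n) ∧ Continuous (mol δ (gradient f) n) ∧
      ∀ p h : Euc d, mol δ f n (p + h) - mol δ f n p =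
        ∫ t in Icc (0 : ℝ) 1, ⟪mol δ (gradient f) n (p + t • h), h⟫ := by
  intro n
  induction n with
  | zero =>
    have hgc : Continuous (gradient f) :=
      (InnerProductSpace.toDual ℝ (Euc d)).symm.continuous.comp (hf.continuous_fderiv (by norm_num))
    refine ⟨hf.continuous, hgc, fun p h => ?_⟩
    simp only [mol]
    rw [integral_Icc_eq_integral_Ioc, ← intervalIntegral.integral_of_le zero_le_one,
      intervalIntegral.integral_eq_sub_of_hasDerivAt (f := fun t => f (p + t • h))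
        (fun t _ => ?_) ((by fun_prop : Continuous fun t : ℝ => ⟪gradient f (p + t • h), h⟫)
          |>.intervalIntegrable _ _)]
    · simp
    · have h1 := (hf.differentiable (by norm_num) (p + t • h)).hasGradientAt.hasFDerivAt
      have h2 : HasDerivAt (fun t : ℝ => p + t • h) h t := by
        simpa using ((hasDerivAt_id t).smul_const h).const_add p
      simpa [Function.comp_def] using h1.comp_hasDerivAt t h2
  | succ n ih =>
    obtain ⟨hc, hgc, hs⟩ := ih
    set r := δ * 2 ^ n with hr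
    have hr0 : 0 < r := by positivity
    have hfin := integrable_mol hδ hfi n
    have hgin := integrable_mol hδ hgi n
    refine ⟨continuous_avg hr0 hfin, continuous_avg hr0 hgin, fun p h => ?_⟩
    simp only [mol, ← hr, avg, real_inner_smul_left]
    set c := (volume.real (closedBall (0 : Euc d) r))⁻¹
    rw [← smul_sub, ← integral_sub (integrableOn_shift hfin _ _) (integrableOn_shift hfin _ _),
      smul_eq_mul, integral_const_mul]
    congr 1
    have hF : Continuous fun q : Euc d × ℝ => ⟪mol δ (gradient f) n (p + q.2 • h + q.1), h⟫ := by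
      fun_prop
    calc ∫ z in closedBall (0 : Euc d) r, (mol δ f n (p + h + z) - mol δ f n (p + z))
        = ∫ z in closedBall (0 : Euc d) r, ∫ t in Icc (0 : ℝ) 1,
            ⟪mol δ (gradient f) n (p + t • h + z), h⟫ := by
          refine setIntegral_congr_fun measurableSet_closedBall fun z _ => ?_
          rw [show p + h + z = p + z + h by abel, hs]
          simp only [add_right_comm]
      _ = ∫ t in Icc (0 : ℝ) 1, ∫ z in closedBall (0 : Euc d) r,
            ⟪mol δ (gradient f) n (p + t • h + z), h⟫ := by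
          refine integral_integral_swap ?_
          rw [Measure.prod_restrict]
          exact hF.continuousOn.integrableOn_compact
            ((isCompact_closedBall _ _).prod isCompact_Icc)
      _ = _ := by
          refine setIntegral_congr_fun measurableSet_Icc fun t _ => ?_
          rw [real_inner_comm, ← integral_inner (integrableOn_shift hgin _ _)]
          simp only [real_inner_comm h]

/-- The defect as an extended nonnegative function. -/
noncomputable def edisp (v : Euc d) (g : Euc d → Euc d) (x : Euc d) : ℝ≥0∞ :=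
  ENNReal.ofReal (disp v g x)

theorem continuous_disp {v : Euc d} {g : Euc d → Euc d} (hg : Continuous g) :
    Continuous (disp v g) := by
  unfold disp; fun_prop

theorem continuous_edisp {v : Euc d} {g : Euc d → Euc d} (hg : Continuous g) :
    Continuous (edisp v g) := ENNReal.continuous_ofReal.comp (continuous_disp hg)

theorem ofReal_integral_le_lintegral {α : Type*} [MeasurableSpace α] {μ : Measure α} {F : α → ℝ}
    (hF : Integrable F μ) : ENNReal.ofReal (∫ a, F a ∂μ) ≤ ∫⁻ a, ENNReal.ofReal (F a) ∂μ := by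
  refine (ENNReal.ofReal_le_ofReal (integral_mono hF hF.pos_part fun a => le_max_left _ _)).trans
    (le_of_eq ?_)
  rw [ofReal_integral_eq_lintegral_ofReal hF.pos_part (Eventually.of_forall fun a => le_max_right _ _)]
  simp [ENNReal.ofReal_max]

variable {δ : ℝ} {f : Euc d → ℝ} {v : Euc d}

theorem ofReal_sub_le (hδ : 0 < δ) (hf : ContDiff ℝ 1 f) (hfi : Integrable f)
    (hgi : Integrable (gradient f)) (hv : ‖v‖ = 1) (n : ℕ) {L : ℝ} (hL : 0 ≤ L) {p h : Euc d}
    (hh : ‖h‖ ^ 2 ≤ L * ⟪h, v⟫) :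
    ENNReal.ofReal (mol δ f n p - mol δ f n (p + h)) ≤
      ENNReal.ofReal (2 * L) *
        ∫⁻ t in Icc (0 : ℝ) 1, edisp v (mol δ (gradient f) n) (p + t • h) := by
  obtain ⟨-, hgc, hs⟩ := seg_mol hδ hf hfi hgi n
  have hD : Continuous fun t : ℝ => disp v (mol δ (gradient f) n) (p + t • h) :=
    (continuous_disp hgc).comp (by fun_prop)
  unfold edisp
  rw [← ofReal_integral_eq_lintegral_ofReal hD.continuousOn.integrableOn_Icc
      (Eventually.of_forall fun t => disp_nonneg hv _ _),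
    ← ENNReal.ofReal_mul (by linarith), ← integral_const_mul, ← neg_sub, hs, ← integral_neg]
  refine ENNReal.ofReal_le_ofReal (integral_mono ?_ ?_ fun t => ?_)
  · exact ((by fun_prop : Continuous fun t : ℝ => -⟪mol δ (gradient f) n (p + t • h), h⟫)).continuousOn.integrableOn_Icc
  · exact (hD.const_mul _).continuousOn.integrableOn_Icc
  · have := inner_ge_of_parabolic (g := mol δ (gradient f) n (p + t • h)) hv hL hh
    simp only [disp]; linarith

theorem parabolic_step {u z : Euc d} {L a ρ : ℝ} (hv : ‖v‖ = 1) (hL : 0 ≤ L) (ha : 0 ≤ a)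
    (hu : ‖u‖ ^ 2 ≤ L * ⟪u, v⟫) (hz : ‖z‖ ≤ ρ) (hρ : 4 * ρ ≤ a * ⟪u, v⟫) :
    ‖a • u + z‖ ^ 2 ≤ 3 * a * L * ⟪a • u + z, v⟫ := by
  have h1 : |⟪u, v⟫| ≤ ‖u‖ := by simpa [hv] using abs_real_inner_le_norm u v
  have h2 : |⟪z, v⟫| ≤ ‖z‖ := by simpa [hv] using abs_real_inner_le_norm z v
  rw [inner_add_left, real_inner_smul_left]
  have h3 : ‖a • u + z‖ ≤ 5 / 4 * (a * ‖u‖) := by
    refine (norm_add_le _ _).trans ?_
    rw [norm_smul, Real.norm_eq_abs, abs_of_nonneg ha]
    nlinarith [mul_le_mul_of_nonneg_left ((le_abs_self _).trans h1) ha]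
  have h4 := pow_le_pow_left₀ (norm_nonneg _) h3 2
  nlinarith [mul_le_mul_of_nonneg_left hu (sq_nonneg a),
    mul_le_mul_of_nonneg_left (show 3 / 4 * (a * ⟪u, v⟫) ≤ a * ⟪u, v⟫ + ⟪z, v⟫ by
      linarith [neg_le_of_abs_le h2]) (mul_nonneg ha hL),
    mul_nonneg (sq_nonneg a) (le_trans (sq_nonneg _) hu)]

variable {W : Type*} [MeasurableSpace W] {μ : Measure W} [SFinite μ] {S : Set W} {Y U : W → Euc d}

theorem lintegral_samples_le {e : Euc d → ℝ≥0∞} (he : Continuous e) (hY : Measurable Y)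
    (hU : Measurable U) {θ σ : ℝ → ℝ} (hθc : Continuous θ) (hσc : Continuous σ)
    (hθ : ∀ t ∈ Icc (0 : ℝ) 1, θ t ∈ Icc (0 : ℝ) 1) (hσ : ∀ t ∈ Icc (0 : ℝ) 1, |σ t| ≤ 1) {r : ℝ}
    {B : ℝ≥0∞} (hB : ∀ a ∈ Icc (0 : ℝ) 1, ∀ ζ : Euc d, ‖ζ‖ ≤ r →
      ∫⁻ w in S, e (Y w + a • U w + ζ) ∂μ ≤ B) :
    ∫⁻ w in S, (∫⁻ z in closedBall (0 : Euc d) r, ∫⁻ t in Icc (0 : ℝ) 1,
        e (Y w + θ t • U w + σ t • z)) ∂μ ≤ volume (closedBall (0 : Euc d) r) * B := by
  have hec : Measurable e := he.measurable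
  have h3 : Measurable fun p : (W × Euc d) × ℝ =>
      e (Y p.1.1 + θ p.2 • U p.1.1 + σ p.2 • p.1.2) :=
    hec.comp (((hY.comp measurable_fst.fst).add
      ((hθc.measurable.comp measurable_snd).smul (hU.comp measurable_fst.fst))).add
      ((hσc.measurable.comp measurable_snd).smul measurable_fst.snd))
  rw [lintegral_lintegral_swap h3.lintegral_prod_right'.aemeasurable,
    mul_comm, ← setLIntegral_const]
  refine setLIntegral_mono' measurableSet_closedBall fun z hz => ?_
  have h2 : Measurable fun p : W × ℝ => e (Y p.1 + θ p.2 • U p.1 + σ p.2 • z) :=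
    hec.comp (((hY.comp measurable_fst).add
      ((hθc.measurable.comp measurable_snd).smul (hU.comp measurable_fst))).add
      ((hσc.measurable.comp measurable_snd).smul_const z))
  refine (lintegral_lintegral_swap (f := fun w t => e (Y w + θ t • U w + σ t • z))
    h2.aemeasurable).trans_le ?_
  refine (setLIntegral_mono' (g := fun _ => B) measurableSet_Icc fun t ht => ?_).trans
    (by rw [setLIntegral_const, Real.volume_Icc]; simp)
  refine hB _ (hθ t ht) _ ?_
  rw [norm_smul, Real.norm_eq_abs]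
  rw [mem_closedBall_zero_iff] at hz
  calc |σ t| * ‖z‖ ≤ 1 * r := mul_le_mul (hσ t ht) hz (norm_nonneg _) zero_le_one
    _ = r := one_mul r

/-- An averaging step costs the defect at its level. -/
theorem lintegral_step_le (hδ : 0 < δ) (hf : ContDiff ℝ 1 f) (hfi : Integrable f)
    (hgi : Integrable (gradient f)) (hv : ‖v‖ = 1) (hY : Measurable Y) (hU : Measurable U)
    (hS : MeasurableSet S) (n : ℕ) {L a b : ℝ} (hL : 0 ≤ L) (ha : 0 ≤ a) (hb0 : 0 ≤ b)
    (hb : b + a ≤ 1) (hu : ∀ w ∈ S, ‖U w‖ ^ 2 ≤ L * ⟪U w, v⟫ ∧ 4 * (δ * 2 ^ n) ≤ a * ⟪U w, v⟫)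
    {B : ℝ≥0∞} (hB : ∀ θ ∈ Icc (0 : ℝ) 1, ∀ ζ : Euc d, ‖ζ‖ ≤ δ * 2 ^ n →
      ∫⁻ w in S, edisp v (mol δ (gradient f) n) (Y w + θ • U w + ζ) ∂μ ≤ B) :
    (∫⁻ w in S, ENNReal.ofReal
        (mol δ f n (Y w + b • U w) - mol δ f (n + 1) (Y w + (b + a) • U w)) ∂μ ≤
      ENNReal.ofReal (6 * a * L) * B) ∧
    (∫⁻ w in S, ENNReal.ofReal
        (mol δ f (n + 1) (Y w + b • U w) - mol δ f n (Y w + (b + a) • U w)) ∂μ ≤
      ENNReal.ofReal (6 * a * L) * B) := by
  obtain ⟨hfc, hgc, -⟩ := seg_mol hδ hf hfi hgi n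
  set r := δ * 2 ^ n with hr
  have hr0 : 0 < r := by positivity
  have hV := volume_real_closedBall_pos (0 : Euc d) hr0
  set K := closedBall (0 : Euc d) r with hK
  have hfin : volume K ≠ ⊤ := (isCompact_closedBall _ r).measure_lt_top.ne
  have he := continuous_edisp (v := v) hgc
  have havg : ∀ p : Euc d, mol δ f (n + 1) p = (volume.real K)⁻¹ * ∫ z in K, mol δ f n (p + z) :=
    fun p => rfl
  have hconst : ∀ p : Euc d, mol δ f n p = (volume.real K)⁻¹ * ∫ _z in K, mol δ f n p := fun p => by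
    rw [setIntegral_const, smul_eq_mul, ← mul_assoc, inv_mul_cancel₀ hV.ne', one_mul]
  have hint : ∀ p : Euc d, IntegrableOn (fun z => mol δ f n (p + z)) K := fun p =>
    integrableOn_shift (integrable_mol hδ hfi n) p K
  have hcint : ∀ p : Euc d, IntegrableOn (fun _ => mol δ f n p) K := fun p =>
    integrableOn_const hfin
  have main : ∀ (θ σ : ℝ → ℝ), Continuous θ → Continuous σ →
      (∀ t ∈ Icc (0 : ℝ) 1, θ t ∈ Icc (0 : ℝ) 1) → (∀ t ∈ Icc (0 : ℝ) 1, |σ t| ≤ 1) →
      ∀ F : W → ℝ, (∀ w ∈ S, ENNReal.ofReal (F w) ≤ ENNReal.ofReal (volume.real K)⁻¹ *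
        (ENNReal.ofReal (6 * a * L) * ∫⁻ z in K, ∫⁻ t in Icc (0 : ℝ) 1,
          edisp v (mol δ (gradient f) n) (Y w + θ t • U w + σ t • z))) →
      ∫⁻ w in S, ENNReal.ofReal (F w) ∂μ ≤ ENNReal.ofReal (6 * a * L) * B := by
    intro θ σ hθc hσc hθ hσ F hF
    refine (setLIntegral_mono' hS hF).trans ?_
    rw [lintegral_const_mul' _ _ ENNReal.ofReal_ne_top, lintegral_const_mul' _ _ ENNReal.ofReal_ne_top,
      mul_left_comm]
    refine mul_le_mul' le_rfl ((mul_le_mul' le_rfl
      (lintegral_samples_le he hY hU hθc hσc hθ hσ hB)).trans (le_of_eq ?_))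
    rw [← mul_assoc, ENNReal.ofReal_inv_of_pos hV, measureReal_def, ENNReal.ofReal_toReal hfin,
      ENNReal.inv_mul_cancel (measure_closedBall_pos volume 0 hr0).ne' hfin, one_mul]
  have pt : ∀ w ∈ S, ∀ (p : Euc d) (z : Euc d), z ∈ K →
      ENNReal.ofReal (mol δ f n p - mol δ f n (p + (a • U w + z))) ≤ ENNReal.ofReal (6 * a * L) *
        ∫⁻ t in Icc (0 : ℝ) 1, edisp v (mol δ (gradient f) n) (p + t • (a • U w + z)) := by
    intro w hw p z hz
    rw [show 6 * a * L = 2 * (3 * a * L) by ring]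
    exact ofReal_sub_le hδ hf hfi hgi hv n (by positivity)
      (parabolic_step hv hL ha (hu w hw).1 (mem_closedBall_zero_iff.1 hz) (hu w hw).2)
  constructor
  · refine main (fun t => b + t * a) (fun t => t) (by fun_prop) (by fun_prop)
      (fun t ht => ⟨by nlinarith [ht.1, ht.2], by nlinarith [ht.1, ht.2, mul_le_mul_of_nonneg_right ht.2 ha]⟩)
      (fun t ht => by rw [abs_of_nonneg ht.1]; exact ht.2) _ fun w hw => ?_
    rw [hconst (Y w + b • U w), havg, ← mul_sub, ← integral_sub (hcint _) (hint _),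
      ENNReal.ofReal_mul (inv_pos.2 hV).le, ← lintegral_const_mul' _ _ ENNReal.ofReal_ne_top]
    refine mul_le_mul' le_rfl ((ofReal_integral_le_lintegral ((hcint _).sub (hint _))).trans ?_)
    refine setLIntegral_mono' measurableSet_closedBall fun z hz => ?_
    have h := pt w hw (Y w + b • U w) z hz
    have e1 : Y w + b • U w + (a • U w + z) = Y w + (b + a) • U w + z := by module
    have e2 : ∀ t : ℝ, Y w + b • U w + t • (a • U w + z) = Y w + (b + t * a) • U w + t • z :=
      fun t => by module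
    simpa only [e1, e2, Pi.sub_apply] using h
  · refine main (fun t => b + t * a) (fun t => 1 - t) (by fun_prop) (by fun_prop)
      (fun t ht => ⟨by nlinarith [ht.1, ht.2], by nlinarith [ht.1, ht.2, mul_le_mul_of_nonneg_right ht.2 ha]⟩)
      (fun t ht => abs_le.2 ⟨by linarith [ht.2], by linarith [ht.1]⟩) _ fun w hw => ?_
    rw [hconst (Y w + (b + a) • U w), havg, ← mul_sub, ← integral_sub (hint _) (hcint _),
      ENNReal.ofReal_mul (inv_pos.2 hV).le, ← lintegral_const_mul' _ _ ENNReal.ofReal_ne_top]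
    refine mul_le_mul' le_rfl ((ofReal_integral_le_lintegral ((hint _).sub (hcint _))).trans ?_)
    refine setLIntegral_mono' measurableSet_closedBall fun z hz => ?_
    -- the reflected displacement
    have h := pt w hw (Y w + b • U w + z) (-z)
      (by rw [hK, mem_closedBall_zero_iff, norm_neg]; exact mem_closedBall_zero_iff.1 hz)
    have e1 : Y w + b • U w + z + (a • U w + -z) = Y w + (b + a) • U w := by module
    have e2 : ∀ t : ℝ, Y w + b • U w + z + t • (a • U w + -z) =
        Y w + (b + t * a) • U w + -((t - 1) • z) := fun t => by module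
    have e3 : ∀ t : ℝ, -((t - 1) • z) = (1 - t) • z := fun t => by module
    simp only [e1, e2, e3] at h
    exact h

/-- A straight piece at the finest level. -/
theorem lintegral_straight_le (hδ : 0 < δ) (hf : ContDiff ℝ 1 f) (hfi : Integrable f)
    (hgi : Integrable (gradient f)) (hv : ‖v‖ = 1) (hY : Measurable Y) (hU : Measurable U)
    (hS : MeasurableSet S) {L a b : ℝ} (hL : 0 ≤ L) (ha : 0 ≤ a) (hb0 : 0 ≤ b) (hb : b + a ≤ 1)
    (hu : ∀ w ∈ S, ‖U w‖ ^ 2 ≤ L * ⟪U w, v⟫) {B : ℝ≥0∞}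
    (hB : ∀ θ ∈ Icc (0 : ℝ) 1, ∫⁻ w in S, edisp v (gradient f) (Y w + θ • U w) ∂μ ≤ B) :
    ∫⁻ w in S, ENNReal.ofReal (f (Y w + b • U w) - f (Y w + (b + a) • U w)) ∂μ ≤
      ENNReal.ofReal (2 * a * L) * B := by
  have hgc : Continuous (gradient f) := (seg_mol hδ hf hfi hgi 0).2.1
  have he := continuous_edisp (v := v) hgc
  refine (setLIntegral_mono' hS (g := fun w => ENNReal.ofReal (2 * a * L) *
    ∫⁻ t in Icc (0 : ℝ) 1, edisp v (gradient f) (Y w + (b + t * a) • U w)) fun w hw => ?_).trans ?_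
  · have h := ofReal_sub_le hδ hf hfi hgi hv 0 (mul_nonneg ha hL) (p := Y w + b • U w)
      (h := a • U w) (by
        rw [norm_smul, mul_pow, Real.norm_eq_abs, sq_abs, real_inner_smul_left]
        nlinarith [mul_le_mul_of_nonneg_left (hu w hw) (sq_nonneg a)])
    simp only [mol] at h
    rw [show 2 * a * L = 2 * (a * L) by ring]
    have e1 : Y w + b • U w + a • U w = Y w + (b + a) • U w := by module
    have e2 : ∀ t : ℝ, Y w + b • U w + t • a • U w = Y w + (b + t * a) • U w := fun t => by module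
    simpa only [e1, e2] using h
  · rw [lintegral_const_mul' _ _ ENNReal.ofReal_ne_top,
      lintegral_lintegral_swap (by fun_prop : AEMeasurable _ _)]
    refine mul_le_mul' le_rfl ((setLIntegral_mono' (g := fun _ => B) measurableSet_Icc
      fun t ht => hB _ ?_).trans (by rw [setLIntegral_const, Real.volume_Icc]; simp))
    exact ⟨by nlinarith [ht.1], by nlinarith [ht.2]⟩

theorem ofReal_sum_le {ι : Type*} (s : Finset ι) (F : ι → ℝ) :
    ENNReal.ofReal (∑ i ∈ s, F i) ≤ ∑ i ∈ s, ENNReal.ofReal (F i) := by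
  classical
  induction s using Finset.induction with
  | empty => simp
  | insert a t ha ih =>
    rw [Finset.sum_insert ha, Finset.sum_insert ha]
    exact ENNReal.ofReal_add_le.trans (add_le_add le_rfl ih)

/-- The multiscale comparison over a set of displacements of size about `δ 2 ^ i`. -/
theorem lintegral_chain_le (hδ : 0 < δ) (hf : ContDiff ℝ 1 f) (hfi : Integrable f)
    (hgi : Integrable (gradient f)) (hv : ‖v‖ = 1) (hY : Measurable Y) (hU : Measurable U)
    (hS : MeasurableSet S) (i : ℕ) {L : ℝ} (hL : 0 ≤ L)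
    (hu : ∀ w ∈ S, ‖U w‖ ^ 2 ≤ L * ⟪U w, v⟫ ∧ (i = 0 ∨ δ * 2 ^ i ≤ ⟪U w, v⟫))
    {B : ℕ → ℝ≥0∞} (hB : ∀ n ≤ i, ∀ θ ∈ Icc (0 : ℝ) 1, ∀ ζ : Euc d, ‖ζ‖ ≤ δ * 2 ^ n →
      ∫⁻ w in S, edisp v (mol δ (gradient f) n) (Y w + θ • U w + ζ) ∂μ ≤ B n) :
    ∫⁻ w in S, ENNReal.ofReal (f (Y w) - f (Y w + U w)) ∂μ ≤
      ENNReal.ofReal (100 * L) *
        ∑ n ∈ Finset.range (i + 1), ENNReal.ofReal ((1 / 2) ^ (i - n)) * B n := by
  have hB0 : ∀ θ ∈ Icc (0 : ℝ) 1,
      ∫⁻ w in S, edisp v (gradient f) (Y w + θ • U w) ∂μ ≤ B 0 := fun θ hθ => by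
    simpa [mol] using hB 0 (Nat.zero_le i) θ hθ 0 (by simp [hδ.le])
  rcases lt_or_ge i 3 with hi | hi
  · refine (le_of_eq_of_le ?_ (lintegral_straight_le hδ hf hfi hgi hv hY hU hS hL zero_le_one
      le_rfl (by norm_num) (fun w hw => (hu w hw).1) hB0)).trans ?_
    · simp
    · have h1 : ENNReal.ofReal (2 * 1 * L) ≤
          ENNReal.ofReal (100 * L) * ENNReal.ofReal ((1 / 2) ^ (i - 0)) := by
        rw [← ENNReal.ofReal_mul (by positivity)]
        refine ENNReal.ofReal_le_ofReal ?_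
        have : (1 / 4 : ℝ) ≤ (1 / 2) ^ (i - 0) := by interval_cases i <;> norm_num
        nlinarith
      refine (mul_le_mul' h1 le_rfl).trans ?_
      rw [mul_assoc]
      exact mul_le_mul' le_rfl (Finset.single_le_sum (f := fun n =>
        ENNReal.ofReal ((1 / 2) ^ (i - n)) * B n) (fun _ _ => bot_le) (Finset.mem_range.2 (by omega)))
  obtain ⟨N, rfl⟩ : ∃ N, i = N + 3 := ⟨i - 3, by omega⟩
  set α : ℕ → ℝ := fun n => 4 * 2 ^ n / 2 ^ (N + 3) with hα
  have hα0 : ∀ n, 0 ≤ α n := fun n => by positivity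
  have hαN : α N = 1 / 2 := by
    simp only [hα]; rw [pow_add]; field_simp; norm_num
  have hαs : ∀ n, α (n + 1) = α n + α n := fun n => by simp only [hα, pow_succ]; ring
  have hαm : ∀ n ≤ N, α n ≤ 1 / 2 := fun n hn => hαN ▸ by
    simp only [hα]; gcongr; norm_num
  set up : ℕ → W → ℝ := fun n w =>
    mol δ f n (Y w + α n • U w) - mol δ f (n + 1) (Y w + α (n + 1) • U w)
  set dn : ℕ → W → ℝ := fun n w =>
    mol δ f (n + 1) (Y w + (1 - α (n + 1)) • U w) - mol δ f n (Y w + (1 - α n) • U w)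
  set e0 : W → ℝ := fun w => f (Y w) - f (Y w + α 0 • U w)
  set e1 : W → ℝ := fun w => f (Y w + (1 - α 0) • U w) - f (Y w + U w)
  have hsum : ∀ w, f (Y w) - f (Y w + U w) =
      e0 w + e1 w + ∑ n ∈ Finset.range N, (up n w + dn n w) := by
    intro w
    rw [Finset.sum_add_distrib,
      Finset.sum_range_sub' (fun n => mol δ f n (Y w + α n • U w)) N,
      Finset.sum_range_sub (fun n => mol δ f n (Y w + (1 - α n) • U w)) N]
    simp only [e0, e1, mol, hαN]
    norm_num
    ring
  have hc : ∀ n, Continuous (mol δ f n) := fun n => (seg_mol hδ hf hfi hgi n).1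
  have hcf : Continuous f := hf.continuous
  have hstep : ∀ n ∈ Finset.range N, ∫⁻ w in S,
      (ENNReal.ofReal (up n w) + ENNReal.ofReal (dn n w)) ∂μ ≤
        ENNReal.ofReal (12 * α n * L) * B n := by
    intro n hn
    rw [Finset.mem_range] at hn
    have hu' : ∀ w ∈ S, ‖U w‖ ^ 2 ≤ L * ⟪U w, v⟫ ∧ 4 * (δ * 2 ^ n) ≤ α n * ⟪U w, v⟫ := by
      intro w hw
      obtain ⟨h1, h2⟩ := hu w hw
      refine ⟨h1, ?_⟩
      have h2' := h2.resolve_left (by omega)
      refine le_trans (le_of_eq ?_) (mul_le_mul_of_nonneg_left h2' (hα0 n))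
      simp only [hα]; field_simp
    have b1 := (hαs n).symm
    have b2 : 1 - α (n + 1) + α n = 1 - α n := by rw [hαs]; ring
    have h1 := (lintegral_step_le hδ hf hfi hgi hv hY hU hS n hL (hα0 n) (hα0 n)
      (by linarith [hαm n hn.le]) hu' (hB n (by omega))).1
    have h2 := (lintegral_step_le hδ hf hfi hgi hv hY hU hS n hL (hα0 n)
      (show 0 ≤ 1 - α (n + 1) by linarith [hαm (n + 1) hn]) (by linarith [hα0 n]) hu'
      (hB n (by omega))).2
    simp only [b1] at h1
    simp only [b2] at h2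
    rw [lintegral_add_left (by fun_prop)]
    refine (add_le_add h1 h2).trans (le_of_eq ?_)
    rw [← add_mul, ← ENNReal.ofReal_add (by positivity [hα0 n]) (by positivity [hα0 n])]
    ring_nf
  have h0 := lintegral_straight_le hδ hf hfi hgi hv hY hU hS hL (hα0 0) le_rfl
    (by linarith [hαm 0 (Nat.zero_le N)]) (fun w hw => (hu w hw).1) hB0
  have h1 := lintegral_straight_le hδ hf hfi hgi hv hY hU hS hL (hα0 0)
    (show 0 ≤ 1 - α 0 by linarith [hαm 0 (Nat.zero_le N)]) (by linarith)
    (fun w hw => (hu w hw).1) hB0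
  simp only [zero_smul, add_zero, zero_add] at h0
  simp only [sub_add_cancel, one_smul] at h1
  calc ∫⁻ w in S, ENNReal.ofReal (f (Y w) - f (Y w + U w)) ∂μ
      ≤ ∫⁻ w in S, (ENNReal.ofReal (e0 w) + ENNReal.ofReal (e1 w) +
          ∑ n ∈ Finset.range N, (ENNReal.ofReal (up n w) + ENNReal.ofReal (dn n w))) ∂μ := by
        refine lintegral_mono fun w => ?_
        rw [hsum w]
        refine ENNReal.ofReal_add_le.trans (add_le_add ENNReal.ofReal_add_le ?_)
        exact (ofReal_sum_le _ _).trans (Finset.sum_le_sum fun n _ => ENNReal.ofReal_add_le)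
    _ ≤ ENNReal.ofReal (4 * α 0 * L) * B 0 +
          ∑ n ∈ Finset.range N, ENNReal.ofReal (12 * α n * L) * B n := by
        rw [lintegral_add_left (by fun_prop), lintegral_add_left (by fun_prop),
          lintegral_finsetSum _ fun n _ => by fun_prop]
        refine add_le_add ((add_le_add h0 h1).trans (le_of_eq ?_)) (Finset.sum_le_sum hstep)
        rw [← add_mul, ← ENNReal.ofReal_add (by positivity [hα0 0]) (by positivity [hα0 0])]
        ring_nf
    _ ≤ _ := by
        have hw : ∀ n ≤ N + 3, α n = 4 * (1 / 2) ^ (N + 3 - n) := fun n hn => by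
          simp only [hα, one_div, inv_pow]
          obtain ⟨m, hm⟩ := Nat.exists_eq_add_of_le hn
          rw [hm, Nat.add_sub_cancel_left, pow_add]; field_simp
        set T := ∑ n ∈ Finset.range (N + 3 + 1), ENNReal.ofReal ((1 / 2) ^ (N + 3 - n)) * B n
        have t1 : ENNReal.ofReal (4 * α 0 * L) * B 0 ≤ ENNReal.ofReal (50 * L) * T := by
          refine le_trans ?_ (mul_le_mul' le_rfl (Finset.single_le_sum
            (fun _ _ => bot_le) (Finset.mem_range.2 (Nat.succ_pos (N + 3)))))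
          rw [← mul_assoc, ← ENNReal.ofReal_mul (by positivity)]
          refine mul_le_mul' (ENNReal.ofReal_le_ofReal ?_) le_rfl
          rw [hw 0 (by omega)]
          nlinarith [pow_pos (show (0:ℝ) < 1/2 by norm_num) (N + 3 - 0)]
        have t2 : ∑ n ∈ Finset.range N, ENNReal.ofReal (12 * α n * L) * B n ≤
            ENNReal.ofReal (50 * L) * T := by
          refine le_trans ?_ (mul_le_mul' le_rfl
            (Finset.sum_le_sum_of_subset (Finset.range_mono (by omega : N ≤ N + 3 + 1))))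
          rw [Finset.mul_sum]
          refine Finset.sum_le_sum fun n hn => ?_
          rw [← mul_assoc, ← ENNReal.ofReal_mul (by positivity)]
          refine mul_le_mul' (ENNReal.ofReal_le_ofReal ?_) le_rfl
          rw [hw n (by rw [Finset.mem_range] at hn; omega)]
          nlinarith [pow_pos (show (0:ℝ) < 1/2 by norm_num) (N + 3 - n)]
        refine (add_le_add t1 t2).trans (le_of_eq ?_)
        rw [← add_mul, ← ENNReal.ofReal_add (by positivity) (by positivity)]
        ring_nf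

end Vale.Agent.P137
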