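import Vale.Agent.P137.Defs

/-!
Moving the mass of the unit ball towards the bottom, along the chords in direction `v`.
-/

namespace Vale.Agent.P137

open MeasureTheory Metric Set
open scoped RealInnerProductSpace ENNReal

namespace Chord

/-- Half the length of the chord through the point with orthogonal part `y`. -/
noncomputable def half {n : ℕ} (y : Fin n → ℝ) : ℝ := Real.sqrt (1 - ∑ i, y i ^ 2)

/-- The new height on a chord of half length `S`. -/
noncomputable def shift (S s : ℝ) : ℝ := max (3 / 4 * s - S / 4) (3 / 2 * s - S / 2)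

theorem shift_of_le {S s : ℝ} (h : s ≤ S / 3) : shift S s = 3 / 4 * s - S / 4 :=
  max_eq_left (by linarith)

theorem shift_of_ge {S s : ℝ} (h : S / 3 ≤ s) : shift S s = 3 / 2 * s - S / 2 :=
  max_eq_right (by linarith)

theorem shift_mem {S s : ℝ} (h : s ∈ Icc (-S) S) : shift S s ∈ Icc (-S) S := by
  obtain ⟨h1, h2⟩ := h
  constructor
  · exact le_trans (by linarith) (le_max_left _ _)
  · exact max_le (by linarith) (by linarith)

theorem shift_height {S s : ℝ} (hS : S ≤ 1) (h : s ∈ Icc (-S) S) :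
    (1 + s) / 2 ≤ 1 + shift S s := by
  obtain ⟨h1, h2⟩ := h
  have := le_max_left (3 / 4 * s - S / 4) (3 / 2 * s - S / 2)
  rw [shift]
  linarith

/-- Coordinates with respect to a unit vector: height and orthogonal part. -/
theorem exists_coords {n : ℕ} {v : Euc (n + 1)} (hv : ‖v‖ = 1) :
    ∃ Φ : (ℝ × (Fin n → ℝ)) ≃ᵐ Euc (n + 1),
      MeasurePreserving Φ volume volume ∧ Φ (1, 0) = v ∧
      (∀ p, ⟪Φ p, v⟫ = p.1) ∧ (∀ p, ‖Φ p‖ ^ 2 = p.1 ^ 2 + ∑ i, p.2 i ^ 2) ∧
      (∀ p q, Φ (p + q) = Φ p + Φ q) ∧ (∀ (a : ℝ) p, Φ (a • p) = a • Φ p) := by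
  set e : Euc (n + 1) := EuclideanSpace.single 0 1 with he
  have hev : ‖e‖ = ‖v‖ := by simp [he, hv]
  set U : Euc (n + 1) ≃ₗᵢ[ℝ] Euc (n + 1) := (ℝ ∙ (e - v))ᗮ.reflection with hU
  have hUe : U e = v := Submodule.reflection_sub hev
  set P : (ℝ × (Fin n → ℝ)) ≃ᵐ (Fin (n + 1) → ℝ) :=
    (MeasurableEquiv.piFinSuccAbove (fun _ : Fin (n + 1) => ℝ) 0).symm with hP
  set Φ := (P.trans (MeasurableEquiv.toLp 2 (Fin (n + 1) → ℝ))).trans
    U.toHomeomorph.toMeasurableEquiv with hΦ
  have happ : ∀ p, Φ p = U (WithLp.toLp 2 (Fin.cons p.1 p.2)) := by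
    intro p
    simp [hΦ, hP, MeasurableEquiv.piFinSuccAbove, Fin.consEquiv]
  refine ⟨Φ, ?_, ?_, ?_, ?_, ?_, ?_⟩
  · have h1 : MeasurePreserving P volume volume :=
      (volume_preserving_piFinSuccAbove (fun _ : Fin (n + 1) => ℝ) 0).symm _
    exact U.measurePreserving.comp ((PiLp.volume_preserving_toLp _).comp h1)
  · rw [happ, ← hUe]
    congr 1
    ext i
    refine Fin.cases ?_ (fun j => ?_) i <;> simp [he, EuclideanSpace.single, Fin.succ_ne_zero]
  · intro p
    rw [happ, ← hUe, U.inner_map_map, he, EuclideanSpace.inner_single_right]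
    simp
  · intro p
    rw [happ, U.norm_map, EuclideanSpace.norm_sq_eq, Fin.sum_univ_succ]
    simp
  · intro p q
    rw [happ, happ, happ, ← map_add]
    congr 1
    ext i
    refine Fin.cases ?_ (fun j => ?_) i <;> simp
  · intro a p
    rw [happ, happ, ← map_smul]
    congr 1
    ext i
    refine Fin.cases ?_ (fun j => ?_) i <;> simp

theorem lintegral_affine (f : ℝ → ℝ≥0∞) {a : ℝ} (ha : 0 < a) (b : ℝ) :
    ∫⁻ s, f (a * s + b) = ENNReal.ofReal a⁻¹ * ∫⁻ t, f t := by
  have e : MeasurableEmbedding fun x : ℝ => a * x :=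
    (Homeomorph.mulLeft₀ a ha.ne').measurableEmbedding
  have h := e.lintegral_map (μ := volume) (fun t => f (t + b))
  rw [← h, Real.map_volume_mul_left ha.ne', lintegral_smul_measure, lintegral_add_right_eq_self,
    abs_of_pos (inv_pos.2 ha), smul_eq_mul]

theorem lintegral_scale {n : ℕ} (f : (Fin n → ℝ) → ℝ≥0∞) {γ : ℝ} (hγ : 0 < γ) :
    ∫⁻ y, f (γ • y) = ENNReal.ofReal (γ ^ n)⁻¹ * ∫⁻ y, f y := by
  have e : MeasurableEmbedding fun y : Fin n → ℝ => γ • y :=
    (Homeomorph.smulOfNeZero γ hγ.ne').measurableEmbedding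
  rw [← e.lintegral_map f, Measure.map_addHaar_smul volume hγ.ne', lintegral_smul_measure,
    Module.finrank_pi, Fintype.card_fin, abs_of_pos (by positivity), smul_eq_mul]

/-- The identity on one chord. -/
theorem chord_integral {g : ℝ → ℝ} (hg : Continuous g) {S : ℝ} (hS : 0 ≤ S) :
    ∫ s in Icc (-S) S, g s =
      3 / 4 * (∫ s in Icc (-S) S, g (shift S s)) + 1 / 2 * ∫ s in Icc 0 S, g s := by
  have hk : Continuous fun s => g (shift S s) := by unfold shift; fun_prop
  have toI : ∀ (k : ℝ → ℝ) (a b : ℝ), a ≤ b → ∫ s in Icc a b, k s = ∫ s in a..b, k s := by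
    intro k a b hab
    rw [intervalIntegral.integral_of_le hab, integral_Icc_eq_integral_Ioc]
  rw [toI g _ _ (by linarith), toI (fun s => g (shift S s)) _ _ (by linarith), toI g _ _ hS,
    ← intervalIntegral.integral_add_adjacent_intervals (b := 0) (hg.intervalIntegrable _ _)
      (hg.intervalIntegrable _ _),
    ← intervalIntegral.integral_add_adjacent_intervals (b := S / 3) (hk.intervalIntegrable (-S) _)
      (hk.intervalIntegrable _ S)]
  have e1 : ∫ s in (-S)..(S / 3), g (shift S s) = 4 / 3 * ∫ t in (-S)..0, g t := by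
    rw [intervalIntegral.integral_congr (g := fun s => g (3 / 4 * s + -(S / 4)))]
    · rw [intervalIntegral.integral_comp_mul_add g (by norm_num : (3 / 4 : ℝ) ≠ 0)]
      rw [show 3 / 4 * -S + -(S / 4) = -S by ring, show 3 / 4 * (S / 3) + -(S / 4) = 0 by ring]
      norm_num
    · intro s hs
      rw [uIcc_of_le (by linarith)] at hs
      show g (shift S s) = g (3 / 4 * s + -(S / 4))
      rw [shift_of_le hs.2]
      ring_nf
  have e2 : ∫ s in (S / 3)..S, g (shift S s) = 2 / 3 * ∫ t in (0 : ℝ)..S, g t := by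
    rw [intervalIntegral.integral_congr (g := fun s => g (3 / 2 * s + -(S / 2)))]
    · rw [intervalIntegral.integral_comp_mul_add g (by norm_num : (3 / 2 : ℝ) ≠ 0)]
      rw [show 3 / 2 * (S / 3) + -(S / 2) = 0 by ring, show 3 / 2 * S + -(S / 2) = S by ring]
      norm_num
    · intro s hs
      rw [uIcc_of_le (by linarith)] at hs
      show g (shift S s) = g (3 / 2 * s + -(S / 2))
      rw [shift_of_ge hs.1]
      ring_nf
  rw [e1, e2]
  ring

end Chord

open Chord in
theorem exists_chord_map {d : ℕ} {v : Euc d} (hv : ‖v‖ = 1) :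
    ∃ Q : Euc d → Euc d, Measurable Q ∧
      (∀ w ∈ closedBall (0 : Euc d) 1,
        Q w ∈ closedBall (0 : Euc d) 1 ∧ (1 + ⟪w, v⟫) / 2 ≤ 1 + ⟪Q w, v⟫) ∧
      (∀ h : Euc d → ℝ, Continuous h →
        ∫ w in closedBall (0 : Euc d) 1, h w =
          (3 / 4) * (∫ w in closedBall (0 : Euc d) 1, h (Q w)) +
            (1 / 2) * ∫ w in closedBall (0 : Euc d) 1 ∩ {w | 0 ≤ ⟪w, v⟫}, h w) ∧
      ∀ H : Euc d → ℝ≥0∞, Measurable H → ∀ (c : Euc d) (α β : ℝ), 0 ≤ α → 0 ≤ β → 0 < α + β →
        ∫⁻ w in closedBall (0 : Euc d) 1, H (c + α • w + β • Q w) ≤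
          ENNReal.ofReal (4 / (α + β) ^ d) * ∫⁻ p, H p := by
  match d, v, hv with
  | 0, v, hv => simp [Subsingleton.elim v 0] at hv
  | n + 1, v, hv =>
  obtain ⟨Φ, hΦ, hΦv, hinner, hnorm, hadd, hsmul⟩ := exists_coords hv
  let Q : Euc (n + 1) → Euc (n + 1) := fun w =>
    w + (shift (Real.sqrt (1 - (‖w‖ ^ 2 - ⟪w, v⟫ ^ 2))) ⟪w, v⟫ - ⟪w, v⟫) • v
  have hQc : Continuous Q := by
    show Continuous fun w : Euc (n + 1) =>
      w + (shift (Real.sqrt (1 - (‖w‖ ^ 2 - ⟪w, v⟫ ^ 2))) ⟪w, v⟫ - ⟪w, v⟫) • v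
    unfold shift
    fun_prop
  have hQ : ∀ p, Q (Φ p) = Φ (shift (half p.2) p.1, p.2) := by
    intro p
    have e : (shift (half p.2) p.1, p.2) = p + (shift (half p.2) p.1 - p.1) • ((1 : ℝ), (0 : Fin n → ℝ)) := by
      ext <;> simp
    show Φ p + _ • v = _
    rw [e, hadd, hsmul, hΦv, hnorm, hinner, half, add_sub_cancel_left]
  have mem : ∀ s y, Φ (s, y) ∈ closedBall (0 : Euc (n + 1)) 1 ↔
      (∑ i, y i ^ 2 ≤ 1 ∧ s ∈ Icc (-half y) (half y)) := by
    intro s y
    have hnn : 0 ≤ ∑ i, y i ^ 2 := Finset.sum_nonneg fun i _ => sq_nonneg _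
    have hsq : ‖Φ (s, y)‖ ≤ 1 ↔ ‖Φ (s, y)‖ ^ 2 ≤ 1 := by
      rw [sq_le_one_iff₀ (norm_nonneg _)]
    rw [mem_closedBall_zero_iff, hsq, hnorm, mem_Icc, ← abs_le, half]
    constructor
    · intro h
      have h1 : ∑ i, y i ^ 2 ≤ 1 := by nlinarith [sq_nonneg s]
      exact ⟨h1, Real.abs_le_sqrt (by linarith)⟩
    · rintro ⟨h1, h2⟩
      have h3 := pow_le_pow_left₀ (abs_nonneg s) h2 2
      rw [sq_abs, Real.sq_sqrt (by linarith)] at h3
      linarith
  have hball : MeasurableSet (closedBall (0 : Euc (n + 1)) 1) := measurableSet_closedBall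
  refine ⟨Q, hQc.measurable, ?_, ?_, ?_⟩
  · intro w hw
    obtain ⟨⟨s, y⟩, rfl⟩ := Φ.surjective w
    obtain ⟨h1, h2⟩ := (mem s y).1 hw
    rw [hQ, hinner, hinner]
    refine ⟨(mem _ y).2 ⟨h1, shift_mem h2⟩, shift_height ?_ h2⟩
    exact Real.sqrt_le_one.2 (by linarith [Finset.sum_nonneg fun i (_ : i ∈ Finset.univ) => sq_nonneg (y i)])
  · intro h hh
    have split : ∀ K : Euc (n + 1) → ℝ, Integrable K → ∫ w, K w = ∫ y, ∫ s, K (Φ (s, y)) := by
      intro K hK
      rw [← hΦ.integral_comp' K]
      exact integral_prod_symm _ ((hΦ.integrable_comp_emb Φ.measurableEmbedding).2 hK)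
    have hup : MeasurableSet {w : Euc (n + 1) | 0 ≤ ⟪w, v⟫} :=
      measurableSet_le measurable_const (by fun_prop)
    have hc : ∀ k : Euc (n + 1) → ℝ, Continuous k →
        IntegrableOn k (closedBall (0 : Euc (n + 1)) 1) := fun k hk =>
      hk.continuousOn.integrableOn_compact (isCompact_closedBall 0 1)
    have i1 := (integrable_indicator_iff hball).2 (hc h hh)
    have i2 := (integrable_indicator_iff hball).2 (hc (fun w => h (Q w)) (hh.comp hQc))
    have i3 := (integrable_indicator_iff (hball.inter hup)).2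
      ((hc h hh).mono_set inter_subset_left)
    have j : ∀ K : Euc (n + 1) → ℝ, Integrable K → Integrable fun y => ∫ s, K (Φ (s, y)) := fun K hK =>
      ((hΦ.integrable_comp_emb Φ.measurableEmbedding).2 hK).integral_prod_right
    rw [← integral_indicator hball, ← integral_indicator hball,
      ← integral_indicator (hball.inter hup), split _ i1, split _ i2, split _ i3,
      ← integral_const_mul, ← integral_const_mul,
      ← integral_add ((j _ i2).const_mul _) ((j _ i3).const_mul _)]
    refine integral_congr_ae (Filter.Eventually.of_forall fun y => ?_)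
    have hc' : Continuous fun s : ℝ => h (Φ (s, y)) := by
      have : (fun s : ℝ => Φ (s, y)) = fun s => Φ (0, y) + s • v := by
        ext1 s
        rw [← hΦv, ← hsmul, ← hadd]
        congr 1
        ext <;> simp
      exact hh.comp (by rw [this]; fun_prop)
    by_cases h1 : ∑ i, y i ^ 2 ≤ 1
    · have a1 : ∀ k : Euc (n + 1) → ℝ, ∫ s, (closedBall (0 : Euc (n + 1)) 1).indicator k (Φ (s, y)) =
          ∫ s in Icc (-half y) (half y), k (Φ (s, y)) := by
        intro k
        rw [← integral_indicator measurableSet_Icc]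
        refine integral_congr_ae (Filter.Eventually.of_forall fun s => ?_)
        by_cases hs : s ∈ Icc (-half y) (half y)
        · simp only [indicator_of_mem ((mem s y).2 ⟨h1, hs⟩), indicator_of_mem hs]
        · simp only [indicator_of_notMem (fun hm => hs ((mem s y).1 hm).2), indicator_of_notMem hs]
      have a3 : ∫ s, (closedBall (0 : Euc (n + 1)) 1 ∩ {w | 0 ≤ ⟪w, v⟫}).indicator h (Φ (s, y)) =
          ∫ s in Icc 0 (half y), h (Φ (s, y)) := by
        rw [← integral_indicator measurableSet_Icc]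
        refine integral_congr_ae (Filter.Eventually.of_forall fun s => ?_)
        have hS : 0 ≤ half y := Real.sqrt_nonneg _
        have : Φ (s, y) ∈ closedBall (0 : Euc (n + 1)) 1 ∩ {w | 0 ≤ ⟪w, v⟫} ↔
            s ∈ Icc 0 (half y) := by
          rw [mem_inter_iff, mem s y, mem_ofPred_eq, hinner, mem_Icc, mem_Icc]
          exact ⟨fun ⟨⟨_, _, b⟩, c⟩ => ⟨c, b⟩, fun ⟨c, b⟩ => ⟨⟨h1, by linarith, b⟩, c⟩⟩
        by_cases hs : s ∈ Icc 0 (half y)
        · simp only [indicator_of_mem (this.2 hs), indicator_of_mem hs]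
        · simp only [indicator_of_notMem (mt this.1 hs), indicator_of_notMem hs]
      have hS : 0 ≤ half y := Real.sqrt_nonneg _
      simp only [a1, a3, hQ]
      exact chord_integral hc' hS
    · have z : ∀ (k : Euc (n + 1) → ℝ) s, (closedBall (0 : Euc (n + 1)) 1).indicator k (Φ (s, y)) = 0 :=
        fun k s => indicator_of_notMem (fun hm => h1 ((mem s y).1 hm).1) _
      have z3 : ∀ s, (closedBall (0 : Euc (n + 1)) 1 ∩ {w | 0 ≤ ⟪w, v⟫}).indicator h (Φ (s, y)) = 0 :=
        fun s => indicator_of_notMem (fun hm => h1 ((mem s y).1 hm.1).1) _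
      simp [z, z3]
  · intro H hH c α β hα hβ hab
    set γ := α + β with hγ
    set K : ℝ × (Fin n → ℝ) → ℝ≥0∞ := fun p => H (c + Φ p) with hKdef
    have hK : Measurable K := hH.comp ((Φ.measurable).const_add c)
    have hHK : ∫⁻ p, H p = ∫⁻ y, ∫⁻ s, K (s, y) := by
      rw [← lintegral_add_left_eq_self (μ := volume) H c,
        ← hΦ.lintegral_comp (f := fun p => H (c + p)) (hH.comp (measurable_const_add c))]
      exact lintegral_prod_symm _ hK.aemeasurable
    have hmeas : Measurable fun w => (closedBall (0 : Euc (n + 1)) 1).indicator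
        (fun w => H (c + α • w + β • Q w)) w :=
      (hH.comp (by fun_prop)).indicator hball
    rw [← lintegral_indicator hball, ← hΦ.lintegral_comp hmeas, hHK,
      show (volume : Measure (ℝ × (Fin n → ℝ))) = (volume : Measure ℝ).prod volume from rfl,
      lintegral_prod_symm (fun p => (closedBall (0 : Euc (n + 1)) 1).indicator
        (fun w => H (c + α • w + β • Q w)) (Φ p)) (hmeas.comp Φ.measurable).aemeasurable]
    have hstep : ∀ s y, c + α • Φ (s, y) + β • Q (Φ (s, y)) =
        c + Φ (α * s + β * shift (half y) s, γ • y) := by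
      intro s y
      rw [hQ, ← hsmul, ← hsmul, add_assoc, ← hadd]
      congr 2
      ext <;> simp [hγ, add_mul]
    set a := α + β * (3 / 4) with ha
    set b := α + β * (3 / 2) with hb
    have apos : 0 < a := by rw [ha]; linarith
    have bpos : 0 < b := by rw [hb]; linarith
    have hchord : ∀ y, ∫⁻ s, (closedBall (0 : Euc (n + 1)) 1).indicator
        (fun w => H (c + α • w + β • Q w)) (Φ (s, y)) ≤
        ENNReal.ofReal (4 / γ) * ∫⁻ t, K (t, γ • y) := by
      intro y
      have hKy : Measurable fun t => K (t, γ • y) := hK.comp (by fun_prop)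
      calc ∫⁻ s, (closedBall (0 : Euc (n + 1)) 1).indicator
            (fun w => H (c + α • w + β • Q w)) (Φ (s, y))
          ≤ ∫⁻ s, (K (a * s + -(β * half y / 4), γ • y) +
              K (b * s + -(β * half y / 2), γ • y)) := by
            refine lintegral_mono fun s => (indicator_le_self _ _ _).trans ?_
            simp only [hstep]
            rcases le_total s (half y / 3) with hs | hs
            · refine le_trans (le_of_eq ?_) le_self_add
              rw [hKdef, shift_of_le hs, ha]
              ring_nf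
            · refine le_trans (le_of_eq ?_) le_add_self
              rw [hKdef, shift_of_ge hs, hb]
              ring_nf
        _ = (ENNReal.ofReal a⁻¹ + ENNReal.ofReal b⁻¹) * ∫⁻ t, K (t, γ • y) := by
            have hm : Measurable fun s => K (a * s + -(β * half y / 4), γ • y) :=
              hK.comp (by fun_prop)
            rw [lintegral_add_left hm,
              lintegral_affine (fun t => K (t, γ • y)) apos,
              lintegral_affine (fun t => K (t, γ • y)) bpos, add_mul]
        _ ≤ ENNReal.ofReal (4 / γ) * ∫⁻ t, K (t, γ • y) := by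
            refine mul_le_mul_left ?_ _
            rw [← ENNReal.ofReal_add (by positivity) (by positivity)]
            refine ENNReal.ofReal_le_ofReal ?_
            have k1 : a⁻¹ ≤ 2 / γ := by
              rw [inv_le_comm₀ apos (by positivity), inv_div]
              rw [ha, hγ]; linarith
            have k2 : b⁻¹ ≤ 2 / γ := by
              rw [inv_le_comm₀ bpos (by positivity), inv_div]
              rw [hb, hγ]; linarith
            calc a⁻¹ + b⁻¹ ≤ 2 / γ + 2 / γ := add_le_add k1 k2
              _ = 4 / γ := by ring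
    refine (lintegral_mono hchord).trans (le_of_eq ?_)
    rw [lintegral_const_mul' _ _ ENNReal.ofReal_ne_top,
      lintegral_scale (fun y => ∫⁻ t, K (t, y)) hab, ← mul_assoc,
      ← ENNReal.ofReal_mul (by positivity)]
    congr 2
    field_simp
    ring

end Vale.Agent.P137
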