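import Vale.Agent.P137.Pair
import Vale.Agent.P137.Chord

/-!
The comparison of a ball average with the averages over larger balls containing the same point.
-/

namespace Vale.Agent.P137

open MeasureTheory Metric Set Filter Topology
open scoped RealInnerProductSpace ENNReal

variable {d : ℕ}

/-- The reference value near `x₀`. -/
noncomputable def refValue (δ : ℝ) (f : Euc d → ℝ) (k : ℕ) (v x₀ : Euc d) : ℝ :=
  avg (δ * 2 ^ k) f (x₀ + (6 * (δ * 2 ^ k)) • v)

/-- The defect of the whole neighbourhood, at scale `k`. -/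
noncomputable def coarseErr (δ : ℝ) (G : Euc d → Euc d) (k : ℕ) (v x₀ : Euc d) : ℝ :=
  ((δ * 2 ^ k) / (δ * 2 ^ k) ^ d) * ∑ n ∈ Finset.range (k + 1), (1 / 2) ^ (k - n) *
    ∫ y in closedBall x₀ (40 * (δ * 2 ^ k)), disp v (mol δ G n) y

/-- The defect near `x` belonging to the intermediate scale `i`. -/
noncomputable def fineErr (K δ : ℝ) (G : Euc d → Euc d) (k i : ℕ) (v x₀ x : Euc d) : ℝ :=
  ((δ * 2 ^ k) / (δ * 2 ^ k) ^ d) * ∑ n ∈ Finset.range (i + 1), (1 / 2) ^ (i - n) *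
    ∫ y in closedBall x (K * (δ * 2 ^ k) * Real.sqrt (1 / 2) ^ (k - i)) ∩
      closedBall x₀ (40 * (δ * 2 ^ k)), disp v (mol δ G n) y

theorem mol_sub {F : Type*} [NormedAddCommGroup F] [NormedSpace ℝ F] {δ : ℝ} (hδ : 0 < δ)
    {u w : Euc d → F} (hu : Integrable u) (hw : Integrable w) :
    ∀ n, mol δ (u - w) n = mol δ u n - mol δ w n
  | 0 => rfl
  | n + 1 => by
    funext p
    simp only [mol, mol_sub hδ hu hw n, Pi.sub_apply]
    exact avg_sub (by positivity) (integrable_mol hδ hu n) (integrable_mol hδ hw n) p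

theorem integral_norm_mol_sub_mol_le {δ : ℝ} (hδ : 0 < δ) {u w : Euc d → Euc d}
    (hu : Integrable u) (hw : Integrable w) (n : ℕ) :
    ∫ y, ‖mol δ u n y - mol δ w n y‖ ≤ ∫ y, ‖u y - w y‖ := by
  have h := molNorm_antitone hδ (hu.sub hw) (Nat.zero_le n)
  simp only [molNorm, mol, mol_sub hδ hu hw, Pi.sub_apply] at h
  exact h

theorem integrable_disp {v : Euc d} {g : Euc d → Euc d} (hg : Integrable g) :
    Integrable (disp v g) := by
  unfold disp
  exact hg.norm.sub (hg.inner_const v)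

theorem setIntegral_disp_le {v : Euc d} (hv : ‖v‖ = 1) {g g' : Euc d → Euc d} (hg : Integrable g)
    (hg' : Integrable g') (D : Set (Euc d)) :
    ∫ y in D, disp v g y ≤ (∫ y in D, disp v g' y) + 2 * ∫ y, ‖g y - g' y‖ := by
  have i1 := (integrable_disp (v := v) hg).integrableOn (s := D)
  have i2 := (integrable_disp (v := v) hg').integrableOn (s := D)
  have i3 : Integrable fun y => 2 * ‖g y - g' y‖ := (hg.sub hg').norm.const_mul 2
  calc ∫ y in D, disp v g y ≤ ∫ y in D, (disp v g' y + 2 * ‖g y - g' y‖) := by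
        refine integral_mono i1 (i2.add i3.integrableOn) fun y => ?_
        have h1 := norm_le_norm_add_norm_sub' (g y) (g' y)
        have h2 := neg_le_of_abs_le (abs_real_inner_le_norm (g y - g' y) v)
        rw [hv, mul_one, inner_sub_left] at h2
        simp only [disp]
        linarith [norm_sub_rev (g y) (g' y)]
    _ = (∫ y in D, disp v g' y) + ∫ y in D, 2 * ‖g y - g' y‖ :=
        integral_add i2 i3.integrableOn
    _ ≤ _ := by
        rw [← integral_const_mul]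
        exact add_le_add le_rfl
          (setIntegral_le_integral i3 (Eventually.of_forall fun y => by positivity))

theorem setIntegral_disp_nonneg {v : Euc d} (hv : ‖v‖ = 1) (g : Euc d → Euc d) (D : Set (Euc d)) :
    0 ≤ ∫ y in D, disp v g y := integral_nonneg fun y => disp_nonneg hv g y

/-- Rescaling a set integral. -/
theorem setIntegral_comp_affine (h : Euc d → ℝ) (c : Euc d) {R : ℝ} (hR : 0 < R)
    {S : Set (Euc d)} (hS : MeasurableSet S) :
    ∫ w in S, h (c + R • w) = (R ^ d)⁻¹ * ∫ y in {y | R⁻¹ • (y - c) ∈ S}, h y := by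
  classical
  have hS' : MeasurableSet {y : Euc d | R⁻¹ • (y - c) ∈ S} :=
    hS.preimage (f := fun y => R⁻¹ • (y - c)) (by fun_prop)
  rw [← integral_indicator hS, ← integral_indicator hS']
  have e : S.indicator (fun w => h (c + R • w)) =
      fun w => {y : Euc d | R⁻¹ • (y - c) ∈ S}.indicator h (c + R • w) := by
    funext w
    simp only [indicator_apply, mem_ofPred_eq, add_sub_cancel_left, smul_smul,
      inv_mul_cancel₀ hR.ne', one_smul]
  rw [e, Measure.integral_comp_smul_of_nonneg volume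
    (fun p => {y : Euc d | R⁻¹ • (y - c) ∈ S}.indicator h (c + p)) R (hR := hR.le),
    integral_add_left_eq_self ({y : Euc d | R⁻¹ • (y - c) ∈ S}.indicator h) c,
    finrank_euclideanSpace_fin, smul_eq_mul]

theorem preimage_closedBall_affine (c : Euc d) {R : ℝ} (hR : 0 < R) :
    {y : Euc d | R⁻¹ • (y - c) ∈ closedBall (0 : Euc d) 1} = closedBall c R := by
  ext y
  rw [mem_ofPred_eq, mem_closedBall_zero_iff, mem_closedBall, dist_eq_norm, norm_smul, norm_inv,
    Real.norm_eq_abs, abs_of_pos hR]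
  rw [inv_mul_le_iff₀ hR, mul_one]

theorem avg_eq_unit (h : Euc d → ℝ) (c : Euc d) {R : ℝ} (hR : 0 < R) :
    avg R h c = (volume.real (closedBall (0 : Euc d) 1))⁻¹ *
      ∫ w in closedBall (0 : Euc d) 1, h (c + R • w) := by
  rw [avg_eq, setIntegral_comp_affine h c hR measurableSet_closedBall,
    preimage_closedBall_affine c hR, volume_real_closedBall c hR.le, smul_eq_mul, mul_inv]
  ring

theorem abs_inner_unit {v : Euc d} (hv : ‖v‖ = 1) (a : Euc d) : |⟪a, v⟫| ≤ ‖a‖ := by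
  simpa [hv] using abs_real_inner_le_norm a v

theorem inner_unit_self {v : Euc d} (hv : ‖v‖ = 1) : ⟪v, v⟫ = 1 := by
  rw [real_inner_self_eq_norm_sq, hv]; norm_num

theorem norm_smul_unit {v : Euc d} (hv : ‖v‖ = 1) {t : ℝ} (ht : 0 ≤ t) : ‖t • v‖ = t := by
  rw [norm_smul, hv, mul_one, Real.norm_eq_abs, abs_of_nonneg ht]

theorem sq_norm_unit_add {v a : Euc d} (hv : ‖v‖ = 1) (ha : ‖a‖ ≤ 1) :
    ‖v + a‖ ^ 2 ≤ 2 * (1 + ⟪a, v⟫) ∧ ‖v - a‖ ^ 2 ≤ 2 * (1 - ⟪a, v⟫) ∧
      0 ≤ 1 + ⟪a, v⟫ ∧ 0 ≤ 1 - ⟪a, v⟫ := by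
  rw [norm_add_sq_real, norm_sub_sq_real, hv, real_inner_comm a v]
  have h1 : ‖a‖ ^ 2 ≤ 1 := pow_le_one₀ (norm_nonneg a) ha
  have h2 := abs_le.1 ((abs_inner_unit hv a).trans ha)
  refine ⟨?_, ?_, ?_, ?_⟩ <;> linarith

theorem sq_norm_combination (a b c : Euc d) :
    ‖a - b + c‖ ^ 2 ≤ 3 * (‖a‖ ^ 2 + ‖b‖ ^ 2 + ‖c‖ ^ 2) := by
  have h := (norm_add_le (a - b) c).trans (add_le_add (norm_sub_le a b) le_rfl)
  nlinarith [pow_le_pow_left₀ (norm_nonneg _) h 2, sq_nonneg (‖a‖ - ‖b‖),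
    sq_nonneg (‖b‖ - ‖c‖), sq_nonneg (‖c‖ - ‖a‖)]

theorem sq_norm_smul (a : ℝ) (b : Euc d) : ‖a • b‖ ^ 2 = a ^ 2 * ‖b‖ ^ 2 := by
  rw [norm_smul, mul_pow, Real.norm_eq_abs, sq_abs]

/-- The displacement of the transport. -/
noncomputable def moveBy (s r : ℝ) (v x z : Euc d) (Q : Euc d → Euc d) (w : Euc d) : Euc d :=
  (x + (8 * s) • (v + Q w)) - (z + r • w)

theorem norm_moveBy_le {s r : ℝ} {v x z : Euc d} {Q : Euc d → Euc d} {w : Euc d} (hv : ‖v‖ = 1)
    (hs : 0 < s) (hr0 : 0 ≤ r) (hr2 : r ≤ s * 2) (hxz : ‖x - z‖ ≤ r) (hw : ‖w‖ ≤ 1)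
    (hQw : ‖Q w‖ ≤ 1) : ‖moveBy s r v x z Q w‖ ≤ 20 * s := by
  have h2 : ‖(8 * s) • (v + Q w)‖ ≤ 16 * s := by
    rw [norm_smul, Real.norm_eq_abs, abs_of_pos (by positivity : (0:ℝ) < 8 * s)]
    have := mul_le_mul_of_nonneg_left ((norm_add_le v (Q w)).trans (add_le_add hv.le hQw))
      (by positivity : (0:ℝ) ≤ 8 * s)
    linarith
  have h3 : ‖(x - z) - r • w‖ ≤ 4 * s := by
    refine (norm_sub_le _ _).trans ?_
    rw [norm_smul, Real.norm_eq_abs, abs_of_nonneg hr0]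
    linarith [mul_le_mul_of_nonneg_left hw hr0]
  rw [moveBy, show x + (8 * s) • (v + Q w) - (z + r • w) =
    (8 * s) • (v + Q w) + ((x - z) - r • w) by module]
  linarith [norm_add_le ((8 * s) • (v + Q w)) ((x - z) - r • w)]

theorem moveBy_parabolic {s r : ℝ} {v x z : Euc d} {Q : Euc d → Euc d} {w : Euc d} (hv : ‖v‖ = 1)
    (hs : 0 < s) (hr1 : s ≤ r) (hr2 : r ≤ s * 2) (hxz : ‖x - z‖ ≤ r) (hw : ‖w‖ ≤ 1)
    (hQw : ‖Q w‖ ≤ 1) (hQh : (1 + ⟪w, v⟫) / 2 ≤ 1 + ⟪Q w, v⟫) :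
    ‖moveBy s r v x z Q w‖ ^ 2 ≤ 108 * s * ⟪moveBy s r v x z Q w, v⟫ ∧
      ‖z + r • w - x‖ ^ 2 ≤ 8 * s * ⟪moveBy s r v x z Q w, v⟫ ∧
      ‖moveBy s r v x z Q w‖ ≤ 20 * s := by
  have hr0 : 0 < r := hs.trans_le hr1
  set e := r⁻¹ • (z - x) with he
  have hre : r • e = z - x := by rw [he, smul_smul, mul_inv_cancel₀ hr0.ne', one_smul]
  have hen : ‖e‖ ≤ 1 := by
    rw [he, norm_smul, norm_inv, Real.norm_eq_abs, abs_of_pos hr0, inv_mul_le_iff₀ hr0,
      norm_sub_rev, mul_one]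
    exact hxz
  obtain ⟨hQ2, -, hq0, -⟩ := sq_norm_unit_add hv hQw
  obtain ⟨hw2, -, hp0, -⟩ := sq_norm_unit_add hv hw
  obtain ⟨-, he2, -, ht0⟩ := sq_norm_unit_add hv hen
  set q := 1 + ⟪Q w, v⟫ with hq
  set p := 1 + ⟪w, v⟫ with hp
  set t := 1 - ⟪e, v⟫ with ht
  set a := (8 * s) • (v + Q w) with ha
  set b := r • (v + w) with hb
  set c := r • (v - e) with hc
  have hUe : moveBy s r v x z Q w = a - b + c := by
    simp only [moveBy, ha, hb, hc, smul_sub, hre]; module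
  have hYe : z + r • w - x = b - c := by
    simp only [hb, hc, smul_sub, hre]; module
  have hu : ⟪a - b + c, v⟫ = 8 * s * q - r * p + r * t := by
    simp only [ha, hb, hc, inner_add_left, inner_sub_left, real_inner_smul_left,
      inner_unit_self hv, hq, hp, ht]
  have hu2 : 4 * s * q + r * t ≤ ⟪a - b + c, v⟫ := by
    rw [hu]
    nlinarith [mul_le_mul_of_nonneg_left hQh hr0.le, mul_le_mul_of_nonneg_right hr2 hq0]
  have hA : ‖a‖ ^ 2 ≤ 128 * s * (s * q) := by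
    rw [ha, sq_norm_smul]
    nlinarith [mul_le_mul_of_nonneg_left hQ2 (sq_nonneg (8 * s))]
  have hBb : ‖b‖ ^ 2 ≤ 16 * s * (s * q) := by
    rw [hb, sq_norm_smul]
    have hpq : p ≤ 2 * q := by linarith
    nlinarith [mul_le_mul_of_nonneg_left hw2 (sq_nonneg r), mul_le_mul_of_nonneg_left hpq (sq_nonneg r),
      mul_le_mul_of_nonneg_right (pow_le_pow_left₀ hr0.le hr2 2) hq0]
  have hCc : ‖c‖ ^ 2 ≤ 4 * s * (r * t) := by
    rw [hc, sq_norm_smul]
    nlinarith [mul_le_mul_of_nonneg_left he2 (sq_nonneg r),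
      mul_le_mul_of_nonneg_right hr2 (mul_nonneg hr0.le ht0)]
  have hu3 := mul_le_mul_of_nonneg_left hu2 hs.le
  have hsq : 0 ≤ s * (s * q) := by positivity
  have hst : 0 ≤ s * (r * t) := by positivity
  rw [hUe, hYe]
  clear_value a b c
  refine ⟨?_, ?_, ?_⟩
  · linarith [sq_norm_combination a b c]
  · have h2 := pow_le_pow_left₀ (norm_nonneg _) (norm_sub_le b c) 2
    have h3 := two_mul_le_add_sq ‖b‖ ‖c‖
    rw [add_sq] at h2
    linarith
  · rw [← hUe]; exact norm_moveBy_le hv hs hr0.le hr2 hxz hw hQw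

theorem moveBy_ends {s r : ℝ} {v x x₀ z : Euc d} {Q : Euc d → Euc d} {w : Euc d} (hv : ‖v‖ = 1)
    (hs : 0 < s) (hr0 : 0 ≤ r) (hr2 : r ≤ s * 2) (hxz : ‖x - z‖ ≤ r) (hxx : ‖x - x₀‖ ≤ s / 10)
    (hw : ‖w‖ ≤ 1) (hQw : ‖Q w‖ ≤ 1) :
    ‖z + r • w - x₀‖ ≤ 17 * s ∧ ‖x + (8 * s) • (v + Q w) - x₀‖ ≤ 17 * s := by
  constructor
  · rw [show z + r • w - x₀ = -(x - z) + (x - x₀) + r • w by module]
    refine norm_add₃_le.trans ?_
    rw [norm_neg, norm_smul, Real.norm_eq_abs, abs_of_nonneg hr0]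
    nlinarith
  · rw [show x + (8 * s) • (v + Q w) - x₀ = (x - x₀) + (8 * s) • (v + Q w) by module]
    refine (norm_add_le _ _).trans ?_
    rw [norm_smul, Real.norm_eq_abs, abs_of_pos (by positivity : (0:ℝ) < 8 * s)]
    nlinarith [norm_add_le v (Q w), hv]

theorem scale_sq (δ : ℝ) {i k : ℕ} (hi : i ≤ k) :
    (δ * 2 ^ k * Real.sqrt (1 / 2) ^ (k - i)) ^ 2 = δ * 2 ^ k * (δ * 2 ^ i) := by
  rw [mul_pow, ← pow_mul, mul_comm (k - i) 2, pow_mul, Real.sq_sqrt (by norm_num)]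
  obtain ⟨m, rfl⟩ := Nat.exists_eq_add_of_le hi
  rw [Nat.add_sub_cancel_left, pow_add, div_pow, one_pow]
  field_simp

theorem piece_le {f : Euc d → ℝ} {δ r : ℝ} {k i : ℕ} {v x x₀ z : Euc d} {Q : Euc d → Euc d}
    (hf : ContDiff ℝ 1 f) (hfi : Integrable f) (hgi : Integrable (gradient f)) (hδ : 0 < δ)
    (hv : ‖v‖ = 1) (hr1 : δ * 2 ^ k ≤ r) (hr2 : r ≤ δ * 2 ^ k * 2) (hxz : ‖x - z‖ ≤ r)
    (hxx : ‖x - x₀‖ ≤ δ * 2 ^ k / 10) (hQm : Measurable Q)
    (hQ : ∀ w ∈ closedBall (0 : Euc d) 1,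
      Q w ∈ closedBall (0 : Euc d) 1 ∧ (1 + ⟪w, v⟫) / 2 ≤ 1 + ⟪Q w, v⟫)
    (hQjac : ∀ H : Euc d → ℝ≥0∞, Measurable H → ∀ (c : Euc d) (α β : ℝ), 0 ≤ α → 0 ≤ β →
      0 < α + β → ∫⁻ w in closedBall (0 : Euc d) 1, H (c + α • w + β • Q w) ≤
        ENNReal.ofReal (4 / (α + β) ^ d) * ∫⁻ p, H p)
    (hi : i ≤ k) {S : Set (Euc d)} (hSm : MeasurableSet S) (hSB : S ⊆ closedBall (0 : Euc d) 1)
    (hlow : ∀ w ∈ S, i = 0 ∨ δ * 2 ^ i ≤ ⟪moveBy (δ * 2 ^ k) r v x z Q w, v⟫)
    (hupp : ∀ w ∈ S, i = k ∨ ⟪moveBy (δ * 2 ^ k) r v x z Q w, v⟫ < δ * 2 ^ (i + 1)) :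
    ∫⁻ w in S, ENNReal.ofReal (f (z + r • w) -
        f (z + r • w + moveBy (δ * 2 ^ k) r v x z Q w)) ≤
      ENNReal.ofReal (43200 * fineErr 80 δ (gradient f) k i v x₀ x) := by
  set s := δ * 2 ^ k with hs
  have hs0 : 0 < s := by positivity
  have hr0 : 0 < r := hs0.trans_le hr1
  set Y : Euc d → Euc d := fun w => z + r • w with hY
  set U : Euc d → Euc d := fun w => moveBy s r v x z Q w with hU
  have hYm : Measurable Y := by fun_prop
  have hUm : Measurable U := by simp only [hU, moveBy]; fun_prop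
  change ∫⁻ w in S, ENNReal.ofReal (f (Y w) - f (Y w + U w)) ≤ _
  have hball : ∀ w ∈ S, ‖w‖ ≤ 1 ∧ ‖Q w‖ ≤ 1 := fun w hw =>
    ⟨mem_closedBall_zero_iff.1 (hSB hw), mem_closedBall_zero_iff.1 (hQ w (hSB hw)).1⟩
  set D := closedBall x (80 * s * Real.sqrt (1 / 2) ^ (k - i)) ∩ closedBall x₀ (40 * s) with hD
  have hσ : (s * Real.sqrt (1 / 2) ^ (k - i)) ^ 2 = s * (δ * 2 ^ i) := scale_sq δ hi
  set ρ := s * Real.sqrt (1 / 2) ^ (k - i) with hρ
  have hρ0 : 0 ≤ ρ := by positivity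
  have his : δ * 2 ^ i ≤ s := by
    rw [hs]; exact mul_le_mul_of_nonneg_left (pow_le_pow_right₀ one_le_two hi) hδ.le
  have hsub : ∀ n ≤ i, ∀ θ ∈ Icc (0 : ℝ) 1, ∀ ζ : Euc d, ‖ζ‖ ≤ δ * 2 ^ n → ∀ w ∈ S,
      Y w + θ • U w + ζ ∈ D := by
    intro n hn θ hθ ζ hζ w hw
    have hw2 := hupp w hw
    obtain ⟨hwn, hQn⟩ := hball w hw
    obtain ⟨g1, g2, g3⟩ := moveBy_parabolic (x := x) (z := z) hv hs0 hr1 hr2 hxz hwn hQn
      (hQ w (hSB hw)).2
    obtain ⟨g4, g5⟩ := moveBy_ends (x₀ := x₀) hv hs0 hr0.le hr2 hxz hxx hwn hQn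
    have hni : δ * 2 ^ n ≤ δ * 2 ^ i :=
      mul_le_mul_of_nonneg_left (pow_le_pow_right₀ one_le_two hn) hδ.le
    have hu32 : ⟪U w, v⟫ ≤ 32 * (δ * 2 ^ i) := by
      rcases hw2 with h | h
      · rw [h, ← hs]; linarith [le_of_abs_le (abs_inner_unit hv (U w))]
      · rw [pow_succ] at h; linarith [mul_pos hδ (pow_pos two_pos i)]
    have hy : ‖Y w - x‖ ≤ 16 * ρ := by
      refine pow_le_pow_iff_left₀ (norm_nonneg _) (by positivity) two_ne_zero |>.1 ?_
      rw [mul_pow, hσ]; nlinarith [mul_le_mul_of_nonneg_left hu32 hs0.le]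
    have hUn : ‖U w‖ ≤ 59 * ρ := by
      refine pow_le_pow_iff_left₀ (norm_nonneg _) (by positivity) two_ne_zero |>.1 ?_
      rw [mul_pow, hσ]; nlinarith [mul_le_mul_of_nonneg_left hu32 hs0.le]
    have hhρ : δ * 2 ^ i ≤ ρ := by
      refine pow_le_pow_iff_left₀ (by positivity) hρ0 two_ne_zero |>.1 ?_
      rw [hσ]; nlinarith [mul_le_mul_of_nonneg_left his (by positivity : 0 ≤ δ * 2 ^ i)]
    have hθU : ‖θ • U w‖ ≤ ‖U w‖ := by
      rw [norm_smul, Real.norm_eq_abs, abs_of_nonneg hθ.1]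
      exact mul_le_of_le_one_left (norm_nonneg _) hθ.2
    constructor
    · rw [mem_closedBall, dist_eq_norm, mul_assoc, ← hρ]
      rw [show Y w + θ • U w + ζ - x = (Y w - x) + θ • U w + ζ by module]
      linarith [norm_add₃_le (a := Y w - x) (b := θ • U w) (c := ζ)]
    · rw [mem_closedBall, dist_eq_norm]
      have e : Y w + θ • U w + ζ - x₀ = (1 - θ) • (Y w - x₀) + θ • (x + (8 * s) • (v + Q w) - x₀) + ζ := by
        simp only [hU, hY, moveBy]; module
      rw [e]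
      refine (norm_add₃_le).trans ?_
      rw [norm_smul, norm_smul, Real.norm_eq_abs, Real.norm_eq_abs, abs_of_nonneg hθ.1,
        abs_of_nonneg (sub_nonneg.2 hθ.2)]
      nlinarith [mul_le_mul_of_nonneg_left g4 (sub_nonneg.2 hθ.2),
        mul_le_mul_of_nonneg_left g5 hθ.1]
  have hDm : MeasurableSet D := measurableSet_closedBall.inter measurableSet_closedBall
  have hbound : ∀ n ≤ i, ∀ θ ∈ Icc (0 : ℝ) 1, ∀ ζ : Euc d, ‖ζ‖ ≤ δ * 2 ^ n →
      ∫⁻ w in S, edisp v (mol δ (gradient f) n) (Y w + θ • U w + ζ) ≤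
        ENNReal.ofReal (4 / s ^ d * ∫ y in D, disp v (mol δ (gradient f) n) y) := by
    intro n hn θ hθ ζ hζ
    obtain ⟨-, hgc, -⟩ := seg_mol hδ hf hfi hgi n
    set eD := D.indicator (edisp v (mol δ (gradient f) n)) with heD
    have h1 : ∫⁻ w in S, edisp v (mol δ (gradient f) n) (Y w + θ • U w + ζ) ≤
        ∫⁻ w in closedBall (0 : Euc d) 1, eD (((1 - θ) • z + θ • (x + (8 * s) • v) + ζ) + ((1 - θ) * r) • w +
          (θ * (8 * s)) • Q w) := by
      refine (setLIntegral_mono' hSm fun w hw => le_of_eq ?_).trans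
        (lintegral_mono_set hSB)
      have hmem := hsub n hn θ hθ ζ hζ w hw
      have e : ((1 - θ) • z + θ • (x + (8 * s) • v) + ζ) + ((1 - θ) * r) • w +
          (θ * (8 * s)) • Q w = Y w + θ • U w + ζ := by
        simp only [hU, hY, moveBy]; module
      rw [e, heD, indicator_of_mem hmem]
    have hα0 : 0 ≤ (1 - θ) * r := mul_nonneg (sub_nonneg.2 hθ.2) hr0.le
    have hβ0 : 0 ≤ θ * (8 * s) := mul_nonneg hθ.1 (by positivity)
    have hαβ : s ≤ (1 - θ) * r + θ * (8 * s) := by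
      nlinarith [mul_le_mul_of_nonneg_left hr1 (sub_nonneg.2 hθ.2), mul_nonneg hθ.1 hs0.le]
    refine h1.trans ((hQjac eD ((continuous_edisp hgc).measurable.indicator hDm) _ _ _ hα0 hβ0
      (hs0.trans_le hαβ)).trans ?_)
    have hint : Integrable (disp v (mol δ (gradient f) n)) :=
      integrable_disp (integrable_mol hδ hgi n)
    rw [ENNReal.ofReal_mul (by positivity : (0:ℝ) ≤ 4 / s ^ d), heD, lintegral_indicator hDm,
      ofReal_integral_eq_lintegral_ofReal hint.integrableOn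
        (Eventually.of_forall fun y => disp_nonneg hv _ y)]
    exact mul_le_mul' (ENNReal.ofReal_le_ofReal (div_le_div_of_nonneg_left (by norm_num)
      (by positivity) (pow_le_pow_left₀ hs0.le hαβ d))) le_rfl
  refine (lintegral_chain_le hδ hf hfi hgi hv hYm hUm hSm i (L := 108 * s) (by positivity)
    (fun w hw => ⟨(moveBy_parabolic hv hs0 hr1 hr2 hxz (hball w hw).1 (hball w hw).2
      (hQ w (hSB hw)).2).1, hlow w hw⟩)
    (B := fun n => ENNReal.ofReal (4 / s ^ d * ∫ y in D, disp v (mol δ (gradient f) n) y))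
    hbound).trans ?_
  have hnn : ∀ n, 0 ≤ (1 / 2 : ℝ) ^ (i - n) *
      (4 / s ^ d * ∫ y in D, disp v (mol δ (gradient f) n) y) := fun n =>
    mul_nonneg (by positivity) (mul_nonneg (by positivity) (setIntegral_disp_nonneg hv _ _))
  simp only [← ENNReal.ofReal_mul (show 0 ≤ ((1 : ℝ) / 2) ^ _ by positivity)]
  rw [← ENNReal.ofReal_sum_of_nonneg fun n _ => hnn n, ← ENNReal.ofReal_mul (by positivity)]
  refine ENNReal.ofReal_le_ofReal (le_of_eq ?_)
  rw [fineErr, ← hs, ← hD, Finset.mul_sum, Finset.mul_sum, Finset.mul_sum]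
  exact Finset.sum_congr rfl fun n _ => by ring

/-- The half of the closed ball around `c` on the side of `v`. -/
def halfBall (R : ℝ) (v c : Euc d) : Set (Euc d) :=
  {y | R⁻¹ • (y - c) ∈ closedBall (0 : Euc d) 1 ∩ {w | 0 ≤ ⟪w, v⟫}}

theorem measurableSet_upper (v : Euc d) :
    MeasurableSet (closedBall (0 : Euc d) 1 ∩ {w : Euc d | 0 ≤ ⟪w, v⟫}) :=
  measurableSet_closedBall.inter (measurableSet_le measurable_const (by fun_prop))

theorem measurableSet_halfBall (R : ℝ) (v c : Euc d) : MeasurableSet (halfBall R v c) :=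
  (measurableSet_upper v).preimage (f := fun y => R⁻¹ • (y - c)) (by fun_prop)

theorem mem_halfBall {R : ℝ} (hR : 0 < R) {v c y : Euc d} (hy : y ∈ halfBall R v c) :
    ‖y - c‖ ≤ R ∧ 0 ≤ ⟪y - c, v⟫ := by
  obtain ⟨h1, h2⟩ := hy
  rw [mem_closedBall_zero_iff, norm_smul, norm_inv, Real.norm_eq_abs, abs_of_pos hR,
    inv_mul_le_iff₀ hR, mul_one] at h1
  rw [mem_ofPred_eq, real_inner_smul_left] at h2
  exact ⟨h1, nonneg_of_mul_nonneg_right h2 (inv_pos.2 hR)⟩

theorem volume_halfBall {R : ℝ} (hR : 0 < R) {v : Euc d} (hv : ‖v‖ = 1) (c : Euc d) :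
    volume.real (halfBall R v c) = R ^ d * (volume.real (closedBall (0 : Euc d) 1) / 2) := by
  obtain ⟨Q, -, -, hQint, -⟩ := exists_chord_map hv
  have h := hQint (fun _ => 1) continuous_const
  have h' := setIntegral_comp_affine (fun _ => 1) c hR (measurableSet_upper v)
  simp only [setIntegral_const, smul_eq_mul, mul_one] at h h'
  rw [halfBall, show volume.real (closedBall (0 : Euc d) 1) / 2 =
      volume.real (closedBall (0 : Euc d) 1 ∩ {w : Euc d | 0 ≤ ⟪w, v⟫}) by linarith, h',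
    mul_inv_cancel_left₀ (pow_pos hR d).ne']

/-- The large ball average through the chord map. -/
theorem avg_eq_chord {R : ℝ} (hR : 0 < R) {v x : Euc d} (hv : ‖v‖ = 1) {f : Euc d → ℝ}
    (hf : Continuous f) {Q : Euc d → Euc d}
    (hQint : ∀ h : Euc d → ℝ, Continuous h → ∫ w in closedBall (0 : Euc d) 1, h w =
      (3 / 4) * (∫ w in closedBall (0 : Euc d) 1, h (Q w)) +
        (1 / 2) * ∫ w in closedBall (0 : Euc d) 1 ∩ {w | 0 ≤ ⟪w, v⟫}, h w) :
    avg R f (x + R • v) =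
      3 / 4 * ((volume.real (closedBall (0 : Euc d) 1))⁻¹ *
        ∫ w in closedBall (0 : Euc d) 1, f (x + R • (v + Q w))) +
      1 / 4 * ((volume.real (halfBall R v (x + R • v)))⁻¹ *
        ∫ y in halfBall R v (x + R • v), f y) := by
  rw [avg_eq_unit f _ hR, hQint (fun w => f (x + R • v + R • w)) (by fun_prop),
    setIntegral_comp_affine f _ hR (measurableSet_upper v), volume_halfBall hR hv, ← halfBall]
  have e : ∀ w, x + R • v + R • Q w = x + R • (v + Q w) := fun w => by module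
  simp only [e]
  have hV := (volume_real_unit_pos (d := d)).ne'
  have hRd := (pow_pos hR d).ne'
  field_simp
  ring

theorem transport_le {f : Euc d → ℝ} {δ r : ℝ} {k : ℕ} {v x x₀ z : Euc d} {Q : Euc d → Euc d}
    (hf : ContDiff ℝ 1 f) (hfi : Integrable f) (hgi : Integrable (gradient f)) (hδ : 0 < δ)
    (hv : ‖v‖ = 1) (hr1 : δ * 2 ^ k ≤ r) (hr2 : r ≤ δ * 2 ^ k * 2) (hxz : ‖x - z‖ ≤ r)
    (hxx : ‖x - x₀‖ ≤ δ * 2 ^ k / 10) (hQm : Measurable Q)
    (hQ : ∀ w ∈ closedBall (0 : Euc d) 1,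
      Q w ∈ closedBall (0 : Euc d) 1 ∧ (1 + ⟪w, v⟫) / 2 ≤ 1 + ⟪Q w, v⟫)
    (hQjac : ∀ H : Euc d → ℝ≥0∞, Measurable H → ∀ (c : Euc d) (α β : ℝ), 0 ≤ α → 0 ≤ β →
      0 < α + β → ∫⁻ w in closedBall (0 : Euc d) 1, H (c + α • w + β • Q w) ≤
        ENNReal.ofReal (4 / (α + β) ^ d) * ∫⁻ p, H p) :
    (∫ w in closedBall (0 : Euc d) 1, f (z + r • w)) -
        (∫ w in closedBall (0 : Euc d) 1, f (x + (8 * (δ * 2 ^ k)) • (v + Q w))) ≤
      43200 * ∑ i ∈ Finset.range (k + 1), fineErr 80 δ (gradient f) k i v x₀ x := by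
  set s := δ * 2 ^ k with hs
  have hs0 : 0 < s := by positivity
  have hfine : ∀ i, 0 ≤ fineErr 80 δ (gradient f) k i v x₀ x := fun i =>
    mul_nonneg (by positivity) (Finset.sum_nonneg fun n _ =>
      mul_nonneg (by positivity) (setIntegral_disp_nonneg hv _ _))
  set B := closedBall (0 : Euc d) 1 with hB
  have hBfin : volume B ≠ ⊤ := (isCompact_closedBall _ _).measure_lt_top.ne
  have hfc : Continuous f := hf.continuous
  set T : Euc d → Euc d := fun w => x + (8 * s) • (v + Q w) with hT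
  set Y : Euc d → Euc d := fun w => z + r • w with hY
  set U : Euc d → Euc d := fun w => moveBy s r v x z Q w with hU
  have hTm : Measurable T := by fun_prop
  have hYm : Measurable Y := by fun_prop
  have hUm : Measurable U := by simp only [hU, moveBy]; fun_prop
  set S : ℕ → Set (Euc d) := fun i => B ∩ ({w | i = 0 ∨ δ * 2 ^ i ≤ ⟪U w, v⟫} ∩
    {w | i = k ∨ ⟪U w, v⟫ < δ * 2 ^ (i + 1)}) with hSdef
  have hSm : ∀ i, MeasurableSet (S i) := fun i => by
    have hm : Measurable fun w => ⟪U w, v⟫ := hUm.inner_const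
    refine measurableSet_closedBall.inter (MeasurableSet.inter ?_ ?_)
    · exact MeasurableSet.union (s₁ := {_w | i = 0}) (MeasurableSet.const _)
        (measurableSet_le measurable_const hm)
    · exact MeasurableSet.union (s₁ := {_w | i = k}) (MeasurableSet.const _)
        (measurableSet_lt hm measurable_const)
  have hcover : B ⊆ ⋃ i : Fin (k + 1), S i := by
    intro w hw
    set i := Nat.findGreatest (fun i => i = 0 ∨ δ * 2 ^ i ≤ ⟪U w, v⟫) k with hi
    have hik : i ≤ k := Nat.findGreatest_le k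
    refine mem_iUnion.2 ⟨⟨i, Nat.lt_succ_of_le hik⟩, hw, ?_, ?_⟩
    · exact Nat.findGreatest_spec (P := fun i => i = 0 ∨ δ * 2 ^ i ≤ ⟪U w, v⟫) (Nat.zero_le k)
        (Or.inl rfl)
    · rcases hik.eq_or_lt with h | h
      · exact Or.inl h
      · refine Or.inr (lt_of_not_ge fun hc => ?_)
        exact Nat.findGreatest_is_greatest (P := fun i => i = 0 ∨ δ * 2 ^ i ≤ ⟪U w, v⟫)
          (n := k) (k := i + 1) (by omega) (by omega) (Or.inr hc)
  have piece : ∀ i ≤ k, ∫⁻ w in S i, ENNReal.ofReal (f (Y w) - f (Y w + U w)) ≤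
      ENNReal.ofReal (43200 * fineErr 80 δ (gradient f) k i v x₀ x) := fun i hi =>
    piece_le hf hfi hgi hδ hv hr1 hr2 hxz hxx hQm hQ hQjac hi (hSm i) inter_subset_left
      (fun w hw => hw.2.1) (fun w hw => hw.2.2)
  have hcont : Continuous fun w => f (Y w) := by fun_prop
  obtain ⟨M, hM⟩ := (isCompact_closedBall x (16 * s)).exists_bound_of_continuousOn hfc.continuousOn
  have hTint : IntegrableOn (fun w => f (T w)) B := by
    refine Integrable.mono' (integrableOn_const (C := M) hBfin)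
      (hfc.measurable.comp hTm).aestronglyMeasurable ?_
    refine (ae_restrict_iff' measurableSet_closedBall).2 (Eventually.of_forall fun w hw => hM _ ?_)
    have hQw := (hQ w hw).1
    rw [mem_closedBall_zero_iff] at hQw
    rw [mem_closedBall, dist_eq_norm, show T w - x = (8 * s) • (v + Q w) by simp only [hT]; module,
      norm_smul, Real.norm_eq_abs, abs_of_pos (by positivity : (0:ℝ) < 8 * s)]
    nlinarith [norm_add_le v (Q w), hv]
  have hYint : IntegrableOn (fun w => f (Y w)) B :=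
    hcont.continuousOn.integrableOn_compact (isCompact_closedBall _ _)
  rw [← integral_sub hYint hTint]
  refine (ENNReal.ofReal_le_ofReal_iff
    (mul_nonneg (by norm_num) (Finset.sum_nonneg fun i _ => hfine i))).1 ?_
  refine (ofReal_integral_le_lintegral (hYint.sub hTint)).trans ?_
  refine (lintegral_mono_set hcover).trans ((lintegral_iUnion_le _ _).trans ?_)
  rw [Finset.mul_sum, ENNReal.ofReal_sum_of_nonneg fun i _ => mul_nonneg (by norm_num) (hfine i),
    ← Fin.sum_univ_eq_sum_range, tsum_fintype]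
  refine Finset.sum_le_sum fun i _ => ?_
  refine le_of_eq_of_le ?_ (piece i (Nat.le_of_lt_succ i.2))
  refine lintegral_congr fun w => ?_
  simp only [Pi.sub_apply, hU, hY, hT, moveBy, add_sub_cancel]

theorem ref_le {f : Euc d → ℝ} {δ r : ℝ} {k : ℕ} {v x x₀ z : Euc d} {C₁ : ℝ}
    (hv : ‖v‖ = 1) (hδ : 0 < δ) (hr1 : δ * 2 ^ k ≤ r) (hr2 : r ≤ δ * 2 ^ k * 2)
    (hxz : ‖x - z‖ ≤ r) (hxx : ‖x - x₀‖ ≤ δ * 2 ^ k / 10)
    (hpair : ∀ P P' : Set (Euc d), MeasurableSet P → MeasurableSet P' →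
      P ⊆ closedBall x₀ (30 * (δ * 2 ^ k)) → P' ⊆ closedBall x₀ (30 * (δ * 2 ^ k)) →
      volume.real (closedBall (0 : Euc d) 1) / 2 * (δ * 2 ^ k) ^ d ≤ volume.real P →
      volume.real (closedBall (0 : Euc d) 1) / 2 * (δ * 2 ^ k) ^ d ≤ volume.real P' →
      (∀ y ∈ P, ∀ y' ∈ P', 4 / 5 * (δ * 2 ^ k) ≤ ⟪y' - y, v⟫) →
      (volume.real P)⁻¹ * (∫ y in P, f y) - (volume.real P')⁻¹ * (∫ y in P', f y) ≤ C₁) :
    avg r f z ≤ refValue δ f k v x₀ + C₁ ∧
      refValue δ f k v x₀ - (volume.real (halfBall (8 * (δ * 2 ^ k)) v (x + (8 * (δ * 2 ^ k)) • v)))⁻¹ *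
        (∫ y in halfBall (8 * (δ * 2 ^ k)) v (x + (8 * (δ * 2 ^ k)) • v), f y) ≤ C₁ := by
  set s := δ * 2 ^ k with hs
  have hs0 : 0 < s := by positivity
  have hr0 : 0 < r := hs0.trans_le hr1
  have hV := volume_real_unit_pos (d := d)
  have hvv := inner_unit_self hv
  set cZ := x₀ + (6 * s) • v with hcZ
  set c' := x + (8 * s) • v with hc'
  have hz : ‖z - x₀‖ ≤ r + s / 10 := by
    have := norm_sub_le_norm_sub_add_norm_sub z x x₀
    rw [norm_sub_rev z x] at this; linarith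
  have hZsub : closedBall cZ s ⊆ closedBall x₀ (30 * s) := fun y hy => by
    rw [mem_closedBall, dist_eq_norm] at hy ⊢
    have := norm_sub_le_norm_sub_add_norm_sub y cZ x₀
    rw [show cZ - x₀ = (6 * s) • v by simp [hcZ], norm_smul_unit hv (by positivity)] at this
    linarith
  have hZvol : volume.real (closedBall (0 : Euc d) 1) / 2 * s ^ d ≤
      volume.real (closedBall cZ s) := by
    rw [volume_real_closedBall cZ hs0.le]; nlinarith [pow_nonneg hs0.le d]
  constructor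
  · have h := hpair (closedBall z r) (closedBall cZ s) measurableSet_closedBall
      measurableSet_closedBall ?_ hZsub ?_ hZvol ?_
    · rw [refValue, avg_eq, avg_eq, ← hcZ, smul_eq_mul, smul_eq_mul]
      linarith
    · intro y hy
      rw [mem_closedBall, dist_eq_norm] at hy ⊢
      linarith [norm_sub_le_norm_sub_add_norm_sub y z x₀]
    · rw [volume_real_closedBall z hr0.le]
      nlinarith [pow_le_pow_left₀ hs0.le hr1 d, pow_nonneg hs0.le d]
    · intro y hy y' hy'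
      rw [mem_closedBall, dist_eq_norm] at hy hy'
      have h1 := neg_le_of_abs_le (abs_inner_unit hv (y' - cZ))
      have h2 := le_of_abs_le (abs_inner_unit hv (y - z))
      have h3 := le_of_abs_le (abs_inner_unit hv (z - x₀))
      have e : ⟪y' - y, v⟫ = ⟪y' - cZ, v⟫ + 6 * s - ⟪y - z, v⟫ - ⟪z - x₀, v⟫ := by
        simp only [hcZ, inner_sub_left, inner_add_left, real_inner_smul_left, hvv]; ring
      rw [e]; linarith
  · have h := hpair (closedBall cZ s) (halfBall (8 * s) v c') measurableSet_closedBall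
      (measurableSet_halfBall _ _ _) hZsub ?_ hZvol ?_ ?_
    · rw [refValue, avg_eq, ← hcZ, smul_eq_mul]
      exact h
    · intro y hy
      rw [mem_closedBall, dist_eq_norm]
      have := norm_sub_le_norm_sub_add_norm_sub y c' x₀
      have h2 := norm_sub_le_norm_sub_add_norm_sub c' x x₀
      rw [show c' - x = (8 * s) • v by simp [hc'], norm_smul_unit hv (by positivity)] at h2
      linarith [(mem_halfBall (by positivity) hy).1]
    · rw [volume_halfBall (by positivity) hv]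
      nlinarith [pow_le_pow_left₀ hs0.le (by linarith : s ≤ 8 * s) d]
    · intro y hy y' hy'
      rw [mem_closedBall, dist_eq_norm] at hy
      have h1 := (mem_halfBall (by positivity) hy').2
      have h2 := le_of_abs_le (abs_inner_unit hv (y - cZ))
      have h3 := neg_le_of_abs_le (abs_inner_unit hv (x - x₀))
      have e : ⟪y' - y, v⟫ = ⟪y' - c', v⟫ + 2 * s + ⟪x - x₀, v⟫ - ⟪y - cZ, v⟫ := by
        simp only [hcZ, hc', inner_sub_left, inner_add_left, real_inner_smul_left, hvv]; ring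
      rw [e]; linarith

theorem exists_core_smooth :
    ∃ C K : ℝ, 0 ≤ C ∧ 1 ≤ K ∧ ∀ (f : Euc d → ℝ) (δ r : ℝ) (k : ℕ) (v x₀ x z : Euc d),
      ContDiff ℝ 1 f → Integrable f → Integrable (gradient f) → 0 < δ → ‖v‖ = 1 →
      δ * 2 ^ k ≤ r → r ≤ δ * 2 ^ (k + 1) → dist x z ≤ r → dist x x₀ ≤ δ * 2 ^ k / 10 →
      avg r f z ≤ refValue δ f k v x₀ + C * coarseErr δ (gradient f) k v x₀ ∧
        3 / 4 * avg r f z + 1 / 4 * refValue δ f k v x₀ ≤
          avg (8 * (δ * 2 ^ k)) f (x + (8 * (δ * 2 ^ k)) • v) +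
            C * (coarseErr δ (gradient f) k v x₀ +
              ∑ i ∈ Finset.range (k + 1), fineErr 80 δ (gradient f) k i v x₀ x) ∧ K = 80 := by
  have hV := volume_real_unit_pos (d := d)
  obtain ⟨C₁, hC₁, hpair⟩ :=
    exists_pair_le (d := d) (volume.real (closedBall (0 : Euc d) 1) / 2) (by linarith)
  set V := volume.real (closedBall (0 : Euc d) 1) with hVdef
  refine ⟨C₁ + 43200 * (3 / 4 * V⁻¹), 80, by positivity, by norm_num, ?_⟩
  intro f δ r k v x₀ x z hf hfi hgi hδ hv hr1 hr2 hxz hxx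
  rw [dist_eq_norm] at hxz hxx
  rw [pow_succ, ← mul_assoc] at hr2
  have hcoarse : 0 ≤ coarseErr δ (gradient f) k v x₀ :=
    mul_nonneg (by positivity) (Finset.sum_nonneg fun n _ =>
      mul_nonneg (by positivity) (setIntegral_disp_nonneg hv _ _))
  have hfine : 0 ≤ ∑ i ∈ Finset.range (k + 1), fineErr 80 δ (gradient f) k i v x₀ x :=
    Finset.sum_nonneg fun i _ => mul_nonneg (by positivity) (Finset.sum_nonneg fun n _ =>
      mul_nonneg (by positivity) (setIntegral_disp_nonneg hv _ _))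
  obtain ⟨hI, hup⟩ := ref_le (f := f) (C₁ := C₁ * coarseErr δ (gradient f) k v x₀) hv hδ hr1 hr2
    hxz hxx fun P P' a1 a2 a3 a4 a5 a6 a7 => by
      rw [coarseErr, ← mul_assoc]
      exact hpair f δ k v x₀ P P' hf hfi hgi hδ hv a1 a2 a3 a4 a5 a6 a7
  obtain ⟨Q, hQm, hQ, hQint, hQjac⟩ := exists_chord_map hv
  have hdiff := transport_le hf hfi hgi hδ hv hr1 hr2 hxz hxx hQm hQ hQjac
  have hbig := avg_eq_chord (x := x) (by positivity : (0:ℝ) < 8 * (δ * 2 ^ k)) hv hf.continuous hQint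
  have hsmall := avg_eq_unit f z ((by positivity : (0:ℝ) < δ * 2 ^ k).trans_le hr1)
  rw [← hVdef] at hbig hsmall
  have h1 := mul_le_mul_of_nonneg_left hdiff (inv_pos.2 hV).le
  have h2 := mul_nonneg (inv_pos.2 hV).le hcoarse
  have h3 := mul_nonneg (inv_pos.2 hV).le hfine
  have h4 := mul_nonneg hC₁ hfine
  have h5 := mul_nonneg hC₁ hcoarse
  refine ⟨?_, ?_, rfl⟩
  · linarith
  · linarith

theorem dispSum_le {v : Euc d} (hv : ‖v‖ = 1) {δ ε c : ℝ} (hδ : 0 < δ) (hc : 0 ≤ c)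
    {g g' : Euc d → Euc d} (hg : Integrable g) (hg' : Integrable g')
    (hgg : ∫ y, ‖g y - g' y‖ ≤ ε) (i : ℕ) (D : Set (Euc d)) :
    c * ∑ n ∈ Finset.range (i + 1), (1 / 2 : ℝ) ^ (i - n) * (∫ y in D, disp v (mol δ g n) y) ≤
      c * (∑ n ∈ Finset.range (i + 1),
        (1 / 2 : ℝ) ^ (i - n) * (∫ y in D, disp v (mol δ g' n) y)) +
        (c * ∑ n ∈ Finset.range (i + 1), (1 / 2 : ℝ) ^ (i - n) * 2) * ε := by
  rw [mul_assoc, ← mul_add, Finset.sum_mul, ← Finset.sum_add_distrib]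
  refine mul_le_mul_of_nonneg_left (Finset.sum_le_sum fun n _ => ?_) hc
  rw [mul_assoc, ← mul_add]
  refine mul_le_mul_of_nonneg_left ?_ (by positivity)
  exact (setIntegral_disp_le hv (integrable_mol hδ hg n) (integrable_mol hδ hg' n) D).trans
    (by linarith [integral_norm_mol_sub_mol_le hδ hg hg' n])

theorem exists_core (_hd : 1 ≤ d) :
    ∃ C K : ℝ, 0 ≤ C ∧ 1 ≤ K ∧ ∀ (f : Euc d → ℝ) (G : Euc d → Euc d) (δ r : ℝ) (k : ℕ)
      (v x₀ x z : Euc d), Approx f G → 0 < δ → ‖v‖ = 1 → δ * 2 ^ k ≤ r → r ≤ δ * 2 ^ (k + 1) →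
      dist x z ≤ r → dist x x₀ ≤ δ * 2 ^ k / 10 →
      avg r f z ≤ refValue δ f k v x₀ + C * coarseErr δ G k v x₀ ∧
        3 / 4 * avg r f z + 1 / 4 * refValue δ f k v x₀ ≤
          avg (8 * (δ * 2 ^ k)) f (x + (8 * (δ * 2 ^ k)) • v) +
            C * (coarseErr δ G k v x₀ + ∑ i ∈ Finset.range (k + 1), fineErr K δ G k i v x₀ x) := by
  obtain ⟨C, K, hC, hK, hCK⟩ := exists_core_smooth (d := d)
  refine ⟨C, 80, hC, by norm_num, fun f G δ r k v x₀ x z hA hδ hv hr1 hr2 hxz hxx => ?_⟩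
  obtain ⟨hfi, hGi, happ⟩ := hA
  set s := δ * 2 ^ k with hs
  have hs0 : 0 < s := by positivity
  set A := (volume.real (closedBall (0 : Euc d) s))⁻¹ with hAdef
  have hA0 : 0 ≤ A := inv_nonneg.2 measureReal_nonneg
  set W : ℕ → ℝ := fun i => s / s ^ d * ∑ n ∈ Finset.range (i + 1), (1 / 2 : ℝ) ^ (i - n) * 2
  have hW : ∀ i, 0 ≤ W i := fun i => by positivity
  set M := 3 * A + C * (W k + ∑ i ∈ Finset.range (k + 1), W i) with hM
  have hM0 : 0 ≤ M := by
    exact add_nonneg (mul_nonneg (by norm_num) hA0)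
      (mul_nonneg hC (add_nonneg (hW k) (Finset.sum_nonneg fun i _ => hW i)))
  have main : ∀ ε > (0 : ℝ),
      avg r f z ≤ refValue δ f k v x₀ + C * coarseErr δ G k v x₀ + M * ε ∧
        3 / 4 * avg r f z + 1 / 4 * refValue δ f k v x₀ ≤
          avg (8 * s) f (x + (8 * s) • v) + C * (coarseErr δ G k v x₀ +
            ∑ i ∈ Finset.range (k + 1), fineErr 80 δ G k i v x₀ x) + M * ε := by
    intro ε hε
    obtain ⟨u, hu, hui, hugi, huf, hug⟩ := happ ε hε
    have hav : ∀ (R : ℝ) (p : Euc d), s ≤ R → |avg R u p - avg R f p| ≤ A * ε := by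
      intro R p hR
      rw [← avg_sub (hs0.trans_le hR) hui hfi, ← Real.norm_eq_abs]
      refine (norm_avg_le_div (hs0.trans_le hR) (hui.sub hfi) p).trans ?_
      rw [hAdef, inv_mul_eq_div]
      refine (div_le_div_of_nonneg_right (?_ : _ ≤ ε) measureReal_nonneg).trans
        (div_le_div_of_nonneg_left hε.le (volume_real_closedBall_pos 0 hs0) ?_)
      · simpa only [Pi.sub_apply, Real.norm_eq_abs] using huf
      · exact measureReal_mono (closedBall_subset_closedBall hR)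
          (isCompact_closedBall _ _).measure_lt_top.ne
    have hdisp : ∀ (i : ℕ) (D : Set (Euc d)), s / s ^ d * ∑ n ∈ Finset.range (i + 1),
        (1 / 2 : ℝ) ^ (i - n) * (∫ y in D, disp v (mol δ (gradient u) n) y) ≤
        s / s ^ d * (∑ n ∈ Finset.range (i + 1),
          (1 / 2 : ℝ) ^ (i - n) * (∫ y in D, disp v (mol δ G n) y)) + W i * ε := by
      exact fun i D => dispSum_le hv hδ (by positivity) hugi hGi hug i D
    obtain ⟨h1, h2, -⟩ := hCK u δ r k v x₀ x z hu hui hugi hδ hv hr1 hr2 hxz hxx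
    have a1 := abs_le.1 (hav r z hr1)
    have a2 := abs_le.1 (hav (8 * s) (x + (8 * s) • v) (by linarith))
    have a3 := abs_le.1 (hav s (x₀ + (6 * s) • v) le_rfl)
    have d1 : coarseErr δ (gradient u) k v x₀ ≤ coarseErr δ G k v x₀ + W k * ε := hdisp k _
    have d2 : ∑ i ∈ Finset.range (k + 1), fineErr 80 δ (gradient u) k i v x₀ x ≤
        ∑ i ∈ Finset.range (k + 1), fineErr 80 δ G k i v x₀ x +
          (∑ i ∈ Finset.range (k + 1), W i) * ε := by
      rw [Finset.sum_mul, ← Finset.sum_add_distrib]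
      exact Finset.sum_le_sum fun i _ => hdisp i _
    have d3 := mul_le_mul_of_nonneg_left d1 hC
    have d4 := mul_le_mul_of_nonneg_left d2 hC
    have d5 : 0 ≤ C * (∑ i ∈ Finset.range (k + 1), W i) * ε :=
      mul_nonneg (mul_nonneg hC (Finset.sum_nonneg fun i _ => hW i)) hε.le
    have d6 : 0 ≤ A * ε := mul_nonneg hA0 hε.le
    simp only [refValue, ← hs] at h1 h2 ⊢
    refine ⟨?_, ?_⟩ <;> nlinarith
  have hlim : ∀ a b : ℝ, (∀ ε > (0 : ℝ), a ≤ b + M * ε) → a ≤ b := fun a b hab => by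
    by_contra hlt
    push Not at hlt
    have := hab ((a - b) / (2 * (M + 1))) (div_pos (by linarith) (by linarith))
    have e : M * ((a - b) / (2 * (M + 1))) ≤ (a - b) / 2 := by
      rw [← mul_div_assoc, div_le_iff₀ (by linarith)]; nlinarith
    linarith
  exact ⟨hlim _ _ fun ε hε => (main ε hε).1, hlim _ _ fun ε hε => (main ε hε).2⟩

end Vale.Agent.P137
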