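import Mathlib

/-!
Definitions for the uncentred maximal function on Euclidean space.
-/

namespace Vale.Agent.P137

open MeasureTheory Metric Set
open scoped RealInnerProductSpace ENNReal

/-- Euclidean space of dimension `d`. -/
abbrev Euc (d : ℕ) : Type := EuclideanSpace ℝ (Fin d)

/-- The uncentred maximal function: the supremum of the averages of `‖f‖` over all open balls
containing `x`. -/
noncomputable def maxU {d : ℕ} (f : Euc d → ℝ) (x : Euc d) : ℝ≥0∞ :=
  ⨆ (z : Euc d) (r : ℝ) (_ : x ∈ ball z r), (∫⁻ y in ball z r, ‖f y‖ₑ) / volume (ball z r)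

/-- `G` is the weak gradient of the locally integrable function `f`. -/
def HasWeakGradient {d : ℕ} (f : Euc d → ℝ) (G : Euc d → Euc d) : Prop :=
  LocallyIntegrable f ∧ LocallyIntegrable G ∧
    ∀ φ : Euc d → ℝ, ContDiff ℝ (⊤ : ℕ∞) φ → HasCompactSupport φ → ∀ v : Euc d,
      ∫ x, f x * fderiv ℝ φ x v = -∫ x, φ x * ⟪G x, v⟫

/-- `(f, G)` is an `L¹` limit of continuously differentiable functions with their gradients. -/
def Approx {d : ℕ} (f : Euc d → ℝ) (G : Euc d → Euc d) : Prop :=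
  Integrable f ∧ Integrable G ∧ ∀ ε : ℝ, 0 < ε → ∃ u : Euc d → ℝ, ContDiff ℝ 1 u ∧
    Integrable u ∧ Integrable (gradient u) ∧ ∫ x, |u x - f x| ≤ ε ∧
      ∫ x, ‖gradient u x - G x‖ ≤ ε

/-- The average of `u` over the closed ball of radius `r` around each point. -/
noncomputable def avg {d : ℕ} {F : Type*} [NormedAddCommGroup F] [NormedSpace ℝ F] (r : ℝ)
    (u : Euc d → F) (x : Euc d) : F :=
  (volume.real (closedBall (0 : Euc d) r))⁻¹ • ∫ z in closedBall (0 : Euc d) r, u (x + z)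

/-- Repeated averaging over radii `δ`, `2 δ`, `4 δ` and so on. -/
noncomputable def mol {d : ℕ} {F : Type*} [NormedAddCommGroup F] [NormedSpace ℝ F] (δ : ℝ)
    (u : Euc d → F) : ℕ → Euc d → F
  | 0 => u
  | n + 1 => avg (δ * 2 ^ n) (mol δ u n)

/-- The variation left after `n` averagings. -/
noncomputable def molNorm {d : ℕ} (δ : ℝ) (G : Euc d → Euc d) (n : ℕ) : ℝ :=
  ∫ x, ‖mol δ G n x‖

/-- The defect of the vector field `g` from pointing in direction `v`. -/
noncomputable def disp {d : ℕ} (v : Euc d) (g : Euc d → Euc d) (x : Euc d) : ℝ :=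
  ‖g x‖ - ⟪g x, v⟫

/-- The maximal function over closed balls of radius at least `δ` containing the point. -/
noncomputable def maxT {d : ℕ} (δ : ℝ) (f : Euc d → ℝ) (x : Euc d) : ℝ :=
  sSup {a | ∃ z r, δ ≤ r ∧ dist x z ≤ r ∧ a = avg r f z}

/-- The points whose best radius lies in the dyadic scale `k`. -/
def window {d : ℕ} (δ : ℝ) (f : Euc d → ℝ) (k : ℕ) : Set (Euc d) :=
  {x | maxT (δ * 2 ^ (k + 1)) f x < maxT (δ * 2 ^ k) f x}

/-- The estimate for one scale. -/
def ScaleBound (d : ℕ) (C : ℝ) : Prop :=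
  ∀ (f : Euc d → ℝ) (G : Euc d → Euc d) (δ : ℝ) (k : ℕ), Approx f G → (∀ x, 0 ≤ f x) → 0 < δ →
    ∫⁻ x in window δ f k, ‖fderiv ℝ (maxT (δ * 2 ^ k) f) x‖ₑ ≤
      ENNReal.ofReal (C * ∑ n ∈ Finset.range (k + 1),
        (9 / 10 : ℝ) ^ (k - n) * (molNorm δ G n - molNorm δ G (k + 10)))

end Vale.Agent.P137
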