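import Vale.Agent.P137.Defs

/-!
Approximation of functions with an integrable weak gradient, and of their absolute values.
-/

namespace Vale.Agent.P137

open MeasureTheory Metric Set Filter Topology ContinuousLinearMap
open scoped RealInnerProductSpace ENNReal Convolution

variable {d : ℕ}

section mollify

variable {V : Type*} [NormedAddCommGroup V] [NormedSpace ℝ V] [CompleteSpace V]

/-- Mollification converges in `L¹`. -/
lemma exists_mollify_close {F : Euc d → V} (hF : Integrable F) {ε : ℝ} (hε : 0 < ε) :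
    ∃ η : ℝ, 0 < η ∧ ∀ φ : ContDiffBump (0 : Euc d), φ.rOut ≤ η →
      ∫ x, ‖(φ.normed volume ⋆[lsmul ℝ ℝ, volume] F : Euc d → V) x - F x‖ ≤ ε := by
  obtain ⟨g, hgc, hgF, hg, hgi⟩ :=
    hF.exists_hasCompactSupport_integral_sub_le (ε := ε / 4) (by linarith)
  set K := cthickening 1 (tsupport g)
  have hK : IsCompact K := hgc.isCompact.cthickening
  have hKf : volume K ≠ ∞ := hK.measure_lt_top.ne
  set η₀ := ε / (4 * (volume.real K + 1))
  have hη₀ : 0 < η₀ := div_pos hε (by positivity)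
  obtain ⟨r, hr, hr'⟩ := Metric.uniformContinuous_iff.1
    (hgc.uniformContinuous_of_continuous hg) η₀ hη₀
  refine ⟨min r 1, lt_min hr one_pos, fun φ hφ => ?_⟩
  set ρ := φ.normed (volume : Measure (Euc d))
  have hρi : Integrable ρ :=
    φ.continuous_normed.integrable_of_hasCompactSupport φ.hasCompactSupport_normed
  have hex : ∀ {H : Euc d → V}, Integrable H → ∀ x,
      Integrable fun t => ρ t • H (x - t) := fun {H} hH x =>
    φ.hasCompactSupport_normed.convolutionExists_left (lsmul ℝ ℝ) φ.continuous_normed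
      hH.locallyIntegrable x
  -- the error on the continuous approximation
  have hpt : ∀ x, ‖(ρ ⋆[lsmul ℝ ℝ, volume] g : Euc d → V) x - g x‖ ≤ K.indicator (fun _ => η₀) x := by
    intro x
    rw [← dist_eq_norm]
    by_cases hx : x ∈ K
    · rw [indicator_of_mem hx]
      exact φ.dist_normed_convolution_le hgi.aestronglyMeasurable fun y hy =>
        (hr' (lt_of_lt_of_le (mem_ball.1 hy) (hφ.trans (min_le_left _ _)))).le
    · rw [indicator_of_notMem hx]
      refine φ.dist_normed_convolution_le hgi.aestronglyMeasurable fun y hy => ?_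
      have hzero : ∀ z, dist x z ≤ 1 → g z = 0 := fun z hz => image_eq_zero_of_notMem_tsupport
        fun h => hx (mem_cthickening_of_dist_le x z 1 _ h hz)
      rw [hzero x (by simp), hzero y ?_, dist_self]
      rw [dist_comm]
      exact (mem_ball.1 hy).le.trans (hφ.trans (min_le_right _ _))
  have hcF : Integrable (ρ ⋆[lsmul ℝ ℝ, volume] F : Euc d → V) :=
    hρi.integrable_convolution (lsmul ℝ ℝ) hF
  have hcg : Integrable (ρ ⋆[lsmul ℝ ℝ, volume] g : Euc d → V) :=
    hρi.integrable_convolution (lsmul ℝ ℝ) hgi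
  set D := fun y => ‖F y - g y‖
  have hD : Integrable D := (hF.sub hgi).norm
  have hcD : Integrable (ρ ⋆[lsmul ℝ ℝ, volume] D : Euc d → ℝ) :=
    hρi.integrable_convolution (lsmul ℝ ℝ) hD
  have htri : ∀ x, ‖(ρ ⋆[lsmul ℝ ℝ, volume] F : Euc d → V) x - F x‖ ≤
      (ρ ⋆[lsmul ℝ ℝ, volume] D : Euc d → ℝ) x + K.indicator (fun _ => η₀) x + D x := by
    intro x
    have h1 : ‖(ρ ⋆[lsmul ℝ ℝ, volume] F : Euc d → V) x - (ρ ⋆[lsmul ℝ ℝ, volume] g : Euc d → V) x‖ ≤
        (ρ ⋆[lsmul ℝ ℝ, volume] D : Euc d → ℝ) x := by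
      simp only [convolution_lsmul]
      rw [← integral_sub (hex hF x) (hex hgi x)]
      refine (norm_integral_le_integral_norm _).trans_eq (integral_congr_ae (ae_of_all _ fun t => ?_))
      simp only [D, ← smul_sub, norm_smul, Real.norm_eq_abs, smul_eq_mul]
      rw [abs_of_nonneg (φ.nonneg_normed t)]
    have h2 := norm_sub_le_norm_sub_add_norm_sub ((ρ ⋆[lsmul ℝ ℝ, volume] F : Euc d → V) x)
      ((ρ ⋆[lsmul ℝ ℝ, volume] g : Euc d → V) x) (F x)
    have h3 := norm_sub_le_norm_sub_add_norm_sub ((ρ ⋆[lsmul ℝ ℝ, volume] g : Euc d → V) x)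
      (g x) (F x)
    have h4 : ‖g x - F x‖ = D x := norm_sub_rev _ _
    linarith [hpt x]
  have hKi : Integrable (K.indicator fun _ => η₀) :=
    (integrable_indicator_iff hK.measurableSet).2 (integrableOn_const hKf)
  refine (integral_mono_of_nonneg (ae_of_all _ fun x => norm_nonneg _) ((hcD.add hKi).add hD)
    (ae_of_all _ htri)).trans ?_
  rw [integral_add' (hcD.add hKi) hD, integral_add' hcD hKi, integral_convolution (lsmul ℝ ℝ) hρi hD,
    φ.integral_normed, lsmul_apply, one_smul, integral_indicator_const _ hK.measurableSet,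
    smul_eq_mul]
  have h5 : volume.real K * η₀ ≤ ε / 4 := by
    have h6 : volume.real K * η₀ ≤ (volume.real K + 1) * η₀ := by nlinarith
    refine h6.trans_eq ?_
    simp only [η₀]
    field_simp
  linarith [show ∫ x, D x ≤ ε / 4 from hgF]

end mollify

/-- The gradient of a mollification is the mollified weak gradient. -/
lemma hasGradientAt_mollify {f : Euc d → ℝ} {G : Euc d → Euc d} (h : HasWeakGradient f G)
    (φ : ContDiffBump (0 : Euc d)) (x : Euc d) :
    HasGradientAt (φ.normed volume ⋆[lsmul ℝ ℝ, volume] f : Euc d → ℝ)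
      ((φ.normed volume ⋆[lsmul ℝ ℝ, volume] G : Euc d → Euc d) x) x := by
  obtain ⟨hf, hG, hweak⟩ := h
  set ρ := φ.normed (volume : Measure (Euc d))
  have hρ : ContDiff ℝ (⊤ : ℕ∞) ρ := φ.contDiff_normed
  have hρ1 : ContDiff ℝ 1 ρ := φ.contDiff_normed
  have hcs : HasCompactSupport ρ := φ.hasCompactSupport_normed
  rw [hasGradientAt_iff_hasFDerivAt]
  refine (hcs.hasFDerivAt_convolution_left (lsmul ℝ ℝ) hρ1 hf x).congr_fderiv ?_
  refine ContinuousLinearMap.ext fun v => ?_
  have hex := (hcs.fderiv ℝ).convolutionExists_left ((lsmul ℝ ℝ).precompL (Euc d))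
    (hρ1.continuous_fderiv one_ne_zero) hf x
  have hexG : Integrable fun t => ρ (x - t) • G t :=
    (hcs.convolutionExists_left (lsmul ℝ ℝ) φ.continuous_normed hG x).integrable_swap
  rw [convolution_eq_swap, ContinuousLinearMap.integral_apply hex.integrable_swap,
    convolution_lsmul_swap, InnerProductSpace.toDual_apply_apply, real_inner_comm,
    ← integral_inner hexG v]
  set ψ := fun t => ρ (x - t)
  have hψ : ContDiff ℝ (⊤ : ℕ∞) ψ := hρ.comp (contDiff_const.sub contDiff_id)
  have hψc : HasCompactSupport ψ := hcs.comp_homeomorph (Homeomorph.subLeft x)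
  have hd : ∀ t, fderiv ℝ ψ t v = -fderiv ℝ ρ (x - t) v := by
    intro t
    have h1 : HasFDerivAt ψ ((fderiv ℝ ρ (x - t)).comp (-ContinuousLinearMap.id ℝ (Euc d))) t :=
      (hρ1.differentiable one_ne_zero).differentiableAt.hasFDerivAt.comp t
        ((hasFDerivAt_id t).const_sub x)
    rw [h1.fderiv]
    simp
  have hw := hweak ψ hψ hψc v
  simp only [hd, mul_neg, integral_neg, neg_inj] at hw
  refine Eq.trans ?_ (hw.trans (integral_congr_ae (ae_of_all _ fun t => ?_)))
  · refine integral_congr_ae (ae_of_all _ fun t => ?_)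
    simp [mul_comm]
  · simp [ψ, inner_smul_right, real_inner_comm v (G t)]

theorem approx_of_hasWeakGradient {f : Euc d → ℝ} {G : Euc d → Euc d} (hf : Integrable f)
    (hG : Integrable G) (h : HasWeakGradient f G) : Approx f G := by
  refine ⟨hf, hG, fun ε hε => ?_⟩
  obtain ⟨η₁, hη₁, h1⟩ := exists_mollify_close hf hε
  obtain ⟨η₂, hη₂, h2⟩ := exists_mollify_close hG hε
  set r := min η₁ η₂
  have hr : 0 < r := lt_min hη₁ hη₂
  let φ : ContDiffBump (0 : Euc d) := ⟨r / 2, r, half_pos hr, half_lt_self hr⟩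
  have hρi : Integrable (φ.normed volume) :=
    φ.continuous_normed.integrable_of_hasCompactSupport φ.hasCompactSupport_normed
  have hgrad : gradient (φ.normed volume ⋆[lsmul ℝ ℝ, volume] f : Euc d → ℝ) =
      (φ.normed volume ⋆[lsmul ℝ ℝ, volume] G : Euc d → Euc d) :=
    gradient_eq (hasGradientAt_mollify h φ)
  refine ⟨(φ.normed volume ⋆[lsmul ℝ ℝ, volume] f : Euc d → ℝ),
    φ.hasCompactSupport_normed.contDiff_convolution_left (n := 1) (lsmul ℝ ℝ) φ.contDiff_normed
      hf.locallyIntegrable,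
    hρi.integrable_convolution (lsmul ℝ ℝ) hf, ?_, ?_, ?_⟩
  · rw [hgrad]; exact hρi.integrable_convolution (lsmul ℝ ℝ) hG
  · simpa only [Real.norm_eq_abs] using h1 φ (min_le_left _ _)
  · rw [hgrad]; exact h2 φ (min_le_right _ _)

/-- `Approx` is closed under `L¹` limits. -/
lemma approx_of_forall_near {f : Euc d → ℝ} {G : Euc d → Euc d} (hf : Integrable f)
    (hG : Integrable G) (h : ∀ ε : ℝ, 0 < ε → ∃ f' G', Approx f' G' ∧ ∫ x, |f' x - f x| ≤ ε ∧
      ∫ x, ‖G' x - G x‖ ≤ ε) : Approx f G := by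
  refine ⟨hf, hG, fun ε hε => ?_⟩
  obtain ⟨f', G', ⟨hf', hG', happ⟩, h1, h2⟩ := h (ε / 2) (half_pos hε)
  obtain ⟨u, hu, hui, hgi, h3, h4⟩ := happ (ε / 2) (half_pos hε)
  refine ⟨u, hu, hui, hgi, ?_, ?_⟩
  · refine le_trans (integral_mono_of_nonneg (g := fun x => |u x - f' x| + |f' x - f x|)
      (ae_of_all _ fun x => abs_nonneg _) ((hui.sub hf').abs.add (hf'.sub hf).abs)
      (ae_of_all _ fun x => abs_sub_le _ _ _)) ?_
    rw [integral_add (f := fun x => |u x - f' x|) (g := fun x => |f' x - f x|) (hui.sub hf').abs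
      (hf'.sub hf).abs]
    linarith
  · refine le_trans (integral_mono_of_nonneg (g := fun x => ‖gradient u x - G' x‖ + ‖G' x - G x‖)
      (ae_of_all _ fun x => norm_nonneg _) ((hgi.sub hG').norm.add (hG'.sub hG).norm)
      (ae_of_all _ fun x => norm_sub_le_norm_sub_add_norm_sub _ _ _)) ?_
    rw [integral_add (f := fun x => ‖gradient u x - G' x‖) (g := fun x => ‖G' x - G x‖)
      (hgi.sub hG').norm (hG'.sub hG).norm]
    linarith

/-- A smoothing of the absolute value. -/
noncomputable def sAbs (e s : ℝ) : ℝ := √(s ^ 2 + e ^ 2) - e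

/-- The derivative of the smoothing. -/
noncomputable def sSign (e s : ℝ) : ℝ := s / √(s ^ 2 + e ^ 2)

section

variable {e : ℝ}

lemma le_sqrt_add (_he : 0 < e) (s : ℝ) : e ≤ √(s ^ 2 + e ^ 2) ∧ |s| ≤ √(s ^ 2 + e ^ 2) :=
  ⟨Real.le_sqrt_of_sq_le (by nlinarith [sq_nonneg s]),
    Real.le_sqrt_of_sq_le (by rw [sq_abs]; nlinarith [sq_nonneg e])⟩

lemma sqrt_add_sub_le (he : 0 < e) (a b : ℝ) :
    |√(a ^ 2 + e ^ 2) - √(b ^ 2 + e ^ 2)| ≤ |a - b| := by
  obtain ⟨hea, haa⟩ := le_sqrt_add he a
  obtain ⟨heb, hbb⟩ := le_sqrt_add he b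
  have hA := Real.sq_sqrt (show (0 : ℝ) ≤ a ^ 2 + e ^ 2 by positivity)
  have hB := Real.sq_sqrt (show (0 : ℝ) ≤ b ^ 2 + e ^ 2 by positivity)
  set A := √(a ^ 2 + e ^ 2)
  set B := √(b ^ 2 + e ^ 2)
  have h : (A - B) * (A + B) = (a - b) * (a + b) := by linear_combination hA - hB
  have h' : |A - B| * (A + B) ≤ |a - b| * (A + B) := by
    rw [← abs_of_pos (show (0 : ℝ) < A + B by linarith), ← abs_mul, h, abs_mul,
      abs_of_pos (show (0 : ℝ) < A + B by linarith)]
    exact mul_le_mul_of_nonneg_left ((abs_add_le _ _).trans (add_le_add haa hbb)) (abs_nonneg _)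
  exact le_of_mul_le_mul_right h' (by linarith)

lemma abs_sAbs_sub (he : 0 < e) (a b : ℝ) : |sAbs e a - sAbs e b| ≤ |a - b| := by
  simpa [sAbs] using sqrt_add_sub_le he a b

lemma abs_sAbs_le (he : 0 < e) (s : ℝ) : |sAbs e s| ≤ |s| := by
  simpa [sAbs, Real.sqrt_sq he.le] using abs_sAbs_sub he s 0

lemma abs_sSign_le (he : 0 < e) (s : ℝ) : |sSign e s| ≤ 1 := by
  obtain ⟨h1, h2⟩ := le_sqrt_add he s
  rw [sSign, abs_div, abs_of_pos (lt_of_lt_of_le he h1), div_le_one (lt_of_lt_of_le he h1)]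
  exact h2

lemma abs_sSign_sub (he : 0 < e) (a b : ℝ) : |sSign e a - sSign e b| ≤ 2 / e * |a - b| := by
  obtain ⟨hea, -⟩ := le_sqrt_add he a
  obtain ⟨heb, hbb⟩ := le_sqrt_add he b
  have h := sqrt_add_sub_le he b a
  simp only [sSign]
  set A := √(a ^ 2 + e ^ 2)
  set B := √(b ^ 2 + e ^ 2)
  have hA : 0 < A := by linarith
  have hB : 0 < B := by linarith
  have heq : a / A - b / B = ((a - b) + b / B * (B - A)) / A := by field_simp; ring
  rw [heq, abs_div, abs_of_pos hA, div_le_iff₀ hA]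
  refine (abs_add_le _ _).trans ?_
  rw [abs_mul, abs_div, abs_of_pos hB]
  have h1 : |b| / B * |B - A| ≤ 1 * |a - b| :=
    mul_le_mul (by rw [div_le_one hB]; exact hbb) (by rwa [abs_sub_comm a b]) (abs_nonneg _)
      zero_le_one
  have h2 : 2 * |a - b| ≤ 2 / e * |a - b| * A := by
    rw [div_mul_eq_mul_div, div_mul_eq_mul_div, le_div_iff₀ he]
    nlinarith [mul_le_mul_of_nonneg_left hea (abs_nonneg (a - b))]
  linarith

lemma continuous_sAbs : Continuous (sAbs e) := by unfold sAbs; fun_prop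

lemma continuous_sSign (he : 0 < e) : Continuous (sSign e) :=
  Continuous.div continuous_id (by fun_prop) fun s => (lt_of_lt_of_le he (le_sqrt_add he s).1).ne'

lemma contDiff_sAbs (he : 0 < e) : ContDiff ℝ 1 (sAbs e) :=
  (ContDiff.sqrt (by fun_prop) fun s => by positivity).sub contDiff_const

lemma hasDerivAt_sAbs (he : 0 < e) (s : ℝ) : HasDerivAt (sAbs e) (sSign e s) s := by
  have h := ((((hasDerivAt_id' s).fun_pow 2).add_const (e ^ 2)).sqrt (by positivity)).sub_const e
  refine h.congr_deriv ?_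
  simp only [sSign]
  field_simp
  simp [mul_comm]

lemma integrable_sAbs_comp (he : 0 < e) {f : Euc d → ℝ} (hf : Integrable f) :
    Integrable fun x => sAbs e (f x) :=
  hf.norm.mono' (continuous_sAbs.comp_aestronglyMeasurable hf.aestronglyMeasurable)
    (ae_of_all _ fun x => abs_sAbs_le he (f x))

lemma integrable_sSign_smul (he : 0 < e) {f : Euc d → ℝ} {G : Euc d → Euc d}
    (hf : Integrable f) (hG : Integrable G) : Integrable fun x => sSign e (f x) • G x :=
  hG.norm.mono' (((continuous_sSign he).comp_aestronglyMeasurable hf.aestronglyMeasurable).smul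
    hG.aestronglyMeasurable) (ae_of_all _ fun x => by
      rw [norm_smul]
      exact mul_le_of_le_one_left (norm_nonneg _) (abs_sSign_le he _))

lemma approx_sAbs (he : 0 < e) {f : Euc d → ℝ} {G : Euc d → Euc d} (h : Approx f G) :
    Approx (fun x => sAbs e (f x)) (fun x => sSign e (f x) • G x) := by
  obtain ⟨hf, hG, happ⟩ := h
  refine ⟨integrable_sAbs_comp he hf, integrable_sSign_smul he hf hG, fun ε hε => ?_⟩
  -- a level above which the gradient has little mass
  obtain ⟨R, hR⟩ : ∃ R : ℕ, ∫ x, (‖G x‖ - min ‖G x‖ R) ≤ ε / 8 := by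
    have hlim : Tendsto (fun R : ℕ => ∫ x, (‖G x‖ - min ‖G x‖ R)) atTop (𝓝 (∫ _x : Euc d, (0 : ℝ))) := by
      refine tendsto_integral_of_dominated_convergence (fun x => ‖G x‖)
        (fun R => hG.norm.aestronglyMeasurable.sub
          ((continuous_id.min continuous_const).comp_aestronglyMeasurable hG.norm.aestronglyMeasurable))
        hG.norm (fun R => ae_of_all _ fun x => ?_) (ae_of_all _ fun x => ?_)
      · have h1 := min_le_left ‖G x‖ (R : ℝ)
        have h2 : (0 : ℝ) ≤ min ‖G x‖ R := le_min (norm_nonneg _) (Nat.cast_nonneg R)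
        rw [Real.norm_eq_abs, abs_le]
        constructor <;> linarith [norm_nonneg (G x)]
      · obtain ⟨N, hN⟩ := exists_nat_ge ‖G x‖
        refine tendsto_const_nhds.congr' (eventually_atTop.2 ⟨N, fun R hR => ?_⟩)
        show (0 : ℝ) = ‖G x‖ - min ‖G x‖ (R : ℝ)
        rw [min_eq_left (hN.trans (Nat.cast_le.2 hR)), sub_self]
    rw [integral_zero] at hlim
    exact ((hlim.eventually_lt_const (by linarith : (0 : ℝ) < ε / 8)).exists).imp fun R hR => hR.le
  set c := 2 / e * R
  have hc : 0 ≤ c := by positivity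
  set κ := min (ε / 4) (ε / (4 * (c + 1)))
  have hκ : 0 < κ := lt_min (by linarith) (div_pos hε (by positivity))
  obtain ⟨u, hu, hui, hgi, h1, h2⟩ := happ κ hκ
  have hgrad : gradient (fun x => sAbs e (u x)) = fun x => sSign e (u x) • gradient u x := by
    refine gradient_eq fun x => ?_
    rw [hasGradientAt_iff_hasFDerivAt, map_smul]
    exact (hasDerivAt_sAbs he (u x)).comp_hasFDerivAt x
      ((hu.differentiable one_ne_zero x).hasGradientAt.hasFDerivAt)
  refine ⟨fun x => sAbs e (u x), (contDiff_sAbs he).comp hu, integrable_sAbs_comp he hui, ?_, ?_, ?_⟩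
  · rw [hgrad]
    exact integrable_sSign_smul he hui hgi
  · calc ∫ x, |sAbs e (u x) - sAbs e (f x)| ≤ ∫ x, |u x - f x| :=
          integral_mono_of_nonneg (ae_of_all _ fun x => abs_nonneg _) (hui.sub hf).abs
            (ae_of_all _ fun x => abs_sAbs_sub he _ _)
      _ ≤ ε := by linarith [min_le_left (ε / 4) (ε / (4 * (c + 1)))]
  · rw [hgrad]
    have hpt : ∀ x, ‖sSign e (u x) • gradient u x - sSign e (f x) • G x‖ ≤
        ‖gradient u x - G x‖ + c * |u x - f x| + 2 * (‖G x‖ - min ‖G x‖ R) := by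
      intro x
      have e1 : sSign e (u x) • gradient u x - sSign e (f x) • G x =
          sSign e (u x) • (gradient u x - G x) + (sSign e (u x) - sSign e (f x)) • G x := by
        module
      rw [e1]
      refine (norm_add_le _ _).trans ?_
      rw [norm_smul, norm_smul, Real.norm_eq_abs, Real.norm_eq_abs]
      have a1 := abs_sSign_le he (u x)
      have a2 := abs_sSign_sub he (u x) (f x)
      have a3 : |sSign e (u x) - sSign e (f x)| ≤ 2 :=
        (abs_sub _ _).trans (by linarith [abs_sSign_le he (f x)])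
      set Δ := |sSign e (u x) - sSign e (f x)|
      have hΔ : 0 ≤ Δ := abs_nonneg _
      have hm0 : 0 ≤ min ‖G x‖ (R : ℝ) := le_min (norm_nonneg _) (Nat.cast_nonneg R)
      have b1 : |sSign e (u x)| * ‖gradient u x - G x‖ ≤ ‖gradient u x - G x‖ :=
        mul_le_of_le_one_left (norm_nonneg _) a1
      have b2 : Δ * min ‖G x‖ R ≤ c * |u x - f x| := by
        calc Δ * min ‖G x‖ R ≤ (2 / e * |u x - f x|) * R :=
              mul_le_mul a2 (min_le_right _ _) hm0 (by positivity)
          _ = c * |u x - f x| := by simp only [c]; ring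
      have b3 : Δ * (‖G x‖ - min ‖G x‖ R) ≤ 2 * (‖G x‖ - min ‖G x‖ R) :=
        mul_le_mul_of_nonneg_right a3 (sub_nonneg.2 (min_le_left _ _))
      linarith [show Δ * ‖G x‖ = Δ * min ‖G x‖ R + Δ * (‖G x‖ - min ‖G x‖ R) by ring]
    have i1 : Integrable fun x => ‖gradient u x - G x‖ := (hgi.sub hG).norm
    have i2 : Integrable fun x => c * |u x - f x| := (hui.sub hf).abs.const_mul c
    have i3 : Integrable fun x => 2 * (‖G x‖ - min ‖G x‖ R) := by
      refine (hG.norm.sub (hG.norm.mono' ((continuous_id.min continuous_const).comp_aestronglyMeasurable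
        hG.norm.aestronglyMeasurable) (ae_of_all _ fun x => ?_))).const_mul 2
      show ‖min ‖G x‖ (R : ℝ)‖ ≤ ‖G x‖
      rw [Real.norm_eq_abs, abs_of_nonneg (le_min (norm_nonneg _) (Nat.cast_nonneg R))]
      exact min_le_left _ _
    refine (integral_mono_of_nonneg (ae_of_all _ fun x => norm_nonneg _) ((i1.add i2).add i3)
      (ae_of_all _ hpt)).trans ?_
    rw [integral_add' (i1.add i2) i3, integral_add' i1 i2, integral_const_mul, integral_const_mul]
    have h3 : c * ∫ x, |u x - f x| ≤ ε / 4 := by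
      refine (mul_le_mul_of_nonneg_left (h1.trans (min_le_right _ _)) hc).trans ?_
      rw [← mul_div_assoc, div_le_iff₀ (by positivity)]
      nlinarith
    linarith [min_le_left (ε / 4) (ε / (4 * (c + 1)))]

end

theorem approx_abs {f : Euc d → ℝ} {G : Euc d → Euc d} (h : Approx f G) :
    ∃ G', Approx (fun x => |f x|) G' ∧ ∀ x, ‖G' x‖ ≤ ‖G x‖ := by
  obtain ⟨hf, hG, -⟩ := id h
  have hpos : ∀ n : ℕ, (0 : ℝ) < 1 / ((n : ℝ) + 1) := fun n => by positivity
  have he0 : Tendsto (fun n : ℕ => 1 / ((n : ℝ) + 1)) atTop (𝓝 0) :=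
    tendsto_one_div_add_atTop_nhds_zero_nat
  set G' := fun x => (f x / |f x|) • G x
  have hG'n : ∀ x, ‖G' x‖ ≤ ‖G x‖ := fun x => by
    simp only [G', norm_smul, Real.norm_eq_abs, abs_div, abs_abs]
    exact mul_le_of_le_one_left (norm_nonneg _) (div_self_le_one _)
  have hs : ∀ s : ℝ, Tendsto (fun n : ℕ => sSign (1 / ((n : ℝ) + 1)) s) atTop (𝓝 (s / |s|)) := by
    intro s
    rcases eq_or_ne s 0 with rfl | hs
    · simp [sSign]
    have : ContinuousAt (fun e : ℝ => sSign e s) 0 := by
      refine continuousAt_const.div (by fun_prop) ?_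
      simp [Real.sqrt_sq_eq_abs, hs]
    simpa [sSign, Real.sqrt_sq_eq_abs, Function.comp_def] using this.tendsto.comp he0
  have ha : ∀ s : ℝ, Tendsto (fun n : ℕ => sAbs (1 / ((n : ℝ) + 1)) s) atTop (𝓝 |s|) := by
    intro s
    have : ContinuousAt (fun e : ℝ => sAbs e s) 0 := by unfold sAbs; fun_prop
    simpa [sAbs, Real.sqrt_sq_eq_abs, Function.comp_def] using this.tendsto.comp he0
  have hm : ∀ n : ℕ, AEStronglyMeasurable (fun x => sSign (1 / ((n : ℝ) + 1)) (f x) • G x) :=
    fun n => (integrable_sSign_smul (hpos n) hf hG).aestronglyMeasurable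
  have hG' : Integrable G' :=
    hG.norm.mono' (aestronglyMeasurable_of_tendsto_ae atTop hm
      (ae_of_all _ fun x => (hs (f x)).smul_const (G x))) (ae_of_all _ hG'n)
  refine ⟨G', approx_of_forall_near hf.abs hG' fun ε hε => ?_, hG'n⟩
  have l1 : Tendsto (fun n : ℕ => ∫ x, |sAbs (1 / ((n : ℝ) + 1)) (f x) - abs (f x)|) atTop
      (𝓝 (∫ _x : Euc d, (0 : ℝ))) := by
    refine tendsto_integral_of_dominated_convergence (fun x => 2 * |f x|)
      (fun n => ((integrable_sAbs_comp (hpos n) hf).sub hf.abs).abs.aestronglyMeasurable)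
      (hf.abs.const_mul 2) (fun n => ae_of_all _ fun x => ?_) (ae_of_all _ fun x => ?_)
    · rw [Real.norm_eq_abs, abs_abs]
      refine (abs_sub _ _).trans ?_
      rw [abs_abs]
      linarith [abs_sAbs_le (hpos n) (f x)]
    · simpa using ((ha (f x)).sub_const |f x|).abs
  have l2 : Tendsto (fun n : ℕ => ∫ x, ‖sSign (1 / ((n : ℝ) + 1)) (f x) • G x - G' x‖) atTop
      (𝓝 (∫ _x : Euc d, (0 : ℝ))) := by
    refine tendsto_integral_of_dominated_convergence (fun x => 2 * ‖G x‖)
      (fun n => ((hm n).sub hG'.aestronglyMeasurable).norm) (hG.norm.const_mul 2)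
      (fun n => ae_of_all _ fun x => ?_) (ae_of_all _ fun x => ?_)
    · rw [norm_norm]
      refine (norm_sub_le _ _).trans ?_
      have : ‖sSign (1 / ((n : ℝ) + 1)) (f x) • G x‖ ≤ ‖G x‖ := by
        rw [norm_smul]; exact mul_le_of_le_one_left (norm_nonneg _) (abs_sSign_le (hpos n) _)
      linarith [hG'n x]
    · have := ((hs (f x)).smul_const (G x)).sub_const (G' x)
      simpa [G'] using this.norm
  rw [integral_zero] at l1 l2
  obtain ⟨n, h1, h2⟩ :=
    ((l1.eventually_lt_const hε).and (l2.eventually_lt_const hε)).exists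
  exact ⟨_, _, approx_sAbs (hpos n) h, h1.le, h2.le⟩

end Vale.Agent.P137
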