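import Vale.Agent.P137.Geom
import Vale.Agent.P137.Sobolev

/-!
From the estimate for one scale to the theorem: the windows telescope, the gradients of the
truncated maximal functions form a Cauchy sequence in `L¹`, and integration by parts along a
direction bounds them locally in `L¹`.
-/

namespace Vale.Agent.P137

open MeasureTheory Metric Set Filter Topology
open scoped RealInnerProductSpace ENNReal NNReal

section Series

/-- The constant of the telescoping. -/
noncomputable def windowConst : ℝ := ∑' j : ℕ, (9 / 10 : ℝ) ^ j * ((j : ℝ) + 10)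

lemma summable_windowConst : Summable fun j : ℕ => (9 / 10 : ℝ) ^ j * ((j : ℝ) + 10) := by
  have h1 : Summable fun j : ℕ => (j : ℝ) ^ 1 * (9 / 10 : ℝ) ^ j :=
    summable_pow_mul_geometric_of_norm_lt_one 1 (by norm_num)
  have h0 : Summable fun j : ℕ => (9 / 10 : ℝ) ^ j * 10 :=
    (summable_geometric_of_lt_one (by norm_num) (by norm_num)).mul_right 10
  refine (h1.add h0).congr fun j => ?_
  ring

lemma windowConst_nonneg : 0 ≤ windowConst :=
  tsum_nonneg fun _ => by positivity

lemma sum_shift_sub_le {V : ℕ → ℝ} (hV : Antitone V) (L N : ℕ) :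
    ∑ n ∈ Finset.range N, (V n - V (n + L)) ≤ (L : ℝ) * (V 0 - V (N + L)) := by
  have h1 := Finset.sum_range_add V L N
  have h2 := Finset.sum_range_add V N L
  rw [Nat.add_comm L N] at h1
  have h3 : ∑ n ∈ Finset.range N, V (n + L) = ∑ n ∈ Finset.range N, V (L + n) :=
    Finset.sum_congr rfl fun n _ => by rw [Nat.add_comm]
  calc ∑ n ∈ Finset.range N, (V n - V (n + L))
      = ∑ i ∈ Finset.range L, (V i - V (N + i)) := by
        rw [Finset.sum_sub_distrib, Finset.sum_sub_distrib, h3]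
        linarith
    _ ≤ ∑ _i ∈ Finset.range L, (V 0 - V (N + L)) := Finset.sum_le_sum fun i hi => by
        have := hV (Nat.zero_le i)
        have := hV (Nat.add_le_add_left (Finset.mem_range.1 hi).le N)
        linarith
    _ = _ := by simp [mul_sub]

lemma sum_windows_le {V : ℕ → ℝ} (hV : Antitone V) (K : ℕ) :
    ∑ k ∈ Finset.range K, ∑ n ∈ Finset.range (k + 1),
        (9 / 10 : ℝ) ^ (k - n) * (V n - V (k + 10)) ≤
      windowConst * (V 0 - V (K + 10)) := by
  calc ∑ k ∈ Finset.range K, ∑ n ∈ Finset.range (k + 1),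
        (9 / 10 : ℝ) ^ (k - n) * (V n - V (k + 10))
      ≤ ∑ k ∈ Finset.range K, ∑ j ∈ Finset.range K,
          (9 / 10 : ℝ) ^ j * (V (k - j) - V (k + 10)) := by
        refine Finset.sum_le_sum fun k hk => ?_
        rw [← Finset.sum_range_reflect]
        refine (Finset.sum_le_sum (g := fun j => (9 / 10 : ℝ) ^ j * (V (k - j) - V (k + 10)))
          fun j hj => le_of_eq ?_).trans (Finset.sum_le_sum_of_subset_of_nonneg ?_ ?_)
        · have hj' := Finset.mem_range.1 hj
          rw [show k + 1 - 1 - j = k - j by omega, show k - (k - j) = j by omega]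
        · exact Finset.range_mono (Finset.mem_range.1 hk)
        · exact fun j _ _ => mul_nonneg (by positivity) (sub_nonneg.2 (hV (by omega)))
    _ = ∑ j ∈ Finset.range K, (9 / 10 : ℝ) ^ j *
          ∑ k ∈ Finset.range K, (V (k - j) - V (k + 10)) := by
        rw [Finset.sum_comm]
        exact Finset.sum_congr rfl fun j _ => (Finset.mul_sum _ _ _).symm
    _ ≤ ∑ j ∈ Finset.range K, (9 / 10 : ℝ) ^ j * (((j : ℝ) + 10) * (V 0 - V (K + 10))) := by
        refine Finset.sum_le_sum fun j _ => mul_le_mul_of_nonneg_left ?_ (by positivity)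
        have h := sum_shift_sub_le (V := fun i => V (i - j)) (fun a b hab => hV (by omega))
          (j + 10) K
        simpa [show ∀ k : ℕ, k + (j + 10) - j = k + 10 from fun k => by omega] using h
    _ = (∑ j ∈ Finset.range K, (9 / 10 : ℝ) ^ j * ((j : ℝ) + 10)) * (V 0 - V (K + 10)) := by
        rw [Finset.sum_mul]
        exact Finset.sum_congr rfl fun j _ => by ring
    _ ≤ _ := mul_le_mul_of_nonneg_right
        (summable_windowConst.sum_le_tsum _ fun _ _ => by positivity)
        (sub_nonneg.2 (hV (Nat.zero_le _)))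

/-- A nonnegative sequence that eventually never rises much is eventually flat. -/
lemma flat_of_almost_antitone {a : ℕ → ℝ} (ha : ∀ j, 0 ≤ a j)
    (h : ∀ ε : ℝ, 0 < ε → ∃ j₀, ∀ j, j₀ ≤ j → ∀ m, j ≤ m → a m ≤ a j + ε) {ε : ℝ} (hε : 0 < ε) :
    ∃ j₁, ∀ j, j₁ ≤ j → ∀ m, j ≤ m → a j ≤ a m + ε := by
  obtain ⟨j₀, hj₀⟩ := h (ε / 2) (half_pos hε)
  have hne : (a '' Ici j₀).Nonempty := ⟨a j₀, j₀, Set.self_mem_Ici, rfl⟩
  have hbdd : BddBelow (a '' Ici j₀) := ⟨0, by rintro _ ⟨j, -, rfl⟩; exact ha j⟩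
  obtain ⟨_, ⟨j₁, hj₁, rfl⟩, hlt⟩ :=
    exists_lt_of_csInf_lt hne (show sInf (a '' Ici j₀) < sInf (a '' Ici j₀) + ε / 2 by linarith)
  refine ⟨j₁, fun j hj m hm => ?_⟩
  have h1 := hj₀ j₁ hj₁ j hj
  have h2 := csInf_le hbdd ⟨m, le_trans hj₁ (hj.trans hm), rfl⟩
  linarith

end Series

variable {d : ℕ}

lemma enorm_gradient (u : Euc d → ℝ) (x : Euc d) : ‖gradient u x‖ₑ = ‖fderiv ℝ u x‖ₑ := by
  rw [← ofReal_norm, ← ofReal_norm, gradient, LinearIsometryEquiv.norm_map]

lemma measurable_gradient (u : Euc d → ℝ) : Measurable (gradient u) :=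
  (InnerProductSpace.toDual ℝ (Euc d)).symm.continuous.measurable.comp (measurable_fderiv ℝ u)

lemma lineDeriv_eq_inner_gradient {u : Euc d → ℝ} {x : Euc d} (h : DifferentiableAt ℝ u x)
    (v : Euc d) : lineDeriv ℝ u x v = ⟪gradient u x, v⟫ := by
  rw [h.lineDeriv_eq_fderiv, gradient, InnerProductSpace.toDual_symm_apply]

section Slab

/-- The transversal cut-off. -/
noncomputable def cutT (L : ℝ) (e : Euc d) (x : Euc d) : ℝ :=
  max 0 (2 - ‖x - ⟪e, x⟫ • e‖ / (2 * L))

/-- The longitudinal cut-off. -/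
noncomputable def cutL (L : ℝ) (s : ℝ) : ℝ := max 0 (2 - |s| / L)

/-- The primitive of the longitudinal cut-off. -/
noncomputable def primL (L : ℝ) (s : ℝ) : ℝ := ∫ u in (0 : ℝ)..s, cutL L u

lemma continuous_cutL (L : ℝ) : Continuous (cutL L) := by
  unfold cutL; fun_prop

lemma cutL_nonneg (L s : ℝ) : 0 ≤ cutL L s := le_max_left _ _

lemma cutL_le_two {L : ℝ} (hL : 0 < L) (s : ℝ) : cutL L s ≤ 2 :=
  max_le (by norm_num) (by linarith [div_nonneg (abs_nonneg s) hL.le])

lemma cutL_eq_zero {L : ℝ} (hL : 0 < L) {s : ℝ} (h : 2 * L ≤ |s|) : cutL L s = 0 :=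
  max_eq_left (by rw [sub_nonpos, le_div_iff₀ hL]; exact h)

lemma hasDerivAt_primL (L s : ℝ) : HasDerivAt (primL L) (cutL L s) s :=
  intervalIntegral.integral_hasDerivAt_right ((continuous_cutL L).intervalIntegrable _ _)
    ((continuous_cutL L).stronglyMeasurableAtFilter _ _) (continuous_cutL L).continuousAt

lemma lipschitzWith_primL {L : ℝ} (hL : 0 < L) : LipschitzWith 2 (primL L) :=
  lipschitzWith_of_nnnorm_deriv_le (fun s => (hasDerivAt_primL L s).differentiableAt) fun s => by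
    rw [(hasDerivAt_primL L s).deriv, ← NNReal.coe_le_coe, coe_nnnorm, Real.norm_eq_abs,
      abs_of_nonneg (cutL_nonneg L s)]
    exact cutL_le_two hL s

lemma primL_right {L : ℝ} (hL : 0 < L) {s : ℝ} (hs : 2 * L ≤ s) :
    primL L s = primL L (2 * L) := by
  have hc := continuous_cutL L
  rw [primL, ← intervalIntegral.integral_add_adjacent_intervals (hc.intervalIntegrable _ (2 * L))
    (hc.intervalIntegrable _ s)]
  have h0 : ∫ u in (2 * L)..s, cutL L u = 0 := by
    refine (intervalIntegral.integral_congr (g := fun _ => (0 : ℝ)) fun u hu => ?_).trans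
      intervalIntegral.integral_zero
    rw [Set.uIcc_of_le hs] at hu
    exact cutL_eq_zero hL (hu.1.trans (le_abs_self u))
  rw [h0, add_zero]
  rfl

lemma primL_left {L : ℝ} (hL : 0 < L) {s : ℝ} (hs : s ≤ -(2 * L)) :
    primL L s = primL L (-(2 * L)) := by
  have hc := continuous_cutL L
  rw [primL, ← intervalIntegral.integral_add_adjacent_intervals
    (hc.intervalIntegrable _ (-(2 * L))) (hc.intervalIntegrable _ s)]
  have h0 : ∫ u in (-(2 * L))..s, cutL L u = 0 := by
    refine (intervalIntegral.integral_congr (g := fun _ => (0 : ℝ)) fun u hu => ?_).trans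
      intervalIntegral.integral_zero
    rw [Set.uIcc_of_ge hs] at hu
    refine cutL_eq_zero hL (le_trans ?_ (neg_le_abs u))
    linarith [hu.2]
  rw [h0, add_zero]
  rfl

lemma abs_primL_le {L : ℝ} (hL : 0 < L) (s : ℝ) : |primL L s| ≤ 4 * L := by
  have key : ∀ t : ℝ, |t| ≤ 2 * L → |primL L t| ≤ 4 * L := fun t ht => by
    have h := (lipschitzWith_primL hL).dist_le_mul t 0
    rw [show primL L 0 = 0 from intervalIntegral.integral_same, Real.dist_eq, Real.dist_eq,
      sub_zero, sub_zero] at h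
    simp only [NNReal.coe_ofNat] at h
    linarith
  by_cases h1 : 2 * L ≤ s
  · rw [primL_right hL h1]
    exact key _ (abs_of_pos (by positivity)).le
  by_cases h2 : s ≤ -(2 * L)
  · rw [primL_left hL h2]
    exact key _ (by rw [abs_neg, abs_of_pos (by positivity : 0 < 2 * L)])
  exact key s (abs_le.2 ⟨by linarith, by linarith⟩)

lemma continuous_cutT (L : ℝ) (e : Euc d) : Continuous (cutT L e) := by
  unfold cutT; fun_prop

lemma cutT_nonneg (L : ℝ) (e x : Euc d) : 0 ≤ cutT L e x := le_max_left _ _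

lemma cutT_le_two {L : ℝ} (hL : 0 < L) (e x : Euc d) : cutT L e x ≤ 2 :=
  max_le (by norm_num) (by
    have h : 0 ≤ ‖x - ⟪e, x⟫ • e‖ / (2 * L) := by positivity
    linarith)

lemma cutT_add_smul {L : ℝ} {e : Euc d} (he : ‖e‖ = 1) (x : Euc d) (t : ℝ) :
    cutT L e (x + t • e) = cutT L e x := by
  have : x + t • e - ⟪e, x + t • e⟫ • e = x - ⟪e, x⟫ • e := by
    rw [inner_add_right, real_inner_smul_right, real_inner_self_eq_norm_sq, he]
    module
  unfold cutT
  rw [this]

lemma lipschitzWith_cutT {L : ℝ} (hL : 0 < L) {e : Euc d} (he : ‖e‖ = 1) :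
    ∃ K, LipschitzWith K (cutT L e) := by
  refine ⟨Real.toNNReal (1 / L), LipschitzWith.of_dist_le' fun x y => ?_⟩
  simp only [cutT, Real.dist_eq]
  refine (abs_max_sub_max_le_max _ _ _ _).trans (max_le (by simp; positivity) ?_)
  have h1 := abs_norm_sub_norm_le (x - ⟪e, x⟫ • e) (y - ⟪e, y⟫ • e)
  have h2 : ‖(x - ⟪e, x⟫ • e) - (y - ⟪e, y⟫ • e)‖ ≤ 2 * ‖x - y‖ := by
    have : (x - ⟪e, x⟫ • e) - (y - ⟪e, y⟫ • e) = (x - y) - ⟪e, x - y⟫ • e := by
      rw [inner_sub_right]; module
    rw [this, two_mul]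
    refine (norm_sub_le _ _).trans (add_le_add le_rfl ?_)
    rw [norm_smul, he, mul_one]
    simpa [he] using abs_real_inner_le_norm e (x - y)
  have h3 : 2 - ‖x - ⟪e, x⟫ • e‖ / (2 * L) - (2 - ‖y - ⟪e, y⟫ • e‖ / (2 * L)) =
      (‖y - ⟪e, y⟫ • e‖ - ‖x - ⟪e, x⟫ • e‖) / (2 * L) := by ring
  rw [h3, abs_div, abs_of_pos (by positivity : 0 < 2 * L), abs_sub_comm, dist_eq_norm,
    div_le_iff₀ (by positivity)]
  calc |‖x - ⟪e, x⟫ • e‖ - ‖y - ⟪e, y⟫ • e‖| ≤ 2 * ‖x - y‖ := h1.trans h2
    _ = 1 / L * ‖x - y‖ * (2 * L) := by field_simp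

/-- A Lipschitz function vanishing at infinity is locally bounded in `L¹` by its gradient. -/
lemma lintegral_closedBall_le_of_gradient {e : Euc d} (he : ‖e‖ = 1) {M : Euc d → ℝ} {K : ℝ≥0}
    (hM : LipschitzWith K M) (hnn : ∀ x, 0 ≤ M x) (h0 : Tendsto M (cocompact (Euc d)) (𝓝 0))
    (hint : Integrable (gradient M)) {L : ℝ} (hL : 0 < L) :
    ∫⁻ x in closedBall 0 L, ENNReal.ofReal (M x) ≤
      ENNReal.ofReal (16 * L * ∫ x, ‖gradient M x‖) := by
  set A := ∫ x, ‖gradient M x‖
  set S : ℝ → Euc d → ℝ := fun R x => cutT L e x * cutL L (⟪e, x⟫ - R) with hSdef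
  have hSc : ∀ R, Continuous (S R) := fun R =>
    (continuous_cutT L e).mul ((continuous_cutL L).comp (by fun_prop))
  have hbox : ∀ (B : ℝ) (x : Euc d), cutT L e x ≠ 0 → |⟪e, x⟫| ≤ B → ‖x‖ ≤ 4 * L + B := by
    intro B x hT hB
    have h1 : ‖x - ⟪e, x⟫ • e‖ < 4 * L := by
      by_contra hle
      exact hT (max_eq_left (by rw [sub_nonpos, le_div_iff₀ (by positivity)]; linarith))
    calc ‖x‖ = ‖(x - ⟪e, x⟫ • e) + ⟪e, x⟫ • e‖ := by rw [sub_add_cancel]
      _ ≤ ‖x - ⟪e, x⟫ • e‖ + ‖⟪e, x⟫ • e‖ := norm_add_le _ _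
      _ ≤ 4 * L + B := by
        rw [norm_smul, he, mul_one, Real.norm_eq_abs]; linarith
  have hScs : ∀ R, HasCompactSupport (S R) := fun R =>
    HasCompactSupport.intro (isCompact_closedBall (0 : Euc d) (4 * L + (2 * L + |R|)))
      fun x hx => by
      by_contra hne
      simp only [hSdef, mul_ne_zero_iff] at hne
      have h2 : |⟪e, x⟫ - R| < 2 * L := not_le.1 fun h => hne.2 (cutL_eq_zero hL h)
      have h3 := hbox (2 * L + |R|) x hne.1 (by
        linarith [abs_sub_abs_le_abs_sub ⟪e, x⟫ R])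
      exact hx (mem_closedBall_zero_iff.2 h3)
  have hSi : ∀ R, Integrable (S R) := fun R => (hSc R).integrable_of_hasCompactSupport (hScs R)
  have hSM : ∀ R, Integrable fun x => S R x * M x := fun R =>
    ((hSc R).mul hM.continuous).integrable_of_hasCompactSupport (hScs R).mul_right
  -- moving the slab by `R`
  have hmove : ∀ R, 0 ≤ R → ∫ x, S 0 x * M x ≤ 16 * L * A + ∫ x, S R x * M x := by
    intro R hR
    set Φ : Euc d → ℝ := fun x => cutT L e x * (primL L ⟪e, x⟫ - primL L (⟪e, x⟫ - R)) with hΦ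
    have hPb : ∀ s, |primL L s - primL L (s - R)| ≤ 8 * L := fun s =>
      (abs_sub _ _).trans (by linarith [abs_primL_le hL s, abs_primL_le hL (s - R)])
    have hΦc : HasCompactSupport Φ :=
      HasCompactSupport.intro (isCompact_closedBall (0 : Euc d) (4 * L + (2 * L + R)))
        fun x hx => by
        by_contra hne
        simp only [hΦ, mul_ne_zero_iff] at hne
        have h3 := hbox (2 * L + R) x hne.1 (abs_le.2 ⟨?_, ?_⟩)
        · exact hx (mem_closedBall_zero_iff.2 h3)
        · by_contra hlt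
          exact hne.2 (by
            rw [primL_left hL (s := ⟪e, x⟫) (by linarith),
              primL_left hL (s := ⟪e, x⟫ - R) (by linarith), sub_self])
        · by_contra hlt
          exact hne.2 (by
            rw [primL_right hL (s := ⟪e, x⟫) (by linarith),
              primL_right hL (s := ⟪e, x⟫ - R) (by linarith), sub_self])
    obtain ⟨KT, hKT⟩ := lipschitzWith_cutT hL he
    have hΦL : LipschitzWith (Real.toNNReal (2 * 4 + 8 * L * KT)) Φ :=
      LipschitzWith.of_dist_le' fun x y => by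
        have hT := hKT.dist_le_mul x y
        have hi : |⟪e, x⟫ - ⟪e, y⟫| ≤ dist x y := by
          rw [← inner_sub_right, dist_eq_norm]
          simpa [he] using abs_real_inner_le_norm e (x - y)
        have hp : |(primL L ⟪e, x⟫ - primL L (⟪e, x⟫ - R)) -
            (primL L ⟪e, y⟫ - primL L (⟪e, y⟫ - R))| ≤ 4 * dist x y := by
          have h1 := (lipschitzWith_primL hL).dist_le_mul ⟪e, x⟫ ⟪e, y⟫
          have h2 := (lipschitzWith_primL hL).dist_le_mul (⟪e, x⟫ - R) (⟪e, y⟫ - R)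
          simp only [Real.dist_eq, NNReal.coe_ofNat, sub_sub_sub_cancel_right] at h1 h2
          calc _ = |(primL L ⟪e, x⟫ - primL L ⟪e, y⟫) -
                (primL L (⟪e, x⟫ - R) - primL L (⟪e, y⟫ - R))| := by ring_nf
            _ ≤ _ := (abs_sub _ _).trans (by linarith)
        rw [Real.dist_eq] at hT ⊢
        simp only [hΦ]
        set a := cutT L e x
        set a' := cutT L e y
        set b := primL L ⟪e, x⟫ - primL L (⟪e, x⟫ - R)
        set b' := primL L ⟪e, y⟫ - primL L (⟪e, y⟫ - R)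
        calc |a * b - a' * b'| = |a * (b - b') + b' * (a - a')| := by ring_nf
          _ ≤ |a| * |b - b'| + |b'| * |a - a'| := by
            rw [← abs_mul, ← abs_mul]; exact abs_add_le _ _
          _ ≤ 2 * (4 * dist x y) + 8 * L * ((KT : ℝ) * dist x y) := by
            gcongr
            · rw [abs_of_nonneg (cutT_nonneg _ _ _)]; exact cutT_le_two hL e x
            · exact hPb _
          _ = _ := by ring
    have hline : ∀ x, lineDeriv ℝ Φ x e = S 0 x - S R x := by
      intro x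
      refine HasLineDerivAt.lineDeriv ?_
      have hin : ∀ t : ℝ, ⟪e, x + t • e⟫ = ⟪e, x⟫ + t := fun t => by
        rw [inner_add_right, real_inner_smul_right, real_inner_self_eq_norm_sq, he]; ring
      have hfun : (fun t : ℝ => Φ (x + t • e)) =
          fun t => cutT L e x * (primL L (⟪e, x⟫ + t) - primL L (⟪e, x⟫ - R + t)) := by
        funext t
        simp only [hΦ, cutT_add_smul he, hin]
        congr 3
        ring
      rw [HasLineDerivAt, hfun]
      have h1 : HasDerivAt (fun t => primL L (⟪e, x⟫ + t)) (cutL L ⟪e, x⟫) 0 :=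
        HasDerivAt.comp_const_add _ _ (by simpa using hasDerivAt_primL L ⟪e, x⟫)
      have h2 : HasDerivAt (fun t => primL L (⟪e, x⟫ - R + t)) (cutL L (⟪e, x⟫ - R)) 0 :=
        HasDerivAt.comp_const_add _ _ (by simpa using hasDerivAt_primL L (⟪e, x⟫ - R))
      refine ((h1.sub h2).const_mul (cutT L e x)).congr_deriv ?_
      simp only [hSdef, sub_zero]
      ring
    have hibp := hM.integral_lineDeriv_mul_eq (μ := volume) hΦL hΦc e
    simp only [lineDeriv_neg, hline, neg_mul, integral_neg, sub_mul] at hibp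
    rw [integral_sub (hSM 0) (hSM R)] at hibp
    have hlow : |∫ x, lineDeriv ℝ M x e * Φ x| ≤ 16 * L * A := by
      rw [← Real.norm_eq_abs, ← integral_const_mul]
      refine norm_integral_le_of_norm_le (hint.norm.const_mul _) ?_
      filter_upwards [hM.ae_differentiableAt] with x hx
      rw [lineDeriv_eq_inner_gradient hx, norm_mul, mul_comm]
      refine mul_le_mul ?_ ((norm_inner_le_norm _ _).trans (by rw [he, mul_one]))
        (norm_nonneg _) (by positivity)
      rw [Real.norm_eq_abs, hΦ, abs_mul, abs_of_nonneg (cutT_nonneg _ _ _)]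
      calc cutT L e x * |primL L ⟪e, x⟫ - primL L (⟪e, x⟫ - R)| ≤ 2 * (8 * L) :=
            mul_le_mul (cutT_le_two hL e x) (hPb _) (abs_nonneg _) (by norm_num)
        _ = 16 * L := by ring
    linarith [abs_le.1 hlow]
  have hmain : ∫ x, S 0 x * M x ≤ 16 * L * A := by
    refine le_of_forall_pos_le_add fun η hη => ?_
    set T := ∫ x, S 0 x with hT
    have hT0 : 0 ≤ T := integral_nonneg fun x => mul_nonneg (cutT_nonneg _ _ _) (cutL_nonneg _ _)
    set η' := η / (T + 1) with hη'def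
    have hη' : 0 < η' := by positivity
    obtain ⟨Kc, hKc, hsub⟩ :=
      Filter.mem_cocompact.1 (h0.eventually (Iio_mem_nhds hη'))
    obtain ⟨R₀, hR₀⟩ := hKc.isBounded.subset_closedBall (0 : Euc d)
    set R := |R₀| + 2 * L + 1
    refine (hmove R (by positivity)).trans (add_le_add le_rfl ?_)
    have hTR : ∫ x, S R x = T := by
      rw [hT, ← integral_add_right_eq_self (S R) (R • e)]
      refine integral_congr_ae (Eventually.of_forall fun x => ?_)
      simp only [hSdef, cutT_add_smul he, inner_add_right, real_inner_smul_right,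
        real_inner_self_eq_norm_sq, he]
      congr 2
      ring
    calc ∫ x, S R x * M x ≤ ∫ x, η' * S R x := by
          refine integral_mono (hSM R) ((hSi R).const_mul _) fun x => ?_
          show S R x * M x ≤ η' * S R x
          rw [mul_comm η']
          rcases eq_or_ne (S R x) 0 with h | h
          · simp [h]
          refine mul_le_mul_of_nonneg_left (le_of_lt (hsub fun hx => h ?_))
            (mul_nonneg (cutT_nonneg _ _ _) (cutL_nonneg _ _))
          have h1 := mem_closedBall_zero_iff.1 (hR₀ hx)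
          have h2 : |⟪e, x⟫| ≤ ‖x‖ := by simpa [he] using abs_real_inner_le_norm e x
          have h3 : cutL L (⟪e, x⟫ - R) = 0 := cutL_eq_zero hL (by
            rw [abs_sub_comm]
            refine le_trans ?_ (le_abs_self _)
            linarith [le_abs_self R₀, le_abs_self ⟪e, x⟫])
          simp [hSdef, h3]
      _ = η' * T := by rw [integral_const_mul, hTR]
      _ ≤ η := by
          rw [hη'def, div_mul_eq_mul_div, div_le_iff₀ (by positivity)]
          nlinarith
  calc ∫⁻ x in closedBall 0 L, ENNReal.ofReal (M x)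
      ≤ ∫⁻ x in closedBall 0 L, ENNReal.ofReal (S 0 x * M x) := by
        refine setLIntegral_mono ((hSc 0).measurable.mul hM.continuous.measurable).ennreal_ofReal
          fun x hx => ENNReal.ofReal_le_ofReal (le_mul_of_one_le_left (hnn x) ?_)
        have hx' : ‖x‖ ≤ L := mem_closedBall_zero_iff.1 hx
        have h2 : |⟪e, x⟫| ≤ ‖x‖ := by simpa [he] using abs_real_inner_le_norm e x
        have h3 : ‖x - ⟪e, x⟫ • e‖ ≤ 2 * L := by
          refine (norm_sub_le _ _).trans ?_
          rw [norm_smul, he, mul_one, Real.norm_eq_abs]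
          linarith
        have h4 : 1 ≤ cutT L e x := le_max_of_le_right (by
          have : ‖x - ⟪e, x⟫ • e‖ / (2 * L) ≤ 1 := (div_le_one (by positivity)).2 h3
          linarith)
        have h5 : 1 ≤ cutL L (⟪e, x⟫ - 0) := le_max_of_le_right (by
          rw [sub_zero]
          have : |⟪e, x⟫| / L ≤ 1 := (div_le_one hL).2 (h2.trans hx')
          linarith)
        exact one_le_mul_of_one_le_of_one_le h4 h5
    _ ≤ ∫⁻ x, ENNReal.ofReal (S 0 x * M x) := setLIntegral_le_lintegral _ _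
    _ = ENNReal.ofReal (∫ x, S 0 x * M x) := (ofReal_integral_eq_lintegral_ofReal (hSM 0)
        (Eventually.of_forall fun x => mul_nonneg
          (mul_nonneg (cutT_nonneg _ _ _) (cutL_nonneg _ _)) (hnn x))).symm
    _ ≤ _ := ENNReal.ofReal_le_ofReal hmain

end Slab

section Scales

variable (hd : 1 ≤ d) {C : ℝ} (hC : ScaleBound d C) (hC0 : 0 ≤ C) {g : Euc d → ℝ}
  {G : Euc d → Euc d} (hfG : Approx g G) (hnn : ∀ x, 0 ≤ g x)

include hd hC hC0 hfG hnn

lemma sum_window_le {δ : ℝ} (hδ : 0 < δ) (K : ℕ) :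
    ∑ k ∈ Finset.range K, ∫⁻ x in window δ g k, ‖fderiv ℝ (maxT (δ * 2 ^ k) g) x‖ₑ ≤
      ENNReal.ofReal (C * windowConst * (molNorm δ G 0 - molNorm δ G (K + 10))) := by
  have _ := hd
  have hV := molNorm_antitone hδ hfG.2.1
  refine (Finset.sum_le_sum fun k _ => hC g G δ k hfG hnn hδ).trans ?_
  rw [← ENNReal.ofReal_sum_of_nonneg fun k _ => ?_, ← Finset.mul_sum, mul_assoc]
  · exact ENNReal.ofReal_le_ofReal (mul_le_mul_of_nonneg_left (sum_windows_le hV K) hC0)
  · exact mul_nonneg hC0 (Finset.sum_nonneg fun n hn => mul_nonneg (by positivity)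
      (sub_nonneg.2 (hV (by have := Finset.mem_range.1 hn; omega))))

lemma lintegral_gradient_maxT_le {δ : ℝ} (hδ : 0 < δ) :
    ∫⁻ x, ‖gradient (maxT δ g) x‖ₑ ≤ ENNReal.ofReal (C * windowConst * ∫ x, ‖G x‖) := by
  simp only [enorm_gradient]
  refine (lintegral_fderiv_maxT_le_tsum hd hδ hfG hnn).trans ?_
  rw [ENNReal.tsum_eq_iSup_nat]
  refine iSup_le fun K => (sum_window_le hd hC hC0 hfG hnn hδ K).trans
    (ENNReal.ofReal_le_ofReal (mul_le_mul_of_nonneg_left ?_
      (mul_nonneg hC0 windowConst_nonneg)))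
  rw [molNorm_zero]
  linarith [molNorm_nonneg δ G (K + 10)]

lemma integrable_gradient_maxT {δ : ℝ} (hδ : 0 < δ) :
    Integrable (gradient (maxT δ g)) :=
  ⟨(measurable_gradient _).aestronglyMeasurable,
    (lintegral_gradient_maxT_le hd hC hC0 hfG hnn hδ).trans_lt ENNReal.ofReal_lt_top⟩

lemma integral_gradient_maxT_le {δ : ℝ} (hδ : 0 < δ) :
    ∫ x, ‖gradient (maxT δ g) x‖ ≤ C * windowConst * ∫ x, ‖G x‖ := by
  rw [integral_norm_eq_lintegral_enorm (measurable_gradient _).aestronglyMeasurable]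
  exact ENNReal.toReal_le_of_le_ofReal (mul_nonneg (mul_nonneg hC0 windowConst_nonneg)
    (integral_nonneg fun x => norm_nonneg _)) (lintegral_gradient_maxT_le hd hC hC0 hfG hnn hδ)

lemma exists_tail_small {ε : ℝ} (hε : 0 < ε) :
    ∃ j₀, ∀ j, j₀ ≤ j → ∀ m, j ≤ m →
      ∫ x in {x | maxT ((1 / 2) ^ j) g x < maxT ((1 / 2) ^ m) g x},
        ‖gradient (maxT ((1 / 2) ^ m) g) x‖ ≤ ε := by
  set A := C * windowConst with hA
  have hA0 : 0 ≤ A := mul_nonneg hC0 windowConst_nonneg
  obtain ⟨η, hη, hηb⟩ := exists_molNorm_ge hfG.2.1 (show 0 < ε / (A + 1) by positivity)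
  obtain ⟨j₀, hj₀⟩ := exists_pow_lt_of_lt_one (show 0 < η / 2 ^ 10 by positivity)
    (show (1 / 2 : ℝ) < 1 by norm_num)
  refine ⟨j₀, fun j hj m hm => ?_⟩
  set δ : ℝ := (1 / 2) ^ m with hδdef
  have hδ : 0 < δ := by positivity
  have hscale : δ * 2 ^ (m - j) = (1 / 2) ^ j := by
    obtain ⟨i, rfl⟩ := Nat.exists_eq_add_of_le hm
    rw [hδdef, pow_add, Nat.add_sub_cancel_left, mul_assoc, ← mul_pow]
    norm_num
  have hV : molNorm δ G 0 - molNorm δ G (m - j + 10) ≤ ε / (A + 1) := by
    rw [molNorm_zero]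
    have hsmall : δ * 2 ^ (m - j + 10) ≤ η := by
      rw [pow_add, ← mul_assoc, hscale, ← le_div_iff₀ (by positivity)]
      exact le_trans (pow_le_pow_of_le_one (by norm_num) (by norm_num) hj) hj₀.le
    linarith [hηb δ (m - j + 10) hδ hsmall]
  have h1 := (setLIntegral_fderiv_maxT_le_sum hd hδ (m - j) hfG hnn).trans
    (sum_window_le hd hC hC0 hfG hnn hδ (m - j))
  rw [hscale] at h1
  simp only [← enorm_gradient] at h1
  rw [integral_norm_eq_lintegral_enorm (measurable_gradient _).aestronglyMeasurable.restrict]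
  refine ENNReal.toReal_le_of_le_ofReal hε.le (h1.trans (ENNReal.ofReal_le_ofReal ?_))
  calc A * (molNorm δ G 0 - molNorm δ G (m - j + 10)) ≤ A * (ε / (A + 1)) :=
        mul_le_mul_of_nonneg_left hV hA0
    _ ≤ ε := by
        rw [← mul_div_assoc, div_le_iff₀ (by positivity)]
        nlinarith

omit hC hC0 in
lemma maxT_half_mono (x : Euc d) : Monotone fun j : ℕ => maxT ((1 / 2) ^ j) g x :=
  fun _ _ hjm => maxT_anti hd (by positivity)
    (pow_le_pow_of_le_one (by norm_num) (by norm_num) hjm) hfG.1 hnn x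

/-- Where two truncations agree, their gradients agree. -/
lemma gradient_eq_off {j m : ℕ} (hjm : j ≤ m) :
    ∀ᵐ x, maxT ((1 / 2) ^ m) g x ≤ maxT ((1 / 2) ^ j) g x →
      gradient (maxT ((1 / 2) ^ m) g) x = gradient (maxT ((1 / 2) ^ j) g) x := by
  have _ := hC
  have _ := hC0
  obtain ⟨Lm, hLm⟩ := exists_lipschitzWith_maxT hd (show (0 : ℝ) < (1 / 2) ^ m by positivity) hfG hnn
  obtain ⟨Lj, hLj⟩ := exists_lipschitzWith_maxT hd (show (0 : ℝ) < (1 / 2) ^ j by positivity) hfG hnn
  filter_upwards [hLm.ae_differentiableAt, hLj.ae_differentiableAt] with x hxm hxj hle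
  have hmin : IsLocalMin (fun y => maxT ((1 / 2) ^ m) g y - maxT ((1 / 2) ^ j) g y) x :=
    Eventually.of_forall fun y => by
      have h1 : maxT ((1 / 2) ^ j) g y ≤ maxT ((1 / 2) ^ m) g y :=
        maxT_half_mono hd hfG hnn y hjm
      have h2 : maxT ((1 / 2) ^ j) g x ≤ maxT ((1 / 2) ^ m) g x :=
        maxT_half_mono hd hfG hnn x hjm
      show maxT ((1 / 2) ^ m) g x - maxT ((1 / 2) ^ j) g x ≤
        maxT ((1 / 2) ^ m) g y - maxT ((1 / 2) ^ j) g y
      linarith
  have h := hmin.hasFDerivAt_eq_zero (hxm.hasFDerivAt.sub hxj.hasFDerivAt)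
  unfold gradient
  rw [sub_eq_zero.1 h]

/-- The gradients of the truncations form a Cauchy sequence. -/
lemma gradient_cauchy {ε : ℝ} (hε : 0 < ε) :
    ∃ j₁, ∀ j, j₁ ≤ j → ∀ m, j ≤ m →
      ∫ x, ‖gradient (maxT ((1 / 2) ^ m) g) x - gradient (maxT ((1 / 2) ^ j) g) x‖ ≤ ε := by
  set H : ℕ → Euc d → Euc d := fun j => gradient (maxT ((1 / 2) ^ j) g)
  set a : ℕ → ℝ := fun j => ∫ x, ‖H j x‖
  have hi : ∀ j, Integrable (H j) := fun j =>
    integrable_gradient_maxT hd hC hC0 hfG hnn (by positivity)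
  have key : ∀ η : ℝ, 0 < η → ∃ j₀, ∀ j, j₀ ≤ j → ∀ m, j ≤ m →
      a m ≤ a j + η ∧ ∫ x, ‖H m x - H j x‖ ≤ 2 * η + (a j - a m) := by
    intro η hη
    obtain ⟨j₀, hj₀⟩ := exists_tail_small hd hC hC0 hfG hnn hη
    refine ⟨j₀, fun j hj m hm => ?_⟩
    set s := {x | maxT ((1 / 2) ^ j) g x < maxT ((1 / 2) ^ m) g x}
    obtain ⟨Lm, hLm⟩ :=
      exists_lipschitzWith_maxT hd (show (0 : ℝ) < (1 / 2) ^ m by positivity) hfG hnn
    obtain ⟨Lj, hLj⟩ :=
      exists_lipschitzWith_maxT hd (show (0 : ℝ) < (1 / 2) ^ j by positivity) hfG hnn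
    have hs : MeasurableSet s := (isOpen_lt hLj.continuous hLm.continuous).measurableSet
    have htail : ∫ x in s, ‖H m x‖ ≤ η := hj₀ j hj m hm
    have hoff : ∫ x in sᶜ, ‖H m x‖ = ∫ x in sᶜ, ‖H j x‖ :=
      setIntegral_congr_ae hs.compl ((gradient_eq_off hd hC hC0 hfG hnn hm).mono fun x hx hxs => by
        rw [show H m x = H j x from hx (not_lt.1 hxs)])
    have hdiff : ∫ x, ‖H m x - H j x‖ = ∫ x in s, ‖H m x - H j x‖ := by
      rw [← integral_add_compl hs ((hi m).sub' (hi j)).norm,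
        setIntegral_eq_zero_of_ae_eq_zero (t := sᶜ), add_zero]
      exact (gradient_eq_off hd hC hC0 hfG hnn hm).mono fun x hx hxs => by
        rw [show H m x = H j x from hx (not_lt.1 hxs)]
        simp
    have h1 : ∫ x in s, ‖H m x - H j x‖ ≤ (∫ x in s, ‖H m x‖) + ∫ x in s, ‖H j x‖ := by
      rw [← integral_add (hi m).norm.integrableOn (hi j).norm.integrableOn]
      exact setIntegral_mono_on ((hi m).sub' (hi j)).norm.integrableOn
        ((hi m).norm.integrableOn.add (hi j).norm.integrableOn) hs fun x _ => norm_sub_le _ _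
    have e1 : a j = (∫ x in s, ‖H j x‖) + ∫ x in sᶜ, ‖H j x‖ :=
      (integral_add_compl hs (hi j).norm).symm
    have e2 : a m = (∫ x in s, ‖H m x‖) + ∫ x in sᶜ, ‖H m x‖ :=
      (integral_add_compl hs (hi m).norm).symm
    have h2 : 0 ≤ ∫ x in s, ‖H j x‖ := integral_nonneg fun x => norm_nonneg _
    have h3 : 0 ≤ ∫ x in s, ‖H m x‖ := integral_nonneg fun x => norm_nonneg _
    exact ⟨by linarith, by linarith⟩
  obtain ⟨j₁, hj₁⟩ := flat_of_almost_antitone (a := a)
    (fun j => integral_nonneg fun x => norm_nonneg _)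
    (fun η hη => (key η hη).imp fun j₀ h j hj m hm => (h j hj m hm).1) (half_pos hε)
  obtain ⟨j₀, hj₀⟩ := key (ε / 4) (by positivity)
  refine ⟨max j₀ j₁, fun j hj m hm => ?_⟩
  have h1 := (hj₀ j ((le_max_left _ _).trans hj) m hm).2
  have h2 := hj₁ j ((le_max_right _ _).trans hj) m hm
  show ∫ x, ‖H m x - H j x‖ ≤ ε
  linarith

/-- The gradients of the truncations converge in `L¹`. -/
lemma exists_limit_gradient :
    ∃ H : Euc d → Euc d, Integrable H ∧
      Tendsto (fun j : ℕ => ∫ x, ‖gradient (maxT ((1 / 2) ^ j) g) x - H x‖) atTop (𝓝 0) ∧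
      ∫ x, ‖H x‖ ≤ C * windowConst * ∫ x, ‖G x‖ := by
  have hi : ∀ j : ℕ, Integrable (gradient (maxT ((1 / 2) ^ j) g)) := fun j =>
    integrable_gradient_maxT hd hC hC0 hfG hnn (by positivity)
  set u : ℕ → (Euc d →₁[volume] Euc d) := fun j => (hi j).toL1 _ with hu
  have hcau : CauchySeq u := Metric.cauchySeq_iff'.2 fun ε hε => by
    obtain ⟨N, hN⟩ := gradient_cauchy hd hC hC0 hfG hnn (half_pos hε)
    refine ⟨N, fun n hn => lt_of_le_of_lt ?_ (half_lt_self hε)⟩
    refine le_trans (le_of_eq ?_) (hN N le_rfl n hn)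
    rw [L1.dist_eq_integral_dist]
    refine integral_congr_ae ?_
    filter_upwards [(hi n).coeFn_toL1, (hi N).coeFn_toL1] with x h1 h2
    simp only [hu, h1, h2, dist_eq_norm]
  obtain ⟨Hl, hHl⟩ := cauchySeq_tendsto_of_complete hcau
  have hHi : Integrable (Hl : Euc d → Euc d) := L1.integrable_coeFn Hl
  have hT : Tendsto (fun j : ℕ => ∫ x, ‖gradient (maxT ((1 / 2) ^ j) g) x - Hl x‖) atTop (𝓝 0) := by
    refine (tendsto_iff_dist_tendsto_zero.1 hHl).congr fun j => ?_
    rw [L1.dist_eq_integral_dist]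
    refine integral_congr_ae ?_
    filter_upwards [(hi j).coeFn_toL1] with x h1
    simp only [hu, h1, dist_eq_norm]
  refine ⟨Hl, hHi, hT, le_of_forall_pos_le_add fun η hη => ?_⟩
  obtain ⟨j, hj⟩ := (hT.eventually (eventually_le_nhds hη)).exists
  refine le_trans ?_ (add_le_add
    (integral_gradient_maxT_le hd hC hC0 hfG hnn (show (0 : ℝ) < (1 / 2) ^ j by positivity)) hj)
  rw [← integral_add (hi j).norm ((hi j).sub' hHi).norm]
  exact integral_mono hHi.norm ((hi j).norm.add ((hi j).sub' hHi).norm)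
    fun x => norm_le_norm_add_norm_sub _ _

/-- The local `L¹` bound, uniform in the truncation. -/
lemma lintegral_maxT_closedBall_le {δ : ℝ} (hδ : 0 < δ) {L : ℝ} (hL : 0 < L) :
    ∫⁻ x in closedBall 0 L, ENNReal.ofReal (maxT δ g x) ≤
      ENNReal.ofReal (16 * L * (C * windowConst * ∫ x, ‖G x‖)) := by
  obtain ⟨K, hK⟩ := exists_lipschitzWith_maxT hd hδ hfG hnn
  refine (lintegral_closedBall_le_of_gradient (e := EuclideanSpace.single ⟨0, hd⟩ (1 : ℝ))
    (by simp) hK (fun x => (exists_avg_eq_maxT hd hδ hfG.1 hnn x).2.1)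
    (tendsto_maxT_cocompact hd hδ hfG.1 hnn) (integrable_gradient_maxT hd hC hC0 hfG hnn hδ)
    hL).trans (ENNReal.ofReal_le_ofReal ?_)
  exact mul_le_mul_of_nonneg_left (integral_gradient_maxT_le hd hC hC0 hfG hnn hδ) (by positivity)

end Scales

/-- The maximal function is the supremum of the truncations. -/
lemma maxU_eq_iSup (hd : 1 ≤ d) {f : Euc d → ℝ} (hf : Integrable f) (x : Euc d) :
    maxU f x = ⨆ j : ℕ, ENNReal.ofReal (maxT ((1 / 2) ^ j) (fun y => |f y|) x) := by
  have : Nonempty (Fin d) := ⟨⟨0, hd⟩⟩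
  set g : Euc d → ℝ := fun y => |f y|
  have hg : Integrable g := hf.abs
  have hgn : ∀ y, 0 ≤ g y := fun y => abs_nonneg _
  have hball : ∀ z r, 0 < r →
      (∫⁻ y in ball z r, ‖f y‖ₑ) / volume (ball z r) = ENNReal.ofReal (avg r g z) := by
    intro z r hr
    have hae : ball z r =ᵐ[volume] closedBall z r := by
      refine (ae_eq_set.2 ⟨?_, ?_⟩)
      · rw [sdiff_eq_empty.2 ball_subset_closedBall, measure_empty]
      · rw [closedBall_sdiff_ball]
        exact Measure.addHaar_sphere _ _ _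
    rw [setLIntegral_congr hae, measure_congr hae, avg_eq, smul_eq_mul, inv_mul_eq_div,
      ENNReal.ofReal_div_of_pos (volume_real_closedBall_pos z hr),
      ofReal_measureReal measure_closedBall_lt_top.ne,
      ofReal_integral_eq_lintegral_ofReal hg.integrableOn (Eventually.of_forall hgn)]
    congr 1
    refine lintegral_congr fun y => ?_
    rw [Real.enorm_eq_ofReal_abs]
  refine le_antisymm (iSup_le fun z => iSup_le fun r => iSup_le fun hx => ?_) (iSup_le fun j => ?_)
  · have hr : 0 < r := pos_of_mem_ball hx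
    obtain ⟨j, hj⟩ := exists_pow_lt_of_lt_one hr (show (1 / 2 : ℝ) < 1 by norm_num)
    refine le_trans ?_ (le_iSup _ j)
    rw [hball z r hr]
    exact ENNReal.ofReal_le_ofReal ((exists_avg_eq_maxT hd (by positivity) hg hgn x).1 z r hj.le
      (mem_ball.1 hx).le)
  · have hδ : (0 : ℝ) < (1 / 2) ^ j := by positivity
    obtain ⟨-, h0, hatt⟩ := exists_avg_eq_maxT hd hδ hg hgn x
    rcases h0.eq_or_lt with h | h
    · rw [← h, ENNReal.ofReal_zero]
      exact zero_le
    obtain ⟨z, r, hr, hxz, he⟩ := hatt h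
    rw [he]
    have hr0 : 0 < r := hδ.trans_le hr
    have hc : ContinuousAt (fun p : ℝ × Euc d => avg p.1 g p.2) (r, z) :=
      (continuousOn_avg hg).continuousAt (prod_mem_nhds (Ioi_mem_nhds hr0) univ_mem)
    have hc' : Tendsto (fun r' => avg r' g z) (𝓝[>] r) (𝓝 (avg r g z)) :=
      ((hc.comp (f := fun r' : ℝ => (r', z)) (Continuous.continuousAt (by fun_prop))).tendsto).mono_left
        nhdsWithin_le_nhds
    refine le_of_tendsto (ENNReal.tendsto_ofReal hc') ?_
    filter_upwards [self_mem_nhdsWithin] with r' hr'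
    rw [← hball z r' (hr0.trans hr')]
    exact le_iSup_of_le z (le_iSup_of_le r' (le_iSup_of_le
      (mem_ball.2 (hxz.trans_lt hr')) le_rfl))

/-- The weak gradient passes to the limit. -/
lemma weak_identity_of_tendsto {Mj : ℕ → Euc d → ℝ} {M : Euc d → ℝ} {H : Euc d → Euc d}
    (hlip : ∀ j, ∃ K, LipschitzWith K (Mj j)) (hnnM : ∀ j x, 0 ≤ Mj j x)
    (hgi : ∀ j, Integrable (gradient (Mj j))) (hHi : Integrable H)
    (hHlim : Tendsto (fun j => ∫ x, ‖gradient (Mj j) x - H x‖) atTop (𝓝 0))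
    (hMloc : LocallyIntegrable M) (hle : ∀ᵐ x, ∀ j, Mj j x ≤ M x)
    (hlimx : ∀ᵐ x, Tendsto (fun j => Mj j x) atTop (𝓝 (M x)))
    {φ : Euc d → ℝ} (hφ : ContDiff ℝ (⊤ : ℕ∞) φ) (hφc : HasCompactSupport φ) (v : Euc d) :
    ∫ x, M x * fderiv ℝ φ x v = -∫ x, φ x * ⟪H x, v⟫ := by
  have hmeasj : ∀ j, Measurable (Mj j) := fun j => (hlip j).choose_spec.continuous.measurable
  set D : Euc d → ℝ := fun x => fderiv ℝ φ x v with hD
  have hDc : Continuous D := (hφ.continuous_fderiv (by simp)).clm_apply continuous_const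
  have hDs : HasCompactSupport D := hφc.fderiv_apply ℝ v
  obtain ⟨Kφ, hKφ⟩ := ContDiff.lipschitzWith_of_hasCompactSupport hφc hφ (by simp)
  have hid : ∀ j, ∫ x, Mj j x * D x =
      -∫ x, φ x * ⟪gradient (Mj j) x, v⟫ := by
    intro j
    obtain ⟨K, hK⟩ := hlip j
    have h := hK.integral_lineDeriv_mul_eq (μ := volume) hKφ hφc v
    have e1 : ∫ x, lineDeriv ℝ (Mj j) x v * φ x = ∫ x, φ x * ⟪gradient (Mj j) x, v⟫ :=
      integral_congr_ae (hK.ae_differentiableAt.mono fun x hx => by
        simp only [lineDeriv_eq_inner_gradient hx, mul_comm])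
    have e2 : ∀ x, lineDeriv ℝ φ x (-v) * Mj j x = -(Mj j x * D x) := fun x => by
      rw [(hφ.differentiable (by simp)).differentiableAt.lineDeriv_eq_fderiv, map_neg, hD]
      ring
    simp only [e2, integral_neg] at h
    linarith
  have hlhs : Tendsto (fun j => ∫ x, Mj j x * D x) atTop (𝓝 (∫ x, M x * D x)) := by
    refine tendsto_integral_of_dominated_convergence (fun x => |M x * D x|)
      (fun j => ((hmeasj j).mul hDc.measurable).aestronglyMeasurable) ?_
      (fun j => hle.mono fun x hx => ?_) (hlimx.mono fun x hx => hx.mul_const _)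
    · exact (by simpa [smul_eq_mul, mul_comm] using
        hMloc.integrable_smul_left_of_hasCompactSupport hDc hDs : Integrable fun x => M x * D x).abs
    · rw [Real.norm_eq_abs, abs_mul, abs_mul, abs_of_nonneg (hnnM j x)]
      exact mul_le_mul_of_nonneg_right ((hx j).trans (le_abs_self _)) (abs_nonneg _)
  obtain ⟨B, hB⟩ := hφc.exists_bound_of_continuous hφ.continuous
  have hrhs : Tendsto (fun j => ∫ x, φ x * ⟪gradient (Mj j) x, v⟫) atTop
      (𝓝 (∫ x, φ x * ⟪H x, v⟫)) := by
    have hint : ∀ F : Euc d → Euc d, Integrable F → Integrable fun x => φ x * ⟪F x, v⟫ :=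
      fun F hF => (hF.norm.const_mul (B * ‖v‖)).mono'
        (hφ.continuous.aestronglyMeasurable.mul (hF.aestronglyMeasurable.inner
          aestronglyMeasurable_const))
        (Eventually.of_forall fun x => by
          rw [norm_mul]
          calc ‖φ x‖ * ‖⟪F x, v⟫‖ ≤ B * (‖F x‖ * ‖v‖) :=
                mul_le_mul (hB x) (norm_inner_le_norm _ _) (norm_nonneg _)
                  ((norm_nonneg _).trans (hB x))
            _ = B * ‖v‖ * ‖F x‖ := by ring)
    refine tendsto_iff_norm_sub_tendsto_zero.2 (squeeze_zero (fun j => norm_nonneg _)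
      (fun j => ?_) (by simpa using hHlim.const_mul (B * ‖v‖)))
    rw [← integral_sub (hint _ (hgi j)) (hint _ hHi), ← integral_const_mul]
    refine norm_integral_le_of_norm_le (((hgi j).sub' hHi).norm.const_mul _)
      (Eventually.of_forall fun x => ?_)
    rw [← mul_sub, ← inner_sub_left, norm_mul]
    calc ‖φ x‖ * ‖⟪gradient (Mj j) x - H x, v⟫‖ ≤ B * (‖gradient (Mj j) x - H x‖ * ‖v‖) :=
          mul_le_mul (hB x) (norm_inner_le_norm _ _) (norm_nonneg _)
            ((norm_nonneg _).trans (hB x))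
      _ = B * ‖v‖ * ‖gradient (Mj j) x - H x‖ := by ring
  exact tendsto_nhds_unique hlhs (hrhs.neg.congr fun j => (hid j).symm)

theorem maximal_gradient_of_scaleBound {d : ℕ} (hd : 1 ≤ d) (hC : ∃ C, ScaleBound d C) :
    ∃ C : ℝ, ∀ (f : Euc d → ℝ) (G : Euc d → Euc d), Integrable f → Integrable G →
      HasWeakGradient f G → ∃ (M : Euc d → ℝ) (H : Euc d → Euc d), (∀ x, 0 ≤ M x) ∧
        (∀ᵐ x, maxU f x = ENNReal.ofReal (M x)) ∧ HasWeakGradient M H ∧ Integrable H ∧
          ∫ x, ‖H x‖ ≤ C * ∫ x, ‖G x‖ := by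
  obtain ⟨C₀, hC₀⟩ := hC
  set C := max C₀ 0
  have hC0 : 0 ≤ C := le_max_right _ _
  have hCb : ScaleBound d C := fun f G δ k hfG hnn hδ =>
    (hC₀ f G δ k hfG hnn hδ).trans (ENNReal.ofReal_le_ofReal (mul_le_mul_of_nonneg_right
      (le_max_left _ _) (Finset.sum_nonneg fun n hn => mul_nonneg (by positivity)
        (sub_nonneg.2 (molNorm_antitone hδ hfG.2.1
          (by have := Finset.mem_range.1 hn; omega))))))
  refine ⟨C * windowConst, fun f G₀ hf hG₀ hw => ?_⟩
  obtain ⟨G, hfG, hGle⟩ := approx_abs (approx_of_hasWeakGradient hf hG₀ hw)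
  set g : Euc d → ℝ := fun y => |f y|
  have hnn : ∀ y, 0 ≤ g y := fun y => abs_nonneg _
  obtain ⟨H, hHi, hHlim, hHb⟩ := exists_limit_gradient hd hCb hC0 hfG hnn
  set Mj : ℕ → Euc d → ℝ := fun j => maxT ((1 / 2) ^ j) g with hMj
  have hlip : ∀ j, ∃ K, LipschitzWith K (Mj j) := fun j =>
    exists_lipschitzWith_maxT hd (by positivity) hfG hnn
  have hnnM : ∀ j x, 0 ≤ Mj j x := fun j x =>
    (exists_avg_eq_maxT hd (by positivity) hfG.1 hnn x).2.1
  have hmeasj : ∀ j, Measurable (Mj j) := fun j => (hlip j).choose_spec.continuous.measurable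
  set E : Euc d → ℝ≥0∞ := fun x => ⨆ j : ℕ, ENNReal.ofReal (Mj j x) with hE
  have hEm : Measurable E := Measurable.iSup fun j => (hmeasj j).ennreal_ofReal
  have hmono : ∀ x, Monotone fun j : ℕ => ENNReal.ofReal (Mj j x) := fun x j m hjm =>
    ENNReal.ofReal_le_ofReal (maxT_half_mono hd hfG hnn x hjm)
  have hball : ∀ L : ℝ, 0 < L → ∫⁻ x in closedBall 0 L, E x ≤
      ENNReal.ofReal (16 * L * (C * windowConst * ∫ x, ‖G x‖)) := by
    intro L hL
    rw [hE, lintegral_iSup (fun j => (hmeasj j).ennreal_ofReal) fun j m hjm x => hmono x hjm]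
    exact iSup_le fun j => lintegral_maxT_closedBall_le hd hCb hC0 hfG hnn (by positivity) hL
  have hfin : ∀ᵐ x, E x < ∞ := by
    have hcover : ∀ᵐ x, ∀ n : ℕ, x ∈ closedBall (0 : Euc d) ((n : ℝ) + 1) → E x < ∞ :=
      ae_all_iff.2 fun n => (ae_restrict_iff' measurableSet_closedBall).1
        (ae_lt_top hEm ((hball _ (by positivity)).trans_lt ENNReal.ofReal_lt_top).ne)
    filter_upwards [hcover] with x hx
    exact hx ⌈‖x‖⌉₊ (mem_closedBall_zero_iff.2 (by linarith [Nat.le_ceil ‖x‖]))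
  set M : Euc d → ℝ := fun x => (E x).toReal with hM
  have hMm : Measurable M := hEm.ennreal_toReal
  have hMloc : LocallyIntegrable M := by
    refine locallyIntegrable_iff.2 fun K hK => ?_
    obtain ⟨R, hR⟩ := hK.isBounded.subset_closedBall (0 : Euc d)
    refine IntegrableOn.mono_set ?_ (hR.trans (closedBall_subset_closedBall
      (show R ≤ |R| + 1 by linarith [le_abs_self R])))
    refine ⟨hMm.aestronglyMeasurable, ?_⟩
    refine lt_of_le_of_lt (lintegral_mono fun x => ?_)
      ((hball (|R| + 1) (by positivity)).trans_lt ENNReal.ofReal_lt_top)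
    rw [hM, Real.enorm_eq_ofReal ENNReal.toReal_nonneg]
    exact ENNReal.ofReal_toReal_le
  refine ⟨M, H, fun x => ENNReal.toReal_nonneg, hfin.mono fun x hx => ?_, ⟨hMloc, hHi.locallyIntegrable, fun φ hφ hφc v => ?_⟩,
    hHi, hHb.trans (mul_le_mul_of_nonneg_left (integral_mono hfG.2.1.norm hG₀.norm hGle)
      (mul_nonneg hC0 windowConst_nonneg))⟩
  · rw [maxU_eq_iSup hd hf, hM, ENNReal.ofReal_toReal hx.ne]
  · have hle : ∀ᵐ x, ∀ j, Mj j x ≤ M x := hfin.mono fun x hx j =>
      (ENNReal.ofReal_le_iff_le_toReal hx.ne).1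
        (le_iSup (fun j : ℕ => ENNReal.ofReal (Mj j x)) j)
    have hlimx : ∀ᵐ x, Tendsto (fun j => Mj j x) atTop (𝓝 (M x)) := hfin.mono fun x hx => by
      have h := (ENNReal.tendsto_toReal hx.ne).comp (tendsto_atTop_iSup (hmono x))
      exact h.congr fun j => ENNReal.toReal_ofReal (hnnM j x)
    exact weak_identity_of_tendsto hlip hnnM (fun j => integrable_gradient_maxT hd hCb hC0 hfG hnn
      (by positivity)) hHi hHlim hMloc hle hlimx hφ hφc v

end Vale.Agent.P137
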