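import Vale.Agent.P137.Chain

/-!
Gradients of truncated maximal functions.

Where the truncated maximal function is differentiable with nonzero gradient, a ball attaining the
supremum touches the point, and the gradient points to its centre. So along a coordinate direction
that nearly agrees with the gradient the function cannot return below its value within a length
comparable to the radius; on short lines it is monotone on the points of that direction, and its
derivative integrates to at most the length of the interval of values.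
-/

namespace Vale.Agent.P137

open MeasureTheory Metric Set Filter Topology
open scoped RealInnerProductSpace ENNReal NNReal

variable {d : ℕ}

section Averages

lemma abs_avg_le_div {r : ℝ} (hr : 0 < r) {u : Euc d → ℝ} (hu : Integrable u) (x : Euc d) :
    |avg r u x| ≤ (∫ y, |u y|) / volume.real (closedBall (0 : Euc d) r) := by
  simpa only [Real.norm_eq_abs] using norm_avg_le_div hr hu x

lemma abs_avg_shift_le {r : ℝ} (hr : 0 < r) {f : Euc d → ℝ} {G : Euc d → Euc d}
    (hfG : Approx f G) (p h : Euc d) :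
    |avg r f (p + h) - avg r f p| ≤
      (∫ x, ‖G x‖) / volume.real (closedBall (0 : Euc d) r) * ‖h‖ := by
  obtain ⟨hf, hG, happ⟩ := hfG
  set V := volume.real (closedBall (0 : Euc d) r)
  have hV : 0 < V := volume_real_closedBall_pos 0 hr
  refine le_of_forall_pos_le_add fun η hη => ?_
  set ε := η / ((2 + ‖h‖) / V) with hεdef
  have hε : 0 < ε := by positivity
  obtain ⟨u, hu, hui, hgi, huf, hug⟩ := happ ε hε
  obtain ⟨-, hgc, hs⟩ := seg_mol hr hu hui hgi 1
  have hmol : ∀ {F : Type} [NormedAddCommGroup F] [NormedSpace ℝ F] (w : Euc d → F),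
      mol r w 1 = avg r w := fun w => by simp [mol]
  rw [hmol] at hgc
  have hGu : ∫ x, ‖gradient u x‖ ≤ (∫ x, ‖G x‖) + ε := by
    have h1 : Integrable fun x => ‖gradient u x - G x‖ := (hgi.sub hG).norm
    calc ∫ x, ‖gradient u x‖ ≤ ∫ x, (‖G x‖ + ‖gradient u x - G x‖) :=
          integral_mono hgi.norm (hG.norm.add h1) fun x =>
            norm_le_norm_add_norm_sub' (gradient u x) (G x)
      _ = (∫ x, ‖G x‖) + ∫ x, ‖gradient u x - G x‖ := integral_add hG.norm h1
      _ ≤ _ := by linarith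
  have hu1 : |avg r u (p + h) - avg r u p| ≤ ((∫ x, ‖G x‖) + ε) / V * ‖h‖ := by
    have h0 := hs p h
    simp only [hmol] at h0
    rw [h0, ← Real.norm_eq_abs]
    refine (norm_setIntegral_le_of_norm_le_const (C := ((∫ x, ‖G x‖) + ε) / V * ‖h‖)
      measure_Icc_lt_top fun t _ => ?_).trans_eq (by simp)
    refine (norm_inner_le_norm _ _).trans (mul_le_mul_of_nonneg_right ?_ (norm_nonneg _))
    exact (norm_avg_le_div hr hgi _).trans (div_le_div_of_nonneg_right hGu hV.le)
  have hdiff : ∀ x, |avg r f x - avg r u x| ≤ ε / V := fun x => by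
    rw [← avg_sub hr hf hui]
    refine (abs_avg_le_div hr (hf.sub hui) x).trans (div_le_div_of_nonneg_right ?_ hV.le)
    simpa only [Pi.sub_apply, abs_sub_comm] using huf
  have e : ((∫ x, ‖G x‖) + ε) / V * ‖h‖ + 2 * (ε / V) = (∫ x, ‖G x‖) / V * ‖h‖ + η := by
    rw [hεdef]
    field_simp
    ring
  have h1 := hdiff (p + h)
  have h2 := hdiff p
  rw [abs_le] at h1 h2 hu1 ⊢
  constructor <;> linarith

lemma le_maxT {δ : ℝ} (hδ : 0 < δ) {f : Euc d → ℝ} (hf : Integrable f) {x z : Euc d} {r : ℝ}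
    (hr : δ ≤ r) (hx : dist x z ≤ r) : avg r f z ≤ maxT δ f x := by
  refine le_csSup ⟨(∫ y, |f y|) / volume.real (closedBall (0 : Euc d) δ), ?_⟩ ⟨z, r, hr, hx, rfl⟩
  rintro a ⟨z', r', hr', -, rfl⟩
  refine ((le_abs_self _).trans (abs_avg_le_div (hδ.trans_le hr') hf z')).trans ?_
  exact div_le_div_of_nonneg_left (integral_nonneg fun y => abs_nonneg _)
    (volume_real_closedBall_pos 0 hδ) (measureReal_mono (closedBall_subset_closedBall hr')
      (isCompact_closedBall _ _).measure_lt_top.ne)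

lemma maxT_le {δ : ℝ} (hδ : 0 < δ) {f : Euc d → ℝ} {x : Euc d} {B : ℝ}
    (h : ∀ z r, δ ≤ r → dist x z ≤ r → avg r f z ≤ B) : maxT δ f x ≤ B :=
  csSup_le ⟨_, x, δ, le_rfl, by rw [dist_self]; exact hδ.le, rfl⟩
    (by rintro a ⟨z, r, hr, hx, rfl⟩; exact h z r hr hx)

lemma maxT_nonneg {δ : ℝ} (hδ : 0 < δ) {f : Euc d → ℝ} (hf : Integrable f) (hnn : ∀ x, 0 ≤ f x)
    (x : Euc d) : 0 ≤ maxT δ f x :=
  (smul_nonneg (inv_nonneg.2 measureReal_nonneg) (integral_nonneg fun _ => hnn _) :
    0 ≤ avg δ f x).trans (le_maxT hδ hf le_rfl (by rw [dist_self]; exact hδ.le))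

/-- Averages over large balls are small. -/
lemma exists_radius_avg_le (hd : 1 ≤ d) {f : Euc d → ℝ} (hf : Integrable f) {ε : ℝ} (hε : 0 < ε) :
    ∃ R : ℝ, 0 < R ∧ ∀ r z, R ≤ r → avg r f z ≤ ε := by
  have hU := volume_real_unit_pos (d := d)
  set A := ∫ y, |f y|
  have hA : 0 ≤ A := integral_nonneg fun y => abs_nonneg _
  refine ⟨max 1 (A / (ε * volume.real (closedBall (0 : Euc d) 1))), by positivity, fun r z hr => ?_⟩
  have hr1 : 1 ≤ r := (le_max_left _ _).trans hr
  have hr0 : 0 < r := by linarith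
  refine ((le_abs_self _).trans (abs_avg_le_div hr0 hf z)).trans ?_
  rw [volume_real_closedBall 0 hr0.le, div_le_iff₀ (by positivity)]
  have h1 : A / (ε * volume.real (closedBall (0 : Euc d) 1)) ≤ r ^ d :=
    ((le_max_right _ _).trans hr).trans (by simpa using pow_le_pow_right₀ hr1 hd)
  rw [div_le_iff₀ (by positivity)] at h1
  linarith

end Averages

theorem exists_avg_eq_maxT (hd : 1 ≤ d) {δ : ℝ} (hδ : 0 < δ) {f : Euc d → ℝ} (hf : Integrable f)
    (hnn : ∀ x, 0 ≤ f x) (x : Euc d) :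
    (∀ z r, δ ≤ r → dist x z ≤ r → avg r f z ≤ maxT δ f x) ∧ 0 ≤ maxT δ f x ∧
      (0 < maxT δ f x → ∃ z r, δ ≤ r ∧ dist x z ≤ r ∧ maxT δ f x = avg r f z) := by
  refine ⟨fun z r => le_maxT hδ hf, maxT_nonneg hδ hf hnn x, fun hpos => ?_⟩
  obtain ⟨R, hR, hsmall⟩ := exists_radius_avg_le hd hf (half_pos hpos)
  set K : Set (ℝ × Euc d) := {p | δ ≤ p.1 ∧ p.1 ≤ max R δ ∧ dist x p.2 ≤ p.1} with hK
  have hKc : IsCompact K := by
    refine (isCompact_Icc.prod (isCompact_closedBall x (max R δ))).of_isClosed_subset ?_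
      (fun p hp => ⟨⟨hp.1, hp.2.1⟩, mem_closedBall'.2 (hp.2.2.trans hp.2.1)⟩)
    exact (isClosed_le continuous_const continuous_fst).inter
      ((isClosed_le continuous_fst continuous_const).inter
        (isClosed_le (continuous_const.dist continuous_snd) continuous_fst))
  obtain ⟨p, hp, hmax⟩ := hKc.exists_isMaxOn
    ⟨(δ, x), le_rfl, le_max_right _ _, by simp [hδ.le]⟩
    ((continuousOn_avg hf).mono fun q hq => ⟨hδ.trans_le hq.1, trivial⟩)
  refine ⟨p.2, p.1, hp.1, hp.2.2, le_antisymm ?_ (le_maxT hδ hf hp.1 hp.2.2)⟩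
  have h : maxT δ f x ≤ max (avg p.1 f p.2) (maxT δ f x / 2) := maxT_le hδ fun z r hr hxz => by
    by_cases hrR : r ≤ max R δ
    · exact le_max_of_le_left (hmax (show (r, z) ∈ K from ⟨hr, hrR, hxz⟩))
    · exact le_max_of_le_right (hsmall r z ((le_max_left _ _).trans (not_le.1 hrR).le))
  rcases le_max_iff.1 h with h | h
  · exact h
  · linarith

theorem maxT_anti (_hd : 1 ≤ d) {δ δ' : ℝ} (hδ : 0 < δ) (h : δ ≤ δ') {f : Euc d → ℝ}
    (hf : Integrable f) (_hnn : ∀ x, 0 ≤ f x) (x : Euc d) : maxT δ' f x ≤ maxT δ f x :=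
  maxT_le (hδ.trans_le h) fun _ _ hr hxz => le_maxT hδ hf (h.trans hr) hxz

theorem exists_lipschitzWith_maxT (_hd : 1 ≤ d) {δ : ℝ} (hδ : 0 < δ) {f : Euc d → ℝ}
    {G : Euc d → Euc d} (hfG : Approx f G) (_hnn : ∀ x, 0 ≤ f x) :
    ∃ L, LipschitzWith L (maxT δ f) := by
  set L := (∫ x, ‖G x‖) / volume.real (closedBall (0 : Euc d) δ) with hL
  have hL0 : 0 ≤ L := div_nonneg (integral_nonneg fun x => norm_nonneg _) measureReal_nonneg
  refine ⟨L.toNNReal, LipschitzWith.of_le_add_mul _ fun x y => maxT_le hδ fun z r hr hxz => ?_⟩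
  have h1 := le_maxT (f := f) hδ hfG.1 (z := z + (y - x)) (x := y) hr (by
    rw [dist_eq_norm, show y - (z + (y - x)) = x - z by abel, ← dist_eq_norm]
    exact hxz)
  have h2 := abs_le.1 (abs_avg_shift_le (hδ.trans_le hr) hfG z (y - x))
  have h3 : (∫ x, ‖G x‖) / volume.real (closedBall (0 : Euc d) r) * ‖y - x‖ ≤ L * dist x y := by
    rw [dist_eq_norm', hL]
    refine mul_le_mul_of_nonneg_right (div_le_div_of_nonneg_left
      (integral_nonneg fun x => norm_nonneg _) (volume_real_closedBall_pos 0 hδ) ?_) (norm_nonneg _)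
    exact measureReal_mono (closedBall_subset_closedBall hr)
      (isCompact_closedBall _ _).measure_lt_top.ne
  rw [Real.coe_toNNReal _ hL0]
  linarith [h2.1]

theorem tendsto_maxT_radius (hd : 1 ≤ d) {f : Euc d → ℝ} (hf : Integrable f) (hnn : ∀ x, 0 ≤ f x)
    (x : Euc d) : Tendsto (fun δ => maxT δ f x) atTop (𝓝 0) := by
  refine Metric.tendsto_atTop.2 fun ε hε => ?_
  obtain ⟨R, hR, hsmall⟩ := exists_radius_avg_le hd hf (half_pos hε)
  refine ⟨R, fun δ hδ => ?_⟩
  have hδ0 : 0 < δ := hR.trans_le hδ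
  rw [Real.dist_eq, sub_zero, abs_of_nonneg (maxT_nonneg hδ0 hf hnn x)]
  exact (maxT_le hδ0 fun z r hr _ => hsmall r z (hδ.trans hr)).trans_lt (half_lt_self hε)

theorem tendsto_maxT_cocompact (hd : 1 ≤ d) {δ : ℝ} (hδ : 0 < δ) {f : Euc d → ℝ}
    (hf : Integrable f) (hnn : ∀ x, 0 ≤ f x) :
    Tendsto (maxT δ f) (cocompact (Euc d)) (𝓝 0) := by
  refine Metric.tendsto_nhds.2 fun ε hε => ?_
  obtain ⟨R, hR, hsmall⟩ := exists_radius_avg_le hd hf (half_pos hε)
  set V := volume.real (closedBall (0 : Euc d) δ)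
  have hV : 0 < V := volume_real_closedBall_pos 0 hδ
  have htail : Tendsto (fun n : ℕ => ∫ y in (closedBall (0 : Euc d) n)ᶜ, f y) atTop (𝓝 0) := by
    have hempty : ⋂ n : ℕ, (closedBall (0 : Euc d) n)ᶜ = ∅ := by
      refine eq_empty_of_forall_notMem fun y hy => ?_
      exact mem_iInter.1 hy ⌈‖y‖⌉₊ (mem_closedBall_zero_iff.2 (Nat.le_ceil _))
    have h := tendsto_setIntegral_of_antitone (μ := volume) (f := f)
      (s := fun n : ℕ => (closedBall (0 : Euc d) n)ᶜ) (fun n => measurableSet_closedBall.compl)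
      (fun m n hmn => compl_subset_compl.2 (closedBall_subset_closedBall (Nat.cast_le.2 hmn)))
      ⟨0, hf.integrableOn⟩
    rwa [hempty, setIntegral_empty] at h
  obtain ⟨T, hT⟩ := (htail.eventually (eventually_lt_nhds (show 0 < V * (ε / 2) by positivity))).exists
  refine mem_of_superset ((isCompact_closedBall (0 : Euc d) (T + 2 * R)).compl_mem_cocompact)
    fun x hx => ?_
  rw [mem_compl_iff, mem_closedBall_zero_iff, not_le] at hx
  show dist (maxT δ f x) 0 < ε
  rw [Real.dist_eq, sub_zero, abs_of_nonneg (maxT_nonneg hδ hf hnn x)]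
  refine (maxT_le hδ fun z r hr hxz => ?_).trans_lt (half_lt_self hε)
  rcases le_total R r with h | h
  · exact hsmall r z h
  rw [avg_eq, smul_eq_mul, Measure.addHaar_real_closedBall_center volume z r,
    inv_mul_le_iff₀ (volume_real_closedBall_pos 0 (hδ.trans_le hr))]
  have h1 : ∫ y in closedBall z r, f y ≤ ∫ y in (closedBall (0 : Euc d) T)ᶜ, f y := by
    refine setIntegral_mono_set hf.integrableOn (Eventually.of_forall hnn)
      (LE.le.eventuallyLE fun y hy hyT => ?_)
    rw [mem_closedBall_zero_iff] at hyT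
    rw [mem_closedBall] at hy
    have h2 : ‖x‖ ≤ dist x z + dist z y + ‖y‖ := by
      rw [← dist_zero_right x, ← dist_zero_right y]
      exact dist_triangle4 _ _ _ _
    rw [dist_comm z y] at h2
    linarith
  refine h1.trans (hT.le.trans (mul_le_mul_of_nonneg_right ?_ (by positivity)))
  exact measureReal_mono (closedBall_subset_closedBall hr)
    (isCompact_closedBall _ _).measure_lt_top.ne

section Local

variable (hd : 1 ≤ d) {δ : ℝ} (hδ : 0 < δ) {f : Euc d → ℝ} (hf : Integrable f)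
  (hnn : ∀ x, 0 ≤ f x)

include hd hδ hf hnn

/-- In a direction that nearly agrees with the gradient, the value does not drop for a while. -/
lemma maxT_le_along {x e : Euc d} (he : ‖e‖ = 1) (hx : DifferentiableAt ℝ (maxT δ f) x)
    (hpos : 0 < fderiv ℝ (maxT δ f) x e)
    (hbig : ‖fderiv ℝ (maxT δ f) x‖ ≤ Real.sqrt d * fderiv ℝ (maxT δ f) x e) {t : ℝ} (ht0 : 0 ≤ t)
    (ht : t * Real.sqrt d ≤ 2 * δ) : maxT δ f x ≤ maxT δ f (x + t • e) := by
  set M := maxT δ f with hM
  set D := fderiv ℝ M x with hD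
  have hnomin : ¬ IsLocalMin M x := fun h => by
    rw [hD, h.fderiv_eq_zero] at hpos
    simp at hpos
  have hMx : 0 < M x := by
    refine lt_of_not_ge fun h0 => hnomin (Eventually.of_forall fun y => ?_)
    exact h0.trans (maxT_nonneg hδ hf hnn y)
  obtain ⟨z, r, hr, hxz, hval⟩ := (exists_avg_eq_maxT hd hδ hf hnn x).2.2 hMx
  rw [← hM] at hval
  have hr0 : 0 < r := hδ.trans_le hr
  have hge : ∀ y, dist y z ≤ r → M x ≤ M y := fun y hy => hval.le.trans (le_maxT hδ hf hr hy)
  have hxr : dist x z = r := by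
    refine le_antisymm hxz (not_lt.1 fun hlt => hnomin ?_)
    filter_upwards [isOpen_ball.mem_nhds (mem_ball.2 hlt)] with y hy
    exact hge y (mem_ball.1 hy).le
  set n := z - x with hn
  have hnn' : ‖n‖ = r := by rw [hn, ← dist_eq_norm, dist_comm, hxr]
  have hexp : ∀ (s : ℝ) (u : Euc d),
      dist (x + s • u) z ^ 2 = r ^ 2 - 2 * s * ⟪n, u⟫ + s ^ 2 * ‖u‖ ^ 2 := fun s u => by
    rw [dist_eq_norm, show x + s • u - z = -(n - s • u) by rw [hn]; abel, norm_neg,
      norm_sub_sq_real, real_inner_smul_right, norm_smul, hnn', Real.norm_eq_abs, mul_pow, sq_abs]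
    ring
  -- the derivative is nonnegative towards the centre
  have hhalf : ∀ u : Euc d, 0 < ⟪n, u⟫ → 0 ≤ D u := by
    intro u hu
    have hline : HasDerivAt (fun s : ℝ => M (x + s • u)) (D u) 0 := by
      have h1 : HasFDerivAt M D (x + (0 : ℝ) • u) := by simpa using hx.hasFDerivAt
      have h2 : HasDerivAt (fun s : ℝ => x + s • u) u 0 := by
        simpa using ((hasDerivAt_id (0 : ℝ)).smul_const u).const_add x
      exact h1.comp_hasDerivAt 0 h2
    refine ge_of_tendsto ((hasDerivWithinAt_iff_tendsto_slope'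
      (show (0 : ℝ) ∉ Ioi 0 from self_notMem_Ioi)).1 hline.hasDerivWithinAt) ?_
    have hsmall : ∀ᶠ s in 𝓝[>] (0 : ℝ), s * ‖u‖ ^ 2 < 2 * ⟪n, u⟫ := nhdsWithin_le_nhds
      ((Continuous.tendsto (by fun_prop : Continuous fun s : ℝ => s * ‖u‖ ^ 2) 0).eventually
        (gt_mem_nhds (by simpa using mul_pos two_pos hu)))
    filter_upwards [self_mem_nhdsWithin, hsmall] with s hs hs'
    rw [slope_def_field, sub_zero]
    refine div_nonneg (sub_nonneg.2 ?_) (le_of_lt hs)
    simp only [zero_smul, add_zero]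
    refine hge _ (abs_le_of_sq_le_sq' ?_ hr0.le).2
    rw [hexp]
    nlinarith [mul_le_mul_of_nonneg_left hs'.le (le_of_lt hs)]
  have hDn : 0 ≤ D n := hhalf n (by rw [real_inner_self_eq_norm_sq, hnn']; positivity)
  have hclosed : ∀ u : Euc d, 0 ≤ ⟪n, u⟫ → 0 ≤ D u := by
    intro u hu
    by_contra hlt
    rw [not_le] at hlt
    set η := -(D u) / (2 * (D n + 1)) with hη
    have hη0 : 0 < η := div_pos (by linarith) (by linarith)
    have h := hhalf (u + η • n) (by
      rw [inner_add_right, real_inner_smul_right, real_inner_self_eq_norm_sq, hnn']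
      positivity)
    rw [map_add, map_smul, smul_eq_mul] at h
    have : η * (2 * (D n + 1)) = -(D u) := div_mul_cancel₀ _ (by positivity)
    nlinarith
  set c := D n / r ^ 2 with hc
  have hDu : ∀ u, D u = c * ⟪n, u⟫ := by
    intro u
    set a := ⟪n, u⟫ / r ^ 2 with ha
    have hperp : ⟪n, u - a • n⟫ = 0 := by
      rw [inner_sub_right, real_inner_smul_right, real_inner_self_eq_norm_sq, hnn', ha,
        div_mul_cancel₀ _ (by positivity), sub_self]
    have h1 := hclosed (u - a • n) hperp.ge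
    have h2 := hclosed (-(u - a • n)) (by rw [inner_neg_right, hperp, neg_zero])
    rw [map_neg] at h2
    rw [map_sub, map_smul, smul_eq_mul] at h1 h2
    rw [show c * ⟪n, u⟫ = a * D n by rw [hc, ha]; ring]
    linarith
  have hcD : D n ≤ ‖D‖ * r := by
    have := D.le_opNorm n
    rw [hnn', Real.norm_eq_abs] at this
    exact (le_abs_self _).trans this
  rw [hDu n, real_inner_self_eq_norm_sq, hnn'] at hcD hDn
  rw [hDu e] at hpos hbig
  have hc0 : 0 < c := by
    rcases (nonneg_of_mul_nonneg_left hDn (by positivity)).eq_or_lt with h | h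
    · rw [← h, zero_mul] at hpos
      exact absurd hpos (lt_irrefl 0)
    · exact h
  have hre : r ≤ Real.sqrt d * ⟪n, e⟫ := by
    have h : c * r * r ≤ c * r * (Real.sqrt d * ⟪n, e⟫) := by
      nlinarith [mul_le_mul_of_nonneg_right hbig hr0.le]
    exact le_of_mul_le_mul_left h (by positivity)
  refine hge _ (abs_le_of_sq_le_sq' ?_ hr0.le).2
  rw [hexp, he]
  have hsd : 0 < Real.sqrt d := Real.sqrt_pos.2 (by exact_mod_cast hd)
  have ht' : t ≤ 2 * ⟪n, e⟫ := le_of_mul_le_mul_right (by linarith) hsd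
  nlinarith

end Local

lemma exists_axis_fderiv_ge (hd : 1 ≤ d) (D : Euc d →L[ℝ] ℝ) :
    ∃ j : Fin d, ∃ σ : Bool,
      ‖D‖ ≤ Real.sqrt d * D ((if σ then (1 : ℝ) else -1) • EuclideanSpace.single j 1) := by
  have : Nonempty (Fin d) := ⟨⟨0, hd⟩⟩
  set g := (InnerProductSpace.toDual ℝ (Euc d)).symm D with hg
  have hgn : ‖g‖ = ‖D‖ := LinearIsometryEquiv.norm_map _ _
  have hgi : ∀ j, D (EuclideanSpace.single j 1) = g j := fun j => by
    rw [← InnerProductSpace.toDual_symm_apply (𝕜 := ℝ), ← hg, EuclideanSpace.inner_single_right]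
    simp
  obtain ⟨j, hj⟩ : ∃ j : Fin d, ‖g‖ ^ 2 ≤ d * g j ^ 2 := by
    by_contra! hno
    have h := Finset.sum_lt_sum_of_nonempty Finset.univ_nonempty fun j _ => hno j
    rw [← Finset.mul_sum, Finset.sum_const, Finset.card_univ, Fintype.card_fin, nsmul_eq_mul,
      EuclideanSpace.real_norm_sq_eq] at h
    exact lt_irrefl _ h
  have hjle : ‖D‖ ≤ Real.sqrt d * |g j| := by
    rw [← hgn, ← Real.sqrt_sq_eq_abs, ← Real.sqrt_mul (Nat.cast_nonneg _),
      ← Real.sqrt_sq (norm_nonneg g)]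
    exact Real.sqrt_le_sqrt hj
  rcases le_total 0 (g j) with h | h
  · exact ⟨j, true, by simpa [hgi, abs_of_nonneg h] using hjle⟩
  · exact ⟨j, false, by simpa [hgi, abs_of_nonpos h] using hjle⟩

/-- The directional derivatives on the points of one direction. -/
lemma lintegral_direction_le (hd : 1 ≤ d) {δ ρ : ℝ} (hρ : 0 < ρ) (hρd : ρ * Real.sqrt d ≤ δ)
    {f : Euc d → ℝ} (hf : Integrable f) (hnn : ∀ x, 0 ≤ f x) (c : Euc d) (a b : ℝ)
    (hMc : Continuous (maxT δ f)) {e : Euc d} (he : ‖e‖ = 1) :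
    ∫⁻ x in {x | (x ∈ closedBall c ρ ∩ maxT δ f ⁻¹' Icc a b) ∧ DifferentiableAt ℝ (maxT δ f) x ∧
        0 < fderiv ℝ (maxT δ f) x e ∧
        ‖fderiv ℝ (maxT δ f) x‖ ≤ Real.sqrt d * fderiv ℝ (maxT δ f) x e},
      ENNReal.ofReal (fderiv ℝ (maxT δ f) x e) ≤
      ENNReal.ofReal (2 ^ d * volume.real (closedBall (0 : Euc d) 1) * ρ ^ (d - 1) * (b - a)) := by
  have hsd : 0 < Real.sqrt d := Real.sqrt_pos.2 (by exact_mod_cast hd)
  have hδ : 0 < δ := lt_of_lt_of_le (by positivity) hρd
  set M := maxT δ f with hM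
  set S := {x | (x ∈ closedBall c ρ ∩ M ⁻¹' Icc a b) ∧ DifferentiableAt ℝ M x ∧
    0 < fderiv ℝ M x e ∧ ‖fderiv ℝ M x‖ ≤ Real.sqrt d * fderiv ℝ M x e} with hS
  have hDm := measurable_fderiv_apply_const ℝ M e
  have hSm : MeasurableSet S := (measurableSet_closedBall.inter
      (hMc.measurable measurableSet_Icc)).inter ((measurableSet_of_differentiableAt ℝ M).inter
    ((measurableSet_lt measurable_const hDm).inter
      (measurableSet_le (measurable_fderiv ℝ M).norm (hDm.const_mul _))))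
  set φ : Euc d → ℝ≥0∞ := S.indicator fun x => ENNReal.ofReal (fderiv ℝ M x e) with hφ
  have hφm : Measurable φ := hDm.ennreal_ofReal.indicator hSm
  -- one line
  have hline : ∀ x, ∫⁻ t in Icc 0 ρ, φ (x + t • e) ≤
      (closedBall c (2 * ρ)).indicator (fun _ => ENNReal.ofReal (b - a)) x := by
    intro x
    by_cases hx : x ∈ closedBall c (2 * ρ)
    · rw [indicator_of_mem hx]
      set T : Set ℝ := (fun t => x + t • e) ⁻¹' S with hT
      have hTm : MeasurableSet T :=
        (by fun_prop : Measurable fun t : ℝ => x + t • e) hSm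
      have hder : ∀ t ∈ T, HasDerivWithinAt (fun t => M (x + t • e))
          (fderiv ℝ M (x + t • e) e) T t := by
        intro t ht
        have h2 : HasDerivAt (fun t : ℝ => x + t • e) e t := by
          simpa using ((hasDerivAt_id t).smul_const e).const_add x
        exact (ht.2.1.hasFDerivAt.comp_hasDerivAt t h2).hasDerivWithinAt
      have hmono : MonotoneOn (fun t => M (x + t • e)) T := by
        intro t₁ h₁ t₂ h₂ hle
        have hclose : t₂ - t₁ ≤ 2 * ρ := by
          have := dist_triangle_right (x + t₂ • e) (x + t₁ • e) c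
          rw [dist_add_left, dist_eq_norm, ← sub_smul, norm_smul, he, mul_one, Real.norm_eq_abs,
            abs_of_nonneg (sub_nonneg.2 hle)] at this
          linarith [mem_closedBall.1 h₁.1.1, mem_closedBall.1 h₂.1.1]
        have h := maxT_le_along hd hδ hf hnn he h₁.2.1 h₁.2.2.1 h₁.2.2.2
          (sub_nonneg.2 hle) (by nlinarith)
        rw [add_assoc, ← add_smul, add_sub_cancel] at h
        exact h
      calc ∫⁻ t in Icc 0 ρ, φ (x + t • e) ≤ ∫⁻ t, φ (x + t • e) := setLIntegral_le_lintegral _ _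
        _ = ∫⁻ t in T, ENNReal.ofReal (fderiv ℝ M (x + t • e) e) := by
            rw [← lintegral_indicator hTm]
            rfl
        _ = volume ((fun t => M (x + t • e)) '' T) :=
            lintegral_deriv_eq_volume_image_of_monotoneOn hTm hder hmono
        _ ≤ volume (Icc a b) := measure_mono (by rintro _ ⟨t, ht, rfl⟩; exact ht.1.2)
        _ = _ := Real.volume_Icc
    · rw [indicator_of_notMem hx]
      refine le_of_eq ((setLIntegral_congr_fun measurableSet_Icc fun t ht => ?_).trans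
        lintegral_zero)
      refine indicator_of_notMem (fun hm => hx ?_) _
      have h1 := dist_triangle x (x + t • e) c
      rw [dist_self_add_right, norm_smul, he, mul_one, Real.norm_eq_abs, abs_of_nonneg ht.1] at h1
      rw [mem_closedBall]
      linarith [mem_closedBall.1 hm.1.1, ht.2]
  have hswap : ENNReal.ofReal ρ * ∫⁻ x in S, ENNReal.ofReal (fderiv ℝ M x e) ≤
      ENNReal.ofReal (b - a) * volume (closedBall c (2 * ρ)) := by
    have h1 : ∫⁻ t in Icc 0 ρ, ∫⁻ x, φ (x + t • e) =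
        ENNReal.ofReal ρ * ∫⁻ x in S, ENNReal.ofReal (fderiv ℝ M x e) := by
      simp only [lintegral_add_right_eq_self φ]
      rw [setLIntegral_const, Real.volume_Icc, sub_zero, mul_comm, hφ, lintegral_indicator hSm]
    rw [← h1, lintegral_lintegral_swap (f := fun t x => φ (x + t • e))
      (hφm.comp (by fun_prop : Measurable fun p : ℝ × Euc d => p.2 + p.1 • e)).aemeasurable]
    refine (lintegral_mono hline).trans_eq ?_
    rw [lintegral_indicator_const measurableSet_closedBall]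
  rw [mul_comm, ← ENNReal.le_div_iff_mul_le (Or.inl (ENNReal.ofReal_pos.2 hρ).ne')
    (Or.inl ENNReal.ofReal_ne_top)] at hswap
  refine hswap.trans (le_of_eq ?_)
  rw [← ofReal_measureReal measure_closedBall_lt_top.ne, ← ENNReal.ofReal_mul' measureReal_nonneg,
    ← ENNReal.ofReal_div_of_pos hρ, volume_real_closedBall c (by positivity)]
  congr 1
  obtain ⟨m, rfl⟩ : ∃ m, d = m + 1 := ⟨d - 1, by omega⟩
  rw [mul_pow, pow_succ ρ, Nat.add_sub_cancel]
  field_simp

/-- A truncated maximal function varies little where its values are confined. -/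
theorem exists_lintegral_fderiv_maxT_le (hd : 1 ≤ d) :
    ∃ C : ℝ, 0 ≤ C ∧ ∀ (f : Euc d → ℝ) (G : Euc d → Euc d) (δ ρ : ℝ) (c : Euc d) (a b : ℝ),
      Approx f G → (∀ x, 0 ≤ f x) → 0 < ρ → ρ * Real.sqrt d ≤ δ →
        ∫⁻ x in closedBall c ρ ∩ maxT δ f ⁻¹' Icc a b, ‖fderiv ℝ (maxT δ f) x‖ₑ ≤
          ENNReal.ofReal (C * ρ ^ (d - 1) * (b - a)) := by
  refine ⟨(d * 2 : ℕ) * (Real.sqrt d * (2 ^ d * volume.real (closedBall (0 : Euc d) 1))),
    by positivity, fun f G δ ρ c a b hfG hnn hρ hρd => ?_⟩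
  have hsd : 0 < Real.sqrt d := Real.sqrt_pos.2 (by exact_mod_cast hd)
  have hδ : 0 < δ := lt_of_lt_of_le (by positivity) hρd
  obtain ⟨L, hL⟩ := exists_lipschitzWith_maxT hd hδ hfG hnn
  set M := maxT δ f with hM
  set E := closedBall c ρ ∩ M ⁻¹' Icc a b with hE
  set ax : Fin d × Bool → Euc d :=
    fun q => (if q.2 then (1 : ℝ) else -1) • EuclideanSpace.single q.1 1 with hax
  have hax1 : ∀ q, ‖ax q‖ = 1 := fun q => by
    cases h : q.2 <;> simp [hax, h]
  set S : Fin d × Bool → Set (Euc d) := fun q => {x | x ∈ E ∧ DifferentiableAt ℝ M x ∧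
    0 < fderiv ℝ M x (ax q) ∧ ‖fderiv ℝ M x‖ ≤ Real.sqrt d * fderiv ℝ M x (ax q)} with hS
  have hcov : ∀ᵐ x ∂volume.restrict E, ‖fderiv ℝ M x‖ₑ ≤
      ∑ q, (S q).indicator (fun x => ENNReal.ofReal (Real.sqrt d * fderiv ℝ M x (ax q))) x := by
    filter_upwards [ae_restrict_mem (measurableSet_closedBall.inter
      (hL.continuous.measurable measurableSet_Icc)), ae_restrict_of_ae hL.ae_differentiableAt]
      with x hxE hxd
    rcases (norm_nonneg (fderiv ℝ M x)).eq_or_lt with h | h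
    · rw [← ofReal_norm, ← h, ENNReal.ofReal_zero]
      exact zero_le
    obtain ⟨j, σ, hj⟩ := exists_axis_fderiv_ge hd (fderiv ℝ M x)
    have hmem : x ∈ S (j, σ) :=
      ⟨hxE, hxd, pos_of_mul_pos_right (h.trans_le hj) hsd.le, hj⟩
    refine le_trans ?_ (Finset.single_le_sum (fun q _ => zero_le) (Finset.mem_univ (j, σ)))
    rw [indicator_of_mem hmem, ← ofReal_norm]
    exact ENNReal.ofReal_le_ofReal hj
  refine (lintegral_mono_ae hcov).trans ?_
  have hm : ∀ q, Measurable fun x => ENNReal.ofReal (Real.sqrt d * fderiv ℝ M x (ax q)) :=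
    fun q => ((measurable_fderiv_apply_const ℝ M (ax q)).const_mul _).ennreal_ofReal
  have hSm : ∀ q, MeasurableSet (S q) := fun q => (measurableSet_closedBall.inter
      (hL.continuous.measurable measurableSet_Icc)).inter ((measurableSet_of_differentiableAt ℝ M).inter
    ((measurableSet_lt measurable_const (measurable_fderiv_apply_const ℝ M (ax q))).inter
      (measurableSet_le (measurable_fderiv ℝ M).norm
        ((measurable_fderiv_apply_const ℝ M (ax q)).const_mul _))))
  rw [lintegral_finsetSum _ fun q _ => (hm q).indicator (hSm q)]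
  refine (Finset.sum_le_sum (g := fun _ => ENNReal.ofReal (Real.sqrt d *
    (2 ^ d * volume.real (closedBall (0 : Euc d) 1) * ρ ^ (d - 1) * (b - a)))) fun q _ => ?_).trans_eq ?_
  · rw [lintegral_indicator (hSm q), Measure.restrict_restrict (hSm q),
      inter_eq_self_of_subset_left (fun x (hx : x ∈ S q) => hx.1)]
    simp only [ENNReal.ofReal_mul hsd.le]
    rw [lintegral_const_mul' _ _ ENNReal.ofReal_ne_top]
    exact mul_le_mul' le_rfl (lintegral_direction_le hd hρ hρd hfG.1 hnn c a b hL.continuous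
      (hax1 q))
  · rw [Finset.sum_const, Finset.card_univ, Fintype.card_prod, Fintype.card_fin, Fintype.card_bool,
      nsmul_eq_mul, ← ENNReal.ofReal_natCast, ← ENNReal.ofReal_mul (Nat.cast_nonneg _)]
    congr 1
    ring

section Windows

lemma measurableSet_window (hd : 1 ≤ d) {δ : ℝ} (hδ : 0 < δ) {f : Euc d → ℝ}
    {G : Euc d → Euc d} (hfG : Approx f G) (hnn : ∀ x, 0 ≤ f x) (k : ℕ) :
    MeasurableSet (window δ f k) := by
  obtain ⟨L, hL⟩ :=
    exists_lipschitzWith_maxT hd (show 0 < δ * 2 ^ k by positivity) hfG hnn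
  obtain ⟨L', hL'⟩ :=
    exists_lipschitzWith_maxT hd (show 0 < δ * 2 ^ (k + 1) by positivity) hfG hnn
  exact (isOpen_lt hL'.continuous hL.continuous).measurableSet

/-- Below the first drop, the gradient is that of the truncation at the scale of the drop. -/
lemma ae_exists_window (hd : 1 ≤ d) {δ : ℝ} (hδ : 0 < δ) {f : Euc d → ℝ} {G : Euc d → Euc d}
    (hfG : Approx f G) (hnn : ∀ x, 0 ≤ f x) :
    ∀ᵐ x, ∀ m : ℕ, maxT (δ * 2 ^ m) f x < maxT δ f x →
      ∃ k < m, x ∈ window δ f k ∧ fderiv ℝ (maxT (δ * 2 ^ k) f) x = fderiv ℝ (maxT δ f) x := by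
  have hlip : ∀ k : ℕ, ∃ L, LipschitzWith L (maxT (δ * 2 ^ k) f) := fun k =>
    exists_lipschitzWith_maxT hd (by positivity) hfG hnn
  have hall : ∀ᵐ x, ∀ k : ℕ, DifferentiableAt ℝ (maxT (δ * 2 ^ k) f) x :=
    ae_all_iff.2 fun k => (hlip k).choose_spec.ae_differentiableAt
  filter_upwards [hall] with x hx m hm
  classical
  have hex : ∃ k, maxT (δ * 2 ^ k) f x < maxT δ f x := ⟨m, hm⟩
  have hfirst : Nat.find hex ≠ 0 := fun h => by
    have := Nat.find_spec hex
    rw [h, pow_zero, mul_one] at this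
    exact lt_irrefl _ this
  obtain ⟨k, hk⟩ := Nat.exists_eq_succ_of_ne_zero hfirst
  have hle : ∀ (i : ℕ) y, maxT (δ * 2 ^ i) f y ≤ maxT δ f y := fun i y =>
    maxT_anti hd hδ (le_mul_of_one_le_right hδ.le (one_le_pow₀ one_le_two)) hfG.1 hnn y
  have heq : maxT (δ * 2 ^ k) f x = maxT δ f x :=
    le_antisymm (hle k x) (not_lt.1 (Nat.find_min hex (by omega)))
  refine ⟨k, ?_, ?_, ?_⟩
  · have := Nat.find_le (h := hex) hm
    omega
  · have h := Nat.find_spec hex
    rw [hk] at h
    show maxT (δ * 2 ^ (k + 1)) f x < maxT (δ * 2 ^ k) f x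
    rwa [heq]
  · have h0 : DifferentiableAt ℝ (maxT δ f) x := by simpa using hx 0
    have hmin : IsLocalMin (fun y => maxT δ f y - maxT (δ * 2 ^ k) f y) x :=
      Eventually.of_forall fun y => by
        show maxT δ f x - maxT (δ * 2 ^ k) f x ≤ maxT δ f y - maxT (δ * 2 ^ k) f y
        linarith [hle k y]
    exact (sub_eq_zero.1 (hmin.hasFDerivAt_eq_zero (h0.hasFDerivAt.sub (hx k).hasFDerivAt))).symm

/-- The gradient splits over the windows. -/
theorem lintegral_fderiv_maxT_le_tsum (hd : 1 ≤ d) {δ : ℝ} (hδ : 0 < δ) {f : Euc d → ℝ}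
    {G : Euc d → Euc d} (hfG : Approx f G) (hnn : ∀ x, 0 ≤ f x) :
    ∫⁻ x, ‖fderiv ℝ (maxT δ f) x‖ₑ ≤
      ∑' k, ∫⁻ x in window δ f k, ‖fderiv ℝ (maxT (δ * 2 ^ k) f) x‖ₑ := by
  have hae : ∀ᵐ x, ‖fderiv ℝ (maxT δ f) x‖ₑ ≤
      ∑' k, (window δ f k).indicator (fun x => ‖fderiv ℝ (maxT (δ * 2 ^ k) f) x‖ₑ) x := by
    filter_upwards [ae_exists_window hd hδ hfG hnn] with x hx
    rcases (maxT_nonneg hδ hfG.1 hnn x).eq_or_lt with h | h
    · have hmin : IsLocalMin (maxT δ f) x :=
        Eventually.of_forall fun y => h.ge.trans (maxT_nonneg hδ hfG.1 hnn y)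
      simp [hmin.fderiv_eq_zero, ← ofReal_norm]
    · have hT : Tendsto (fun m : ℕ => maxT (δ * 2 ^ m) f x) atTop (𝓝 0) :=
        (tendsto_maxT_radius hd hfG.1 hnn x).comp
          ((tendsto_pow_atTop_atTop_of_one_lt one_lt_two).const_mul_atTop hδ)
      obtain ⟨m, hm⟩ := (hT.eventually (eventually_lt_nhds h)).exists
      obtain ⟨k, -, hkw, hk⟩ := hx m hm
      refine le_trans ?_ (ENNReal.le_tsum k)
      rw [indicator_of_mem hkw, hk]
  refine (lintegral_mono_ae hae).trans_eq ?_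
  rw [lintegral_tsum fun k =>
    ((measurable_fderiv ℝ _).enorm.indicator (measurableSet_window hd hδ hfG hnn k)).aemeasurable]
  exact tsum_congr fun k => lintegral_indicator (measurableSet_window hd hδ hfG hnn k) _

/-- Lowering the radius only adds gradient from the fine windows. -/
theorem setLIntegral_fderiv_maxT_le_sum (hd : 1 ≤ d) {δ : ℝ} (hδ : 0 < δ) (m : ℕ) {f : Euc d → ℝ}
    {G : Euc d → Euc d} (hfG : Approx f G) (hnn : ∀ x, 0 ≤ f x) :
    ∫⁻ x in {x | maxT (δ * 2 ^ m) f x < maxT δ f x}, ‖fderiv ℝ (maxT δ f) x‖ₑ ≤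
      ∑ k ∈ Finset.range m, ∫⁻ x in window δ f k, ‖fderiv ℝ (maxT (δ * 2 ^ k) f) x‖ₑ := by
  obtain ⟨L, hL⟩ :=
    exists_lipschitzWith_maxT hd (show 0 < δ * 2 ^ m by positivity) hfG hnn
  obtain ⟨L', hL'⟩ := exists_lipschitzWith_maxT hd hδ hfG hnn
  set A := {x | maxT (δ * 2 ^ m) f x < maxT δ f x}
  have hA : MeasurableSet A := (isOpen_lt hL.continuous hL'.continuous).measurableSet
  have hae : ∀ᵐ x ∂volume.restrict A, ‖fderiv ℝ (maxT δ f) x‖ₑ ≤ ∑ k ∈ Finset.range m,
      (window δ f k).indicator (fun x => ‖fderiv ℝ (maxT (δ * 2 ^ k) f) x‖ₑ) x := by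
    filter_upwards [ae_restrict_mem hA, ae_restrict_of_ae (ae_exists_window hd hδ hfG hnn)]
      with x hxA hx
    obtain ⟨k, hkm, hkw, hk⟩ := hx m hxA
    refine le_trans ?_ (Finset.single_le_sum (fun q _ => zero_le) (Finset.mem_range.2 hkm))
    rw [indicator_of_mem hkw, hk]
  refine (lintegral_mono_ae hae).trans ((setLIntegral_le_lintegral _ _).trans_eq ?_)
  rw [lintegral_finsetSum _ fun k _ =>
    (measurable_fderiv ℝ _).enorm.indicator (measurableSet_window hd hδ hfG hnn k)]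
  exact Finset.sum_congr rfl fun k _ => lintegral_indicator (measurableSet_window hd hδ hfG hnn k) _

end Windows

end Vale.Agent.P137
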