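import Vale.Agent.P137.Defs

/-!
Basic properties of averaging over balls.
-/

namespace Vale.Agent.P137

open MeasureTheory Metric Set Filter Topology
open scoped RealInnerProductSpace ENNReal

variable {d : ℕ} {F : Type*} [NormedAddCommGroup F] [NormedSpace ℝ F] [CompleteSpace F]

theorem volume_real_closedBall (x : Euc d) {r : ℝ} (hr : 0 ≤ r) :
    volume.real (closedBall x r) = r ^ d * volume.real (closedBall (0 : Euc d) 1) := by
  simpa using Measure.addHaar_real_closedBall' (volume : Measure (Euc d)) x hr

theorem volume_real_closedBall_pos (x : Euc d) {r : ℝ} (hr : 0 < r) :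
    0 < volume.real (closedBall x r) :=
  ENNReal.toReal_pos (measure_closedBall_pos volume x hr).ne'
    (isCompact_closedBall x r).measure_lt_top.ne

theorem volume_real_unit_pos : 0 < volume.real (closedBall (0 : Euc d) 1) :=
  volume_real_closedBall_pos 0 one_pos

theorem preimage_add_closedBall (x : Euc d) (r : ℝ) :
    (fun z => x + z) ⁻¹' closedBall x r = closedBall (0 : Euc d) r := by
  simp

omit [CompleteSpace F] in
theorem setIntegral_shift (u : Euc d → F) (x : Euc d) (r : ℝ) :
    ∫ z in closedBall (0 : Euc d) r, u (x + z) = ∫ y in closedBall x r, u y := by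
  rw [← preimage_add_closedBall x r]
  exact (measurePreserving_add_left volume x).setIntegral_preimage_emb
    (measurableEmbedding_addLeft x) u _

omit [CompleteSpace F] in
theorem avg_eq {r : ℝ} (u : Euc d → F) (x : Euc d) :
    avg r u x = (volume.real (closedBall x r))⁻¹ • ∫ y in closedBall x r, u y := by
  rw [avg, setIntegral_shift, Measure.addHaar_real_closedBall_center volume x r]

omit [CompleteSpace F] in
theorem continuousOn_avg {u : Euc d → F} (hu : Integrable u) :
    ContinuousOn (fun p : ℝ × Euc d => avg p.1 u p.2) (Ioi 0 ×ˢ univ) := by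
  classical
  rintro ⟨r, x⟩ ⟨hr, -⟩
  simp only [Set.mem_Ioi] at hr
  refine ContinuousAt.continuousWithinAt ?_
  have h1 : (fun p : ℝ × Euc d => avg p.1 u p.2) = fun p =>
      (volume.real (closedBall (0 : Euc d) p.1))⁻¹ •
        ∫ y, (closedBall p.2 p.1).indicator u y := by
    ext p
    rw [avg, setIntegral_shift, integral_indicator measurableSet_closedBall]
  rw [h1]
  refine ContinuousAt.smul ?_ ?_
  · refine ContinuousAt.inv₀ ?_ (volume_real_closedBall_pos 0 hr).ne'
    have hc : ContinuousAt
        (fun p : ℝ × Euc d => p.1 ^ d * volume.real (closedBall (0 : Euc d) 1)) (r, x) := by fun_prop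
    refine hc.congr ?_
    filter_upwards [continuous_fst.continuousAt.eventually (lt_mem_nhds hr)] with p hp
    exact (volume_real_closedBall 0 hp.le).symm
  · refine continuousAt_of_dominated (bound := fun y => ‖u y‖)
      (Eventually.of_forall fun p => hu.1.indicator measurableSet_closedBall)
      (Eventually.of_forall fun p => Eventually.of_forall fun y => norm_indicator_le_norm_self _ _)
      hu.norm ?_
    have hnull : volume (sphere x r) = 0 := Measure.addHaar_sphere_of_ne_zero volume x hr.ne'
    filter_upwards [measure_eq_zero_iff_ae_notMem.1 hnull] with y hy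
    have hd : dist y x ≠ r := hy
    have hev : ∀ᶠ p : ℝ × Euc d in 𝓝 (r, x),
        (closedBall p.2 p.1).indicator u y = (closedBall x r).indicator u y := by
      rcases hd.lt_or_gt with hlt | hgt
      · have ho : IsOpen {p : ℝ × Euc d | dist y p.2 < p.1} :=
          isOpen_lt (by fun_prop) continuous_fst
        filter_upwards [ho.mem_nhds hlt] with p hp
        rw [indicator_of_mem (mem_closedBall.2 hlt.le), indicator_of_mem (mem_closedBall.2 hp.le)]
      · have ho : IsOpen {p : ℝ × Euc d | p.1 < dist y p.2} :=
          isOpen_lt continuous_fst (by fun_prop)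
        filter_upwards [ho.mem_nhds hgt] with p hp
        rw [indicator_of_notMem (fun h : y ∈ closedBall x r => not_le.2 hgt h),
          indicator_of_notMem (fun h : y ∈ closedBall p.2 p.1 => not_le.2 hp h)]
    exact (continuousAt_const (y := (closedBall x r).indicator u y)).congr
      (hev.mono fun p hp => hp.symm)

omit [CompleteSpace F] in
theorem continuous_avg {r : ℝ} (hr : 0 < r) {u : Euc d → F} (hu : Integrable u) :
    Continuous (avg r u) :=
  (continuousOn_avg hu).comp_continuous (continuous_const.prodMk continuous_id)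
    fun _ => ⟨hr, trivial⟩

omit [CompleteSpace F] in
theorem norm_avg_le (r : ℝ) (u : Euc d → F) (x : Euc d) :
    ‖avg r u x‖ ≤ avg r (fun y => ‖u y‖) x := by
  rw [avg, avg, norm_smul, Real.norm_eq_abs, abs_of_nonneg (inv_nonneg.2 measureReal_nonneg),
    smul_eq_mul]
  exact mul_le_mul_of_nonneg_left (norm_integral_le_integral_norm _)
    (inv_nonneg.2 measureReal_nonneg)

omit [CompleteSpace F] in
theorem norm_avg_le_div {r : ℝ} (hr : 0 < r) {u : Euc d → F} (hu : Integrable u) (x : Euc d) :
    ‖avg r u x‖ ≤ (∫ y, ‖u y‖) / volume.real (closedBall (0 : Euc d) r) := by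
  refine (norm_avg_le r u x).trans ?_
  rw [avg, smul_eq_mul, inv_mul_eq_div]
  refine div_le_div_of_nonneg_right ?_ (volume_real_closedBall_pos 0 hr).le
  rw [setIntegral_shift (fun y => ‖u y‖)]
  exact setIntegral_le_integral hu.norm (Eventually.of_forall fun _ => norm_nonneg _)

omit [NormedSpace ℝ F] [CompleteSpace F] in
/-- A translated integrable function is integrable on a product with a ball. -/
theorem integrable_add_ball {u : Euc d → F} (hu : Integrable u) (r : ℝ) :
    Integrable (fun p : Euc d × Euc d => u (p.1 + p.2))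
      ((volume.restrict (closedBall 0 r)).prod volume) := by
  have : IsFiniteMeasure (volume.restrict (closedBall (0 : Euc d) r)) :=
    isFiniteMeasure_restrict.2 (isCompact_closedBall _ r).measure_lt_top.ne
  exact (measurePreserving_prod_add _ volume).integrable_comp_of_integrable
    (hu.comp_snd (volume.restrict (closedBall (0 : Euc d) r)))

omit [CompleteSpace F] in
theorem integrable_avg {r : ℝ} (_ : 0 < r) {u : Euc d → F} (hu : Integrable u) :
    Integrable (avg r u) := by
  have h := (integrable_add_ball hu r).integral_prod_right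
  simp only [add_comm] at h
  exact h.smul _

theorem integral_avg {r : ℝ} (hr : 0 < r) {u : Euc d → F} (hu : Integrable u) :
    ∫ x, avg r u x = ∫ x, u x := by
  simp only [avg]
  rw [integral_smul]
  have hsw : ∫ x, ∫ z in closedBall (0 : Euc d) r, u (x + z) =
      ∫ z in closedBall (0 : Euc d) r, ∫ x, u (x + z) :=
    (integral_integral_swap (f := fun z x => u (x + z))
      (by simpa only [add_comm, Function.uncurry_def] using integrable_add_ball hu r)).symm
  rw [hsw]
  simp only [integral_add_right_eq_self u, setIntegral_const, smul_smul]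
  rw [inv_mul_cancel₀ (volume_real_closedBall_pos 0 hr).ne', one_smul]

theorem integral_norm_avg_le {r : ℝ} (hr : 0 < r) {u : Euc d → F} (hu : Integrable u) :
    ∫ x, ‖avg r u x‖ ≤ ∫ x, ‖u x‖ :=
  (integral_mono (integrable_avg hr hu).norm (integrable_avg hr hu.norm)
    (norm_avg_le r u)).trans_eq (integral_avg hr hu.norm)

omit [NormedSpace ℝ F] [CompleteSpace F] in
theorem integrableOn_shift {u : Euc d → F} (hu : Integrable u) (x : Euc d) (s : Set (Euc d)) :
    IntegrableOn (fun z => u (x + z)) s :=
  (hu.comp_add_left x).integrableOn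

omit [CompleteSpace F] in
theorem avg_sub {r : ℝ} (_ : 0 < r) {u w : Euc d → F} (hu : Integrable u) (hw : Integrable w)
    (x : Euc d) : avg r (u - w) x = avg r u x - avg r w x := by
  simp only [avg, Pi.sub_apply]
  rw [integral_sub (integrableOn_shift hu x _) (integrableOn_shift hw x _), smul_sub]

omit [CompleteSpace F] in
theorem avg_comm {r s : ℝ} (_ : 0 < r) (_ : 0 < s) {u : Euc d → F} (hu : Integrable u) :
    avg r (avg s u) = avg s (avg r u) := by
  ext x
  simp only [avg, integral_smul, smul_smul]
  have hint : Integrable (Function.uncurry fun z w => u (x + z + w))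
      ((volume.restrict (closedBall (0 : Euc d) r)).prod (volume.restrict (closedBall 0 s))) := by
    refine (integrable_add_ball (hu.comp_add_left x) r).mono_measure ?_ |>.congr
      (Eventually.of_forall fun p => by simp [Function.uncurry_def, add_assoc])
    exact Measure.prod_mono le_rfl Measure.restrict_le_self
  rw [integral_integral_swap hint, mul_comm]
  congr 1
  refine setIntegral_congr_fun measurableSet_closedBall fun y _ =>
    setIntegral_congr_fun measurableSet_closedBall fun z _ => ?_
  simp only [add_assoc, add_comm z y]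

omit [CompleteSpace F] in
theorem integrable_mol {δ : ℝ} (hδ : 0 < δ) {u : Euc d → F} (hu : Integrable u) :
    ∀ n, Integrable (mol δ u n)
  | 0 => hu
  | n + 1 => integrable_avg (by positivity) (integrable_mol hδ hu n)

theorem molNorm_zero (δ : ℝ) (G : Euc d → Euc d) : molNorm δ G 0 = ∫ x, ‖G x‖ := rfl

theorem molNorm_nonneg (δ : ℝ) (G : Euc d → Euc d) (n : ℕ) : 0 ≤ molNorm δ G n :=
  integral_nonneg fun _ => norm_nonneg _

theorem molNorm_antitone {δ : ℝ} (hδ : 0 < δ) {G : Euc d → Euc d} (hG : Integrable G) :
    Antitone (molNorm δ G) :=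
  antitone_nat_of_succ_le fun n => integral_norm_avg_le (by positivity) (integrable_mol hδ hG n)

omit [CompleteSpace F] in
theorem exists_translation_le {G : Euc d → F} (hG : Integrable G) {ε : ℝ} (hε : 0 < ε) :
    ∃ η : ℝ, 0 < η ∧ ∀ h : Euc d, ‖h‖ ≤ η → ∫ x, ‖G (x + h) - G x‖ ≤ ε := by
  obtain ⟨g, gsupp, hgG, gc, gint⟩ :=
    hG.exists_hasCompactSupport_integral_sub_le (show 0 < ε / 4 by linarith)
  have hcont : Continuous fun h : Euc d => ∫ x, ‖g (x + h) - g x‖ := by
    obtain ⟨R, hR⟩ := gsupp.isCompact.isBounded.subset_closedBall 0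
    refine continuous_iff_continuousAt.2 fun h₀ => ?_
    obtain ⟨B, hB⟩ := gc.bounded_above_of_compact_support gsupp
    refine continuousAt_of_dominated
      (bound := (closedBall (0 : Euc d) (R + ‖h₀‖ + 1)).indicator fun _ => 2 * B)
      (Eventually.of_forall fun h => ((gc.comp (continuous_add_const h)).sub gc).norm.aestronglyMeasurable) ?_
      ((integrableOn_const (isCompact_closedBall _ _).measure_lt_top.ne).integrable_indicator
        measurableSet_closedBall) (Eventually.of_forall fun x => by fun_prop)
    filter_upwards [closedBall_mem_nhds h₀ one_pos] with h hh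
    refine Eventually.of_forall fun x => ?_
    rw [norm_norm]
    by_cases hx : x ∈ closedBall (0 : Euc d) (R + ‖h₀‖ + 1)
    · rw [indicator_of_mem hx]
      linarith [norm_sub_le (g (x + h)) (g x), hB (x + h), hB x]
    · rw [indicator_of_notMem hx]
      rw [mem_closedBall_zero_iff, not_le] at hx
      rw [mem_closedBall, dist_eq_norm] at hh
      have h1 : ∀ y : Euc d, R < ‖y‖ → g y = 0 := fun y hy =>
        image_eq_zero_of_notMem_tsupport fun hm =>
          (not_le.2 hy) (mem_closedBall_zero_iff.1 (hR hm))
      have h2 := norm_sub_le (x + h) h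
      rw [add_sub_cancel_right] at h2
      rw [h1 x (by linarith [norm_nonneg h₀]), h1 (x + h) (by
        linarith [norm_le_norm_add_norm_sub' h h₀]), sub_zero, norm_zero]
  obtain ⟨η, hη, hball⟩ := Metric.continuousAt_iff.1 hcont.continuousAt (ε / 4) (by linarith)
  refine ⟨η / 2, half_pos hη, fun h hh => ?_⟩
  have hsmall := hball (show dist h 0 < η by rw [dist_zero_right]; linarith)
  simp only [add_zero, sub_self, norm_zero, integral_zero, Real.dist_eq, sub_zero] at hsmall
  have hGh := hG.comp_add_right h
  have hgh := gint.comp_add_right h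
  have i1 : Integrable fun x => ‖G (x + h) - g (x + h)‖ := (hGh.sub hgh).norm
  have i2 : Integrable fun x => ‖g (x + h) - g x‖ := (hgh.sub gint).norm
  have i3 : Integrable fun x => ‖G x - g x‖ := (hG.sub gint).norm
  have i0 : Integrable fun x => ‖G (x + h) - G x‖ := (hGh.sub hG).norm
  have e1 : ∫ x, ‖G (x + h) - g (x + h)‖ = ∫ x, ‖G x - g x‖ :=
    integral_add_right_eq_self (fun x => ‖G x - g x‖) h
  calc ∫ x, ‖G (x + h) - G x‖
      ≤ ∫ x, (‖G (x + h) - g (x + h)‖ + ‖g (x + h) - g x‖ + ‖G x - g x‖) := by
        refine integral_mono i0 ((i1.add i2).add i3) fun x => ?_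
        have := norm_add₃_le (a := G (x + h) - g (x + h)) (b := g (x + h) - g x) (c := g x - G x)
        rw [norm_sub_rev (g x) (G x)] at this
        refine le_trans (le_of_eq ?_) this
        congr 1; abel
    _ = (∫ x, ‖G (x + h) - g (x + h)‖) + (∫ x, ‖g (x + h) - g x‖) + ∫ x, ‖G x - g x‖ := by
        have t1 := integral_add (i1.add i2) i3
        have t2 := integral_add i1 i2
        simp only [Pi.add_apply] at t1
        rw [t1, t2]
    _ ≤ ε := by rw [e1]; linarith [abs_lt.1 hsmall]

theorem integral_norm_mol_sub_le {G : Euc d → Euc d} (hG : Integrable G) {η ε δ : ℝ} (hδ : 0 < δ)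
    (h : ∀ a : Euc d, ‖a‖ ≤ η → ∫ x, ‖G (x + a) - G x‖ ≤ ε) :
    ∀ (n : ℕ) (a : Euc d), ‖a‖ + δ * (2 ^ n - 1) ≤ η →
      ∫ x, ‖mol δ G n (x + a) - G x‖ ≤ ε := by
  intro n
  induction n with
  | zero => intro a ha; exact h a (by simpa using ha)
  | succ n ih =>
    intro a ha
    set r := δ * 2 ^ n with hr
    have hr0 : 0 < r := by positivity
    set B := closedBall (0 : Euc d) r
    have hV := volume_real_closedBall_pos (0 : Euc d) hr0
    have hm := integrable_mol hδ hG n
    have hI : Integrable (Function.uncurry fun z x => ‖mol δ G n (x + a + z) - G x‖)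
        ((volume.restrict B).prod volume) := by
      have : IsFiniteMeasure (volume.restrict B) :=
        isFiniteMeasure_restrict.2 (isCompact_closedBall _ r).measure_lt_top.ne
      refine ((integrable_add_ball (hm.comp_add_left a) r).sub (hG.comp_snd _)).norm.congr
        (Eventually.of_forall fun p => ?_)
      simp only [Function.uncurry_def, Pi.sub_apply]
      congr 3; abel
    have key : ∀ x, ‖mol δ G (n + 1) (x + a) - G x‖ ≤
        (volume.real B)⁻¹ * ∫ z in B, ‖mol δ G n (x + a + z) - G x‖ := by
      intro x
      have hfin : volume B ≠ ⊤ := (isCompact_closedBall _ r).measure_lt_top.ne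
      have e : mol δ G (n + 1) (x + a) - G x =
          (volume.real B)⁻¹ • ∫ z in B, (mol δ G n (x + a + z) - G x) := by
        rw [integral_sub (integrableOn_shift hm _ _) (integrableOn_const hfin), setIntegral_const,
          smul_sub, smul_smul, inv_mul_cancel₀ hV.ne', one_smul]
        rfl
      rw [e, norm_smul, Real.norm_eq_abs, abs_of_pos (inv_pos.2 hV)]
      exact mul_le_mul_of_nonneg_left (norm_integral_le_integral_norm _) (inv_pos.2 hV).le
    refine (integral_mono (((integrable_mol hδ hG (n + 1)).comp_add_right a).sub hG).norm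
      (hI.integral_prod_right.const_mul _) key).trans ?_
    rw [integral_const_mul, inv_mul_le_iff₀ hV]
    refine le_of_eq_of_le (integral_integral_swap hI).symm ?_
    have hfin : volume B ≠ ⊤ := (isCompact_closedBall _ r).measure_lt_top.ne
    refine (setIntegral_mono_on hI.integral_prod_left (integrableOn_const (C := ε) hfin)
      measurableSet_closedBall fun z hz => ?_).trans (by rw [setIntegral_const, smul_eq_mul])
    have := ih (a + z) (by
      rw [mem_closedBall_zero_iff] at hz
      rw [pow_succ] at ha
      nlinarith [norm_add_le a z])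
    simpa only [Function.uncurry_apply_pair, add_assoc] using this

/-- Few averagings at small radii hardly move the norm. -/
theorem exists_molNorm_ge {G : Euc d → Euc d} (hG : Integrable G) {ε : ℝ} (hε : 0 < ε) :
    ∃ η : ℝ, 0 < η ∧ ∀ (δ : ℝ) (n : ℕ), 0 < δ → δ * 2 ^ n ≤ η →
      (∫ x, ‖G x‖) - ε ≤ molNorm δ G n := by
  obtain ⟨η, hη, h⟩ := exists_translation_le hG hε
  refine ⟨η, hη, fun δ n hδ hn => ?_⟩
  have h1 := integral_norm_mol_sub_le hG hδ h n 0 (by rw [norm_zero, mul_sub]; linarith)
  simp only [add_zero] at h1
  have h2 : ∫ x, ‖G x‖ ≤ ∫ x, (‖mol δ G n x‖ + ‖mol δ G n x - G x‖) :=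
    integral_mono hG.norm ((integrable_mol hδ hG n).norm.add ((integrable_mol hδ hG n).sub hG).norm)
      fun x => by
        simpa only [Pi.add_apply, Pi.sub_apply, norm_sub_rev (mol δ G n x)] using
          norm_le_norm_add_norm_sub' (G x) (mol δ G n x)
  have i1 : Integrable fun x => ‖mol δ G n x - G x‖ := ((integrable_mol hδ hG n).sub hG).norm
  rw [integral_add (integrable_mol hδ hG n).norm i1] at h2
  unfold molNorm
  linarith

end Vale.Agent.P137
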