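import Vale.Agent.P137.Chain

/-!
Averages over two sets, one lying above the other.
-/

namespace Vale.Agent.P137

open MeasureTheory Metric Set Filter Topology
open scoped RealInnerProductSpace ENNReal

variable {d : ℕ}

/-- Samples of a contraction towards a fixed point see at most the mass of the enclosing ball. -/
theorem setLIntegral_contract_le {e : Euc d → ℝ≥0∞} {P B : Set (Euc d)} (hB : MeasurableSet B)
    (hP : MeasurableSet P) {a : ℝ} (ha : 1 / 2 ≤ a) (c : Euc d)
    (hmem : ∀ y ∈ P, a • y + c ∈ B) :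
    ∫⁻ y in P, e (a • y + c) ≤ ENNReal.ofReal (2 ^ d) * ∫⁻ p in B, e p := by
  have ha0 : 0 < a := by linarith
  rw [← lintegral_indicator hP, ← lintegral_indicator hB]
  have hle : ∀ y, P.indicator (fun y => e (a • y + c)) y ≤ B.indicator e (a • y + c) := by
    intro y
    refine indicator_apply_le' (fun hy => ?_) fun _ => bot_le
    rw [indicator_of_mem (hmem y hy)]
  refine (lintegral_mono hle).trans ?_
  have em : MeasurableEmbedding fun y : Euc d => a • y :=
    (Homeomorph.smulOfNeZero a ha0.ne').measurableEmbedding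
  rw [← em.lintegral_map (μ := volume) (fun p => B.indicator e (p + c)),
    Measure.map_addHaar_smul volume ha0.ne', lintegral_smul_measure, lintegral_add_right_eq_self,
    finrank_euclideanSpace_fin, smul_eq_mul]
  refine mul_le_mul' (ENNReal.ofReal_le_ofReal ?_) le_rfl
  rw [abs_of_pos (inv_pos.2 (pow_pos ha0 d)), ← inv_pow]
  refine pow_le_pow_left₀ (inv_nonneg.2 ha0.le) ?_ d
  rw [inv_le_comm₀ ha0 two_pos]
  linarith

/-- Samples of segments between two sets. -/
theorem setLIntegral_segment_le {e : Euc d → ℝ≥0∞} (he : Measurable e) {P P' : Set (Euc d)}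
    (hP : MeasurableSet P) (hP' : MeasurableSet P') {x₀ : Euc d} {s θ : ℝ} {ζ : Euc d}
    (hs : 0 ≤ s) (hPb : P ⊆ closedBall x₀ (30 * s)) (hP'b : P' ⊆ closedBall x₀ (30 * s))
    (hθ : θ ∈ Icc (0 : ℝ) 1) (hζ : ‖ζ‖ ≤ s) :
    ∫⁻ w in P ×ˢ P', e (w.1 + θ • (w.2 - w.1) + ζ) ∂(volume.prod volume) ≤
      volume (closedBall x₀ (30 * s)) *
        (ENNReal.ofReal (2 ^ d) * ∫⁻ p in closedBall x₀ (40 * s), e p) := by
  set V := volume (closedBall x₀ (30 * s))
  set M := ENNReal.ofReal (2 ^ d) * ∫⁻ p in closedBall x₀ (40 * s), e p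
  have hmem : ∀ y ∈ P, ∀ y' ∈ P', y + θ • (y' - y) + ζ ∈ closedBall x₀ (40 * s) := by
    intro y hy y' hy'
    have h := (convex_closedBall x₀ (30 * s)).add_smul_sub_mem (hPb hy) (hP'b hy') hθ
    rw [mem_closedBall, dist_eq_norm] at h ⊢
    calc ‖y + θ • (y' - y) + ζ - x₀‖ = ‖(y + θ • (y' - y) - x₀) + ζ‖ := by congr 1; abel
      _ ≤ ‖y + θ • (y' - y) - x₀‖ + ‖ζ‖ := norm_add_le _ _
      _ ≤ 40 * s := by linarith
  have hm : Measurable fun w : Euc d × Euc d => e (w.1 + θ • (w.2 - w.1) + ζ) :=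
    he.comp (by fun_prop)
  have hB : MeasurableSet (closedBall x₀ (40 * s)) := measurableSet_closedBall
  rw [← Measure.prod_restrict, lintegral_prod _ hm.aemeasurable]
  rcases le_total θ (1 / 2) with h | h
  · rw [lintegral_lintegral_swap hm.aemeasurable]
    calc ∫⁻ y' in P', ∫⁻ y in P, e (y + θ • (y' - y) + ζ) ≤ ∫⁻ _y' in P', M := by
          refine setLIntegral_mono' hP' fun y' hy' => ?_
          have e1 : ∀ y : Euc d, y + θ • (y' - y) + ζ = (1 - θ) • y + (θ • y' + ζ) :=
            fun y => by module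
          simp only [e1]
          exact setLIntegral_contract_le hB hP (by linarith) _
            fun y hy => (e1 y) ▸ hmem y hy y' hy'
      _ ≤ V * M := by
          rw [setLIntegral_const, mul_comm]
          exact mul_le_mul' (measure_mono hP'b) le_rfl
  · calc ∫⁻ y in P, ∫⁻ y' in P', e (y + θ • (y' - y) + ζ) ≤ ∫⁻ _y in P, M := by
          refine setLIntegral_mono' hP fun y hy => ?_
          have e1 : ∀ y' : Euc d, y + θ • (y' - y) + ζ = θ • y' + (y - θ • y + ζ) :=
            fun y' => by module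
          simp only [e1]
          exact setLIntegral_contract_le hB hP' (by linarith) _
            fun y' hy' => (e1 y') ▸ hmem y hy y' hy'
      _ ≤ V * M := by
          rw [setLIntegral_const, mul_comm]
          exact mul_le_mul' (measure_mono hPb) le_rfl

/-- If `P'` lies above `P` in direction `v`, the average over `P` exceeds that over `P'` by at most
the defects. -/
theorem exists_pair_le {d : ℕ} (c₀ : ℝ) (hc₀ : 0 < c₀) :
    ∃ C : ℝ, 0 ≤ C ∧ ∀ (f : Euc d → ℝ) (δ : ℝ) (k : ℕ) (v x₀ : Euc d) (P P' : Set (Euc d)),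
      ContDiff ℝ 1 f → Integrable f → Integrable (gradient f) → 0 < δ → ‖v‖ = 1 →
      MeasurableSet P → MeasurableSet P' → P ⊆ closedBall x₀ (30 * (δ * 2 ^ k)) →
      P' ⊆ closedBall x₀ (30 * (δ * 2 ^ k)) →
      c₀ * (δ * 2 ^ k) ^ d ≤ volume.real P → c₀ * (δ * 2 ^ k) ^ d ≤ volume.real P' →
      (∀ y ∈ P, ∀ y' ∈ P', 4 / 5 * (δ * 2 ^ k) ≤ ⟪y' - y, v⟫) →
      (volume.real P)⁻¹ * (∫ y in P, f y) - (volume.real P')⁻¹ * (∫ y in P', f y) ≤
        C * ((δ * 2 ^ k) / (δ * 2 ^ k) ^ d) * ∑ n ∈ Finset.range (k + 1), (1 / 2) ^ (k - n) *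
          ∫ y in closedBall x₀ (40 * (δ * 2 ^ k)), disp v (mol δ (gradient f) n) y := by
  set V1 := volume.real (closedBall (0 : Euc d) 1)
  refine ⟨900000 * 60 ^ d * V1 / c₀ ^ 2, by positivity, ?_⟩
  intro f δ k v x₀ P P' hf hfi hgi hδ hv hP hP' hPb hP'b hcP hcP' hsep
  set s := δ * 2 ^ k with hs
  have hs0 : 0 < s := by positivity
  have hgc : ∀ n, Continuous (mol δ (gradient f) n) := fun n => (seg_mol hδ hf hfi hgi n).2.1
  have hPfin : volume P ≠ ⊤ :=
    ((measure_mono hPb).trans_lt (isCompact_closedBall x₀ _).measure_lt_top).ne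
  have hP'fin : volume P' ≠ ⊤ :=
    ((measure_mono hP'b).trans_lt (isCompact_closedBall x₀ _).measure_lt_top).ne
  have hvP : 0 < volume.real P := lt_of_lt_of_le (by positivity) hcP
  have hvP' : 0 < volume.real P' := lt_of_lt_of_le (by positivity) hcP'
  set D : ℕ → ℝ := fun n => ∫ y in closedBall x₀ (40 * s), disp v (mol δ (gradient f) n) y with hD
  have hD0 : ∀ n, 0 ≤ D n := fun n =>
    setIntegral_nonneg measurableSet_closedBall fun y _ => disp_nonneg hv _ y
  set i := k - 1 with hi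
  set μ : Measure (Euc d × Euc d) := volume.prod volume with hμ
  have hu : ∀ w ∈ P ×ˢ P', ‖w.2 - w.1‖ ^ 2 ≤ 4500 * s * ⟪w.2 - w.1, v⟫ ∧
      (i = 0 ∨ δ * 2 ^ i ≤ ⟪w.2 - w.1, v⟫) := by
    rintro ⟨y, y'⟩ ⟨hy, hy'⟩
    have h1 := hsep y hy y' hy'
    have h2 : ‖y' - y‖ ≤ 60 * s := by
      have hb := dist_triangle_right y' y x₀
      rw [dist_eq_norm] at hb
      have := mem_closedBall.1 (hPb hy)
      have := mem_closedBall.1 (hP'b hy')
      linarith
    refine ⟨?_, ?_⟩
    · calc ‖y' - y‖ ^ 2 ≤ (60 * s) ^ 2 := pow_le_pow_left₀ (norm_nonneg _) h2 2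
        _ = 4500 * s * (4 / 5 * s) := by ring
        _ ≤ 4500 * s * ⟪y' - y, v⟫ := mul_le_mul_of_nonneg_left h1 (by positivity)
    · rcases Nat.eq_zero_or_pos k with h | h
      · exact Or.inl (by omega)
      · refine Or.inr (le_trans ?_ h1)
        obtain ⟨j, rfl⟩ : ∃ j, k = j + 1 := ⟨k - 1, by omega⟩
        rw [hs, hi, Nat.add_sub_cancel, pow_succ]
        nlinarith [mul_pos hδ (pow_pos (two_pos : (0 : ℝ) < 2) j)]
  set V30 := volume.real (closedBall x₀ (30 * s)) with hV30
  have hV30e : V30 = (30 * s) ^ d * V1 := volume_real_closedBall x₀ (by positivity)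
  have hB : ∀ n ≤ i, ∀ θ ∈ Icc (0 : ℝ) 1, ∀ ζ : Euc d, ‖ζ‖ ≤ δ * 2 ^ n →
      ∫⁻ w in P ×ˢ P', edisp v (mol δ (gradient f) n) (w.1 + θ • (w.2 - w.1) + ζ) ∂μ ≤
        ENNReal.ofReal (V30 * (2 ^ d * D n)) := by
    intro n hn θ hθ ζ hζ
    have hζ' : ‖ζ‖ ≤ s := hζ.trans
      (mul_le_mul_of_nonneg_left (pow_le_pow_right₀ one_le_two (by omega)) hδ.le)
    refine (setLIntegral_segment_le (continuous_edisp (hgc n)).measurable hP hP' hs0.le hPb hP'b
      hθ hζ').trans (le_of_eq ?_)
    rw [ENNReal.ofReal_mul (by positivity), ENNReal.ofReal_mul (by positivity), hV30,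
      measureReal_def, ENNReal.ofReal_toReal (isCompact_closedBall x₀ _).measure_lt_top.ne, hD]
    congr 2
    exact (ofReal_integral_eq_lintegral_ofReal
      ((continuous_disp (hgc n)).continuousOn.integrableOn_compact (isCompact_closedBall _ _))
      (Eventually.of_forall fun y => disp_nonneg hv _ y)).symm
  have hchain := lintegral_chain_le (μ := μ) (Y := fun w : Euc d × Euc d => w.1)
    (U := fun w => w.2 - w.1) hδ hf hfi hgi hv measurable_fst (by fun_prop) (hP.prod hP') i
    (L := 4500 * s) (by positivity) hu (B := fun n => ENNReal.ofReal (V30 * (2 ^ d * D n))) hB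
  simp only [add_sub_cancel] at hchain
  have hint1 : Integrable f (volume.restrict P) := hfi.restrict
  have hint2 : Integrable f (volume.restrict P') := hfi.restrict
  haveI : IsFiniteMeasure (volume.restrict P) := isFiniteMeasure_restrict.2 hPfin
  haveI : IsFiniteMeasure (volume.restrict P') := isFiniteMeasure_restrict.2 hP'fin
  have hi1 : Integrable (fun w : Euc d × Euc d => f w.1)
      ((volume.restrict P).prod (volume.restrict P')) := hint1.comp_fst _
  have hi2 : Integrable (fun w : Euc d × Euc d => f w.2)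
      ((volume.restrict P).prod (volume.restrict P')) := hint2.comp_snd _
  have hFint : IntegrableOn (fun w : Euc d × Euc d => f w.1 - f w.2) (P ×ˢ P') μ := by
    rw [IntegrableOn, hμ, ← Measure.prod_restrict]
    exact hi1.sub hi2
  have hval : ∫ w in P ×ˢ P', (f w.1 - f w.2) ∂μ =
      volume.real P' * (∫ y in P, f y) - volume.real P * (∫ y in P', f y) := by
    rw [hμ, ← Measure.prod_restrict, integral_sub hi1 hi2, integral_fun_fst, integral_fun_snd,
      measureReal_restrict_apply_univ, measureReal_restrict_apply_univ, smul_eq_mul, smul_eq_mul]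
  set T := ∑ n ∈ Finset.range (k + 1), (1 / 2 : ℝ) ^ (k - n) * D n with hT
  set Sg := ∑ n ∈ Finset.range (i + 1), (1 / 2 : ℝ) ^ (i - n) * (V30 * (2 ^ d * D n))
  have hSg0 : 0 ≤ Sg := Finset.sum_nonneg fun n _ => by have := hD0 n; positivity
  have hle : ∫ w in P ×ˢ P', (f w.1 - f w.2) ∂μ ≤ 100 * (4500 * s) * Sg := by
    refine (ENNReal.ofReal_le_ofReal_iff (by positivity)).1 ?_
    refine ((ofReal_integral_le_lintegral hFint).trans hchain).trans (le_of_eq ?_)
    rw [ENNReal.ofReal_mul (show (0 : ℝ) ≤ 100 * (4500 * s) by positivity),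
      ENNReal.ofReal_sum_of_nonneg (fun n _ => by have := hD0 n; positivity)]
    congr 1
    exact Finset.sum_congr rfl fun n _ => (ENNReal.ofReal_mul (by positivity)).symm
  have hSgT : Sg ≤ V30 * 2 ^ d * (2 * T) := by
    rw [hT, Finset.mul_sum, Finset.mul_sum]
    refine le_trans (Finset.sum_le_sum fun n hn => ?_) (Finset.sum_le_sum_of_subset_of_nonneg
      (Finset.range_mono (show i + 1 ≤ k + 1 by omega)) fun n _ _ => by have := hD0 n; positivity)
    rw [Finset.mem_range] at hn
    have hpow : (1 / 2 : ℝ) ^ (i - n) ≤ 2 * (1 / 2) ^ (k - n) := by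
      calc (1 / 2 : ℝ) ^ (i - n) = 2 * (1 / 2) ^ (i - n + 1) := by rw [pow_succ]; ring
        _ ≤ _ := mul_le_mul_of_nonneg_left
          (pow_le_pow_of_le_one (by norm_num) (by norm_num) (by omega)) (by norm_num)
    calc (1 / 2 : ℝ) ^ (i - n) * (V30 * (2 ^ d * D n))
        ≤ 2 * (1 / 2) ^ (k - n) * (V30 * (2 ^ d * D n)) :=
          mul_le_mul_of_nonneg_right hpow (by have := hD0 n; positivity)
      _ = _ := by ring
  have hT0 : 0 ≤ T := Finset.sum_nonneg fun n _ => by have := hD0 n; positivity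
  rw [hval] at hle
  calc (volume.real P)⁻¹ * (∫ y in P, f y) - (volume.real P')⁻¹ * (∫ y in P', f y)
      = (volume.real P' * (∫ y in P, f y) - volume.real P * (∫ y in P', f y)) /
          (volume.real P * volume.real P') := by field_simp
    _ ≤ 100 * (4500 * s) * (V30 * 2 ^ d * (2 * T)) / (volume.real P * volume.real P') := by
        gcongr
        exact hle.trans (mul_le_mul_of_nonneg_left hSgT (by positivity))
    _ ≤ 100 * (4500 * s) * (V30 * 2 ^ d * (2 * T)) / ((c₀ * s ^ d) * (c₀ * s ^ d)) := by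
        gcongr
    _ = _ := by
        have e60 : (60 : ℝ) ^ d = 30 ^ d * 2 ^ d := by rw [← mul_pow]; norm_num
        rw [hV30e, hT, hD, e60, mul_pow]
        field_simp
        ring_nf

end Vale.Agent.P137
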