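import Vale.Agent.P137.Core
import Vale.Agent.P137.Geom

/-!
The gradient of the truncated maximal function on one window.

On a window the value of the maximal function is either near the reference value, up to the coarse
error, or its distance to it is controlled by one of the fine errors. In either case the geometry
lemma converts the length of the interval of values into a bound for the gradient, and averaging
over the base point turns the errors into a loss of variation.
-/

namespace Vale.Agent.P137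

open MeasureTheory Metric Set Filter Topology
open scoped RealInnerProductSpace ENNReal

variable {d : ℕ}

section MolFacts

variable {F F' : Type*} [NormedAddCommGroup F] [NormedSpace ℝ F] [CompleteSpace F]
  [NormedAddCommGroup F'] [NormedSpace ℝ F'] [CompleteSpace F']

omit [CompleteSpace F] in
lemma mol_shift (δ : ℝ) (u : Euc d → F) (n : ℕ) :
    ∀ m, mol δ u (n + m) = mol (δ * 2 ^ n) (mol δ u n) m
  | 0 => rfl
  | m + 1 => by
    show avg (δ * 2 ^ (n + m)) (mol δ u (n + m)) = avg (δ * 2 ^ n * 2 ^ m) _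
    rw [mol_shift δ u n m, pow_add, mul_assoc]

lemma avg_clm {r : ℝ} (L : F →L[ℝ] F') {u : Euc d → F} (hu : Integrable u) :
    avg r (fun y => L (u y)) = fun x => L (avg r u x) := by
  funext x
  rw [avg, avg, map_smul, ← L.integral_comp_comm (integrableOn_shift hu x _)]

lemma mol_clm {δ : ℝ} (hδ : 0 < δ) (L : F →L[ℝ] F') {u : Euc d → F} (hu : Integrable u) :
    ∀ m, mol δ (fun y => L (u y)) m = fun x => L (mol δ u m x)
  | 0 => rfl
  | m + 1 => by
    show avg (δ * 2 ^ m) (mol δ (fun y => L (u y)) m) = _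
    rw [mol_clm hδ L hu m, avg_clm L (integrable_mol hδ hu m)]
    rfl

omit [CompleteSpace F] in
lemma mol_sub_aux {δ : ℝ} (hδ : 0 < δ) {u w : Euc d → F} (hu : Integrable u) (hw : Integrable w) :
    ∀ m, mol δ (u - w) m = mol δ u m - mol δ w m
  | 0 => rfl
  | m + 1 => by
    show avg (δ * 2 ^ m) (mol δ (u - w) m) = _
    rw [mol_sub_aux hδ hu hw m]
    funext x
    exact avg_sub (by positivity) (integrable_mol hδ hu m) (integrable_mol hδ hw m) x

omit [CompleteSpace F] in
lemma avg_mol_comm {δ a : ℝ} (hδ : 0 < δ) (ha : 0 < a) {u : Euc d → F} (hu : Integrable u) :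
    ∀ m, avg a (mol δ u m) = mol δ (avg a u) m
  | 0 => rfl
  | m + 1 => by
    show avg a (avg (δ * 2 ^ m) (mol δ u m)) = avg (δ * 2 ^ m) (mol δ (avg a u) m)
    rw [avg_comm ha (by positivity) (integrable_mol hδ hu m), avg_mol_comm hδ ha hu m]

lemma integral_mol {δ : ℝ} (hδ : 0 < δ) {u : Euc d → F} (hu : Integrable u) :
    ∀ m, ∫ x, mol δ u m x = ∫ x, u x
  | 0 => rfl
  | m + 1 => (integral_avg (by positivity) (integrable_mol hδ hu m)).trans (integral_mol hδ hu m)

lemma avg_nonneg (r : ℝ) {u : Euc d → ℝ} (hu : ∀ x, 0 ≤ u x) (x : Euc d) : 0 ≤ avg r u x :=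
  smul_nonneg (inv_nonneg.2 measureReal_nonneg) (integral_nonneg fun _ => hu _)

lemma mol_nonneg (δ : ℝ) {u : Euc d → ℝ} (hu : ∀ x, 0 ≤ u x) : ∀ m x, 0 ≤ mol δ u m x
  | 0, x => hu x
  | m + 1, x => avg_nonneg _ (mol_nonneg δ hu m) x

/-- Averaging does not lose mass from a ball that is enlarged by the radius. -/
lemma setIntegral_avg_ge {r : ℝ} (hr : 0 < r) {u : Euc d → ℝ} (hu : Integrable u)
    (hnn : ∀ x, 0 ≤ u x) (x : Euc d) (b : ℝ) :
    ∫ y in closedBall x b, u y ≤ ∫ y in closedBall x (b + r), avg r u y := by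
  set w := (closedBall x b).indicator u with hw
  have hwi : Integrable w := hu.indicator measurableSet_closedBall
  have hzero : ∀ y, y ∉ closedBall x (b + r) → avg r w y = 0 := by
    intro y hy
    have h0 : ∫ z in closedBall (0 : Euc d) r, w (y + z) = 0 := by
      refine setIntegral_eq_zero_of_forall_eq_zero fun z hz => indicator_of_notMem (fun hm => hy ?_) _
      rw [mem_closedBall] at hm hz ⊢
      have h1 := dist_triangle y (y + z) x
      rw [dist_self_add_right] at h1
      rw [dist_zero_right] at hz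
      linarith
    rw [avg, h0, smul_zero]
  calc ∫ y in closedBall x b, u y = ∫ y, w y := (integral_indicator measurableSet_closedBall).symm
    _ = ∫ y, avg r w y := (integral_avg hr hwi).symm
    _ = ∫ y in closedBall x (b + r), avg r w y :=
        (setIntegral_eq_integral_of_forall_compl_eq_zero hzero).symm
    _ ≤ ∫ y in closedBall x (b + r), avg r u y := by
        refine setIntegral_mono (integrable_avg hr hwi).integrableOn
          (integrable_avg hr hu).integrableOn fun y => ?_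
        refine smul_le_smul_of_nonneg_left ?_ (inv_nonneg.2 measureReal_nonneg)
        exact setIntegral_mono (integrableOn_shift hwi y _) (integrableOn_shift hu y _)
          fun z => indicator_le_self' (fun p _ => hnn p) _

lemma setIntegral_mol_ge {δ : ℝ} (hδ : 0 < δ) {u : Euc d → ℝ} (hu : Integrable u)
    (hnn : ∀ x, 0 ≤ u x) (x : Euc d) (b : ℝ) :
    ∀ m, ∫ y in closedBall x b, u y ≤
      ∫ y in closedBall x (b + δ * (2 ^ m - 1)), mol δ u m y
  | 0 => by simp [mol]
  | m + 1 => by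
    refine (setIntegral_mol_ge hδ hu hnn x b m).trans ((setIntegral_avg_ge
      (show (0 : ℝ) < δ * 2 ^ m by positivity) (integrable_mol hδ hu m) (mol_nonneg δ hnn m) x
      _).trans_eq ?_)
    rw [show b + δ * (2 ^ m - 1) + δ * 2 ^ m = b + δ * (2 ^ (m + 1) - 1) by ring]
    rfl

end MolFacts

lemma disp_eq_sub (v : Euc d) (g : Euc d → Euc d) :
    disp v g = (fun y => ‖g y‖) - fun y => innerSL ℝ v (g y) := by
  funext y
  simp [disp, real_inner_comm]

lemma integrable_disp_aux (v : Euc d) {g : Euc d → Euc d} (hg : Integrable g) :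
    Integrable (disp v g) := by
  rw [disp_eq_sub]
  exact hg.norm.sub ((innerSL ℝ v).integrable_comp hg)

lemma mol_disp {δ : ℝ} (hδ : 0 < δ) (v : Euc d) {g : Euc d → Euc d} (hg : Integrable g) (m : ℕ) :
    mol δ (disp v g) m = fun y => mol δ (fun z => ‖g z‖) m y - ⟪mol δ g m y, v⟫ := by
  rw [disp_eq_sub, mol_sub_aux hδ hg.norm ((innerSL ℝ v).integrable_comp hg), mol_clm hδ _ hg]
  funext y
  simp [real_inner_comm]

/-- The excess of the mean of the norm over the norm of the mean, seen from the scale `k`. -/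
noncomputable def excess (δ : ℝ) (G : Euc d → Euc d) (k n : ℕ) (x₀ : Euc d) : ℝ :=
  avg (δ * 2 ^ (k + 8)) (mol (δ * 2 ^ n) (fun y => ‖mol δ G n y‖) (k - n)) x₀ -
    ‖avg (δ * 2 ^ (k + 8)) (mol δ G k) x₀‖

lemma setIntegral_disp_le_excess (hd : 1 ≤ d) {δ : ℝ} (hδ : 0 < δ) {G : Euc d → Euc d}
    (hG : Integrable G) (k : ℕ) (x₀ : Euc d) :
    ∃ v : Euc d, ‖v‖ = 1 ∧ ∀ n, n ≤ k →
      ∫ y in closedBall x₀ (40 * (δ * 2 ^ k)), disp v (mol δ G n) y ≤
        volume.real (closedBall (0 : Euc d) (δ * 2 ^ (k + 8))) * excess δ G k n x₀ := by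
  set S := δ * 2 ^ (k + 8) with hSdef
  have hS : 0 < S := by positivity
  set w := avg S (mol δ G k) x₀ with hw
  obtain ⟨v, hv, hwv⟩ : ∃ v : Euc d, ‖v‖ = 1 ∧ ⟪w, v⟫ = ‖w‖ := by
    rcases eq_or_ne w 0 with h | h
    · exact ⟨EuclideanSpace.single ⟨0, hd⟩ (1 : ℝ), by simp, by simp [h]⟩
    · have hn : ‖w‖ ≠ 0 := norm_ne_zero_iff.2 h
      refine ⟨‖w‖⁻¹ • w, by rw [norm_smul, norm_inv, norm_norm, inv_mul_cancel₀ hn], ?_⟩
      rw [real_inner_smul_right, real_inner_self_eq_norm_sq, sq, ← mul_assoc,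
        inv_mul_cancel₀ hn, one_mul]
  refine ⟨v, hv, fun n hn => ?_⟩
  obtain ⟨m, rfl⟩ := Nat.exists_eq_add_of_le hn
  have hδn : 0 < δ * 2 ^ n := by positivity
  have hgn := integrable_mol hδ hG n
  set P := mol (δ * 2 ^ n) (disp v (mol δ G n)) m with hP
  have hd0 : ∀ y, 0 ≤ disp v (mol δ G n) y := disp_nonneg hv _
  have hPi : Integrable P := integrable_mol hδn (integrable_disp_aux v hgn) m
  have hsub : closedBall x₀ (40 * (δ * 2 ^ (n + m)) + δ * 2 ^ n * (2 ^ m - 1)) ⊆
      closedBall x₀ S := by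
    refine closedBall_subset_closedBall ?_
    rw [hSdef, pow_add _ _ 8, pow_add]
    nlinarith [pow_pos (two_pos : (0 : ℝ) < 2) n, mul_pos hδn (pow_pos (two_pos : (0 : ℝ) < 2) m)]
  have havg : avg S P x₀ = excess δ G (n + m) n x₀ := by
    rw [hP, mol_disp hδn v hgn m, excess, Nat.add_sub_cancel_left, ← hw, ← hwv, hw, hSdef,
      mol_shift δ G n m]
    have hi : Integrable (mol (δ * 2 ^ n) (mol δ G n) m) := integrable_mol hδn hgn m
    have e : (fun y => ⟪mol (δ * 2 ^ n) (mol δ G n) m y, v⟫) =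
        fun y => innerSL ℝ v (mol (δ * 2 ^ n) (mol δ G n) m y) := by
      funext y
      simp [real_inner_comm]
    rw [← Pi.sub_def, e, avg_sub hS (integrable_mol hδn hgn.norm m)
      ((innerSL ℝ v).integrable_comp hi), avg_clm _ hi]
    simp [real_inner_comm, hSdef]
  calc ∫ y in closedBall x₀ (40 * (δ * 2 ^ (n + m))), disp v (mol δ G n) y
      ≤ ∫ y in closedBall x₀ (40 * (δ * 2 ^ (n + m)) + δ * 2 ^ n * (2 ^ m - 1)), P y :=
        setIntegral_mol_ge hδn (integrable_disp_aux v hgn) hd0 x₀ _ m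
    _ ≤ ∫ y in closedBall x₀ S, P y :=
        setIntegral_mono_set hPi.integrableOn (Eventually.of_forall (mol_nonneg _ hd0 m))
          hsub.eventuallyLE
    _ = volume.real (closedBall (0 : Euc d) S) * avg S P x₀ := by
        rw [avg, setIntegral_shift, smul_eq_mul, ← mul_assoc,
          mul_inv_cancel₀ (volume_real_closedBall_pos 0 hS).ne', one_mul]
    _ = _ := by rw [havg]

lemma integrable_excess {δ : ℝ} (hδ : 0 < δ) {G : Euc d → Euc d} (hG : Integrable G) (k n : ℕ) :
    Integrable (excess δ G k n) := by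
  unfold excess
  exact (integrable_avg (by positivity) (integrable_mol (by positivity)
    (integrable_mol hδ hG n).norm _)).sub (integrable_avg (by positivity)
      (integrable_mol hδ hG k)).norm

lemma integral_excess_le {δ : ℝ} (hδ : 0 < δ) {G : Euc d → Euc d} (hG : Integrable G) (k n : ℕ) :
    ∫ x, excess δ G k n x ≤ molNorm δ G n - molNorm δ G (k + 10) := by
  have hk := integrable_mol hδ hG k
  have hS : 0 < δ * 2 ^ (k + 8) := by positivity
  have hn' : 0 < δ * 2 ^ n := by positivity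
  unfold excess
  rw [integral_sub (integrable_avg hS (integrable_mol hn' (integrable_mol hδ hG n).norm _))
    (integrable_avg hS hk).norm, integral_avg hS (integrable_mol hn' (integrable_mol hδ hG n).norm _),
    integral_mol hn' (integrable_mol hδ hG n).norm]
  refine sub_le_sub le_rfl ?_
  refine (molNorm_antitone hδ hG (show k + 9 ≤ k + 10 by omega)).trans ?_
  have e : mol δ G (k + 9) = mol (δ * 2 ^ k) (avg (δ * 2 ^ (k + 8)) (mol δ G k)) 8 := by
    show avg (δ * 2 ^ (k + 8)) (mol δ G (k + 8)) = _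
    rw [mol_shift δ G k 8, avg_mol_comm (by positivity) hS hk]
  unfold molNorm
  rw [e]
  exact (molNorm_antitone (show 0 < δ * 2 ^ k by positivity) (integrable_avg hS hk)
    (Nat.zero_le 8)).trans_eq rfl

section Averaging

/-- Averaging a set integral over the centres of small balls. -/
lemma lintegral_closedBall_inter {F : Euc d → ℝ≥0∞} (hF : Measurable F) {P : Set (Euc d)}
    (hP : MeasurableSet P) (ρ : ℝ) :
    ∫⁻ c, ∫⁻ x in closedBall c ρ ∩ P, F x =
      volume (closedBall (0 : Euc d) ρ) * ∫⁻ x in P, F x := by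
  set T : Set (Euc d × Euc d) := {p | dist p.2 p.1 ≤ ρ} ∩ Prod.snd ⁻¹' P with hT
  have hTm : MeasurableSet T :=
    (isClosed_le (continuous_snd.dist continuous_fst) continuous_const).measurableSet.inter
      (measurable_snd hP)
  have h1 : ∀ c, ∫⁻ x in closedBall c ρ ∩ P, F x =
      ∫⁻ x, T.indicator (fun p => F p.2) (c, x) := fun c => by
    rw [← lintegral_indicator (measurableSet_closedBall.inter hP)]
    rfl
  simp only [h1]
  rw [lintegral_lintegral_swap (f := fun c x => T.indicator (fun p => F p.2) (c, x))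
    ((hF.comp measurable_snd).indicator hTm).aemeasurable]
  rw [← lintegral_indicator hP, ← lintegral_const_mul _ (hF.indicator hP)]
  refine lintegral_congr fun x => ?_
  have h2 : ∀ c, T.indicator (fun p => F p.2) (c, x) =
      (closedBall x ρ).indicator (fun _ => P.indicator F x) c := fun c => by
    by_cases hx : x ∈ P
    · by_cases hc : c ∈ closedBall x ρ
      · rw [indicator_of_mem hc, indicator_of_mem hx,
          indicator_of_mem (show (c, x) ∈ T from ⟨by rw [mem_closedBall, dist_comm] at hc; exact hc,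
            hx⟩)]
      · rw [indicator_of_notMem hc,
          indicator_of_notMem (fun h : (c, x) ∈ T => hc (by
            rw [mem_closedBall, dist_comm]; exact h.1))]
    · rw [indicator_of_notMem (fun h : (c, x) ∈ T => hx h.2), indicator_of_notMem hx]
      simp
  simp only [h2]
  rw [lintegral_indicator_const measurableSet_closedBall,
    Measure.addHaar_closedBall_center volume x ρ, mul_comm]

lemma setIntegral_inter_eq_avg {h : Euc d → ℝ} (B : Set (Euc d)) (hB : MeasurableSet B) {R : ℝ}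
    (hR : 0 < R) (x : Euc d) :
    ∫ y in closedBall x R ∩ B, h y =
      volume.real (closedBall (0 : Euc d) R) * avg R (B.indicator h) x := by
  rw [avg, setIntegral_shift, smul_eq_mul, ← mul_assoc,
    mul_inv_cancel₀ (volume_real_closedBall_pos 0 hR).ne', one_mul, setIntegral_indicator hB]

lemma continuous_setIntegral_inter {h : Euc d → ℝ} (hh : Integrable h) (B : Set (Euc d))
    (hB : MeasurableSet B) {R : ℝ} (hR : 0 < R) :
    Continuous fun x => ∫ y in closedBall x R ∩ B, h y := by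
  simp only [setIntegral_inter_eq_avg B hB hR]
  exact continuous_const.mul (continuous_avg hR (hh.indicator hB))

end Averaging

lemma scale_pow (hd : 1 ≤ d) {a s : ℝ} (hs : 0 < s) :
    s / s ^ d * (a * s) ^ (d - 1) = a ^ (d - 1) := by
  have h : s * s ^ (d - 1) = s ^ d := by
    rw [← pow_succ']
    congr 1
    omega
  have hne : s ^ d ≠ 0 := by positivity
  rw [mul_pow, div_mul_eq_mul_div, div_eq_iff hne, ← h]
  ring

/-- Summation of the fine contributions. -/
lemma sum_fine_le {I : ℕ → ℝ} (hI : ∀ n, 0 ≤ I n) (k : ℕ) :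
    ∑ i ∈ Finset.range (k + 1),
        (89 / 100 : ℝ) ^ (k - i) * ∑ n ∈ Finset.range (i + 1), (1 / 2) ^ (i - n) * I n ≤
      100 * ∑ n ∈ Finset.range (k + 1), (9 / 10 : ℝ) ^ (k - n) * I n := by
  induction k with
  | zero => simp; linarith [hI 0]
  | succ k ih =>
    rw [Finset.sum_range_succ _ (k + 1)]
    have h1 : ∀ i ∈ Finset.range (k + 1),
        (89 / 100 : ℝ) ^ (k + 1 - i) * ∑ n ∈ Finset.range (i + 1), (1 / 2) ^ (i - n) * I n =
          89 / 100 * ((89 / 100 : ℝ) ^ (k - i) *
            ∑ n ∈ Finset.range (i + 1), (1 / 2) ^ (i - n) * I n) := fun i hi => by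
      have := Finset.mem_range.1 hi
      rw [show k + 1 - i = k - i + 1 by omega, pow_succ]
      ring
    rw [Finset.sum_congr rfl h1, ← Finset.mul_sum, Nat.sub_self, pow_zero, one_mul,
      Finset.sum_range_succ (fun n => (1 / 2 : ℝ) ^ (k + 1 - n) * I n) (k + 1),
      Finset.sum_range_succ (fun n => (9 / 10 : ℝ) ^ (k + 1 - n) * I n) (k + 1)]
    simp only [Nat.sub_self, pow_zero, one_mul]
    have h2 : ∀ n ∈ Finset.range (k + 1),
        89 * ((9 / 10 : ℝ) ^ (k - n) * I n) + (1 / 2 : ℝ) ^ (k + 1 - n) * I n ≤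
          100 * ((9 / 10 : ℝ) ^ (k + 1 - n) * I n) := fun n hn => by
      have := Finset.mem_range.1 hn
      rw [show k + 1 - n = k - n + 1 by omega, pow_succ, pow_succ]
      have hp : (1 / 2 : ℝ) ^ (k - n) ≤ (9 / 10) ^ (k - n) :=
        pow_le_pow_left₀ (by norm_num) (by norm_num) _
      nlinarith [hI n, mul_le_mul_of_nonneg_right hp (hI n),
        mul_nonneg (pow_nonneg (by norm_num : (0 : ℝ) ≤ 9 / 10) (k - n)) (hI n)]
    have h3 := Finset.sum_le_sum h2
    rw [Finset.sum_add_distrib, ← Finset.mul_sum, ← Finset.mul_sum] at h3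
    linarith [hI (k + 1)]

lemma sum_weight_le (k : ℕ) :
    ∑ i ∈ Finset.range (k + 1), 1 / 5 * (4 / 5 : ℝ) ^ (k - i) ≤ 1 := by
  have h : ∑ i ∈ Finset.range (k + 1), (4 / 5 : ℝ) ^ (k - i) =
      ∑ i ∈ Finset.range (k + 1), (4 / 5 : ℝ) ^ i := by
    conv_rhs => rw [← Finset.sum_range_reflect]
    rfl
  rw [← Finset.mul_sum, h]
  have h2 : ∑ i ∈ Finset.range (k + 1), (4 / 5 : ℝ) ^ i ≤ 5 := by
    refine (sum_le_hasSum _ (fun _ _ => by positivity)
      (hasSum_geometric_of_lt_one (by norm_num) (by norm_num))).trans_eq ?_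
    norm_num
  linarith

/-- Near a point, the gradient on a window is controlled by the defects. -/
theorem exists_lintegral_window_ball_le (hd : 2 ≤ d) :
    ∃ C ε : ℝ, 0 ≤ C ∧ 0 < ε ∧ ∀ (f : Euc d → ℝ) (G : Euc d → Euc d) (δ : ℝ) (k : ℕ)
      (v x₀ : Euc d), Approx f G → (∀ x, 0 ≤ f x) → 0 < δ → ‖v‖ = 1 →
      ∫⁻ x in closedBall x₀ (ε * (δ * 2 ^ k)) ∩ window δ f k,
          ‖fderiv ℝ (maxT (δ * 2 ^ k) f) x‖ₑ ≤
        ENNReal.ofReal (C * ∑ n ∈ Finset.range (k + 1), (9 / 10 : ℝ) ^ (k - n) *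
          ∫ y in closedBall x₀ (40 * (δ * 2 ^ k)), disp v (mol δ G n) y) := by
  have hd1 : 1 ≤ d := by omega
  obtain ⟨C₁, K, hC₁, hK, hcore⟩ := exists_core hd1
  obtain ⟨C₂, hC₂, hgeo⟩ := exists_lintegral_fderiv_maxT_le hd1
  set ε : ℝ := 1 / (10 * (Real.sqrt d + 1)) with hεdef
  have hsd : 0 ≤ Real.sqrt d := Real.sqrt_nonneg _
  have hε : 0 < ε := by positivity
  have hε10 : ε ≤ 1 / 10 := by
    rw [hεdef]
    exact one_div_le_one_div_of_le (by norm_num) (by linarith)
  have hεd : ε * Real.sqrt d ≤ 1 := by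
    rw [hεdef, one_div_mul_eq_div, div_le_one (by positivity)]
    linarith
  set C₃ : ℝ := C₂ * (8 * C₁) * ((2 * K / ε) ^ d * ε ^ (d - 1)) * 5 with hC₃
  have hC₃0 : 0 ≤ C₃ := by positivity
  refine ⟨C₂ * (9 * C₁) * ε ^ (d - 1) + C₃ * 100, ε, by positivity, hε, ?_⟩
  intro f G δ k v x₀ hfG hnn hδ hv
  set s := δ * 2 ^ k with hs
  have hs0 : 0 < s := by positivity
  set M := maxT s f with hM
  set Z := refValue δ f k v x₀ with hZ
  set D := coarseErr δ G k v x₀ with hD
  set e : ℕ → Euc d → ℝ := fun i x => fineErr K δ G k i v x₀ x with he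
  set I : ℕ → ℝ := fun n => ∫ y in closedBall x₀ (40 * s), disp v (mol δ G n) y with hI
  have hI0 : ∀ n, 0 ≤ I n := fun n => integral_nonneg fun y => disp_nonneg hv _ y
  have hint : ∀ n, Integrable (disp v (mol δ G n)) := fun n =>
    integrable_disp_aux v (integrable_mol hδ hfG.2.1 n)
  have hD0 : 0 ≤ D := mul_nonneg (by positivity)
    (Finset.sum_nonneg fun n _ => mul_nonneg (by positivity) (hI0 n))
  obtain ⟨LM, hLM⟩ := exists_lipschitzWith_maxT hd1 hs0 hfG hnn
  set A : Set (Euc d) := closedBall x₀ (ε * s) ∩ M ⁻¹' Icc (Z - 8 * C₁ * D) (Z + C₁ * D) with hA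
  set P : ℕ → Set (Euc d) := fun i =>
    {x | M x ≤ Z ∧ 1 / 5 * (4 / 5 : ℝ) ^ (k - i) * (Z - M x) ≤ 8 * C₁ * e i x} with hP
  -- the covering of the window
  have hcov : closedBall x₀ (ε * s) ∩ window δ f k ⊆ A ∪ ⋃ i : Fin (k + 1), P i := by
    rintro x ⟨hx₀, hxw⟩
    have hs2 : δ * 2 ^ (k + 1) = 2 * s := by rw [hs, pow_succ]; ring
    have hxw' : maxT (δ * 2 ^ (k + 1)) f x < M x := hxw
    obtain ⟨hub2, hpos2, -⟩ :=
      exists_avg_eq_maxT hd1 (show 0 < δ * 2 ^ (k + 1) by positivity) hfG.1 hnn x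
    obtain ⟨-, -, hatt⟩ := exists_avg_eq_maxT hd1 hs0 hfG.1 hnn x
    obtain ⟨z, r, hr, hxz, hval⟩ := hatt (hpos2.trans_lt hxw')
    rw [← hM] at hval
    have hr2 : r ≤ δ * 2 ^ (k + 1) := by
      by_contra hlt
      have := hub2 z r (not_le.1 hlt).le hxz
      linarith
    obtain ⟨h1, h2⟩ := hcore f G δ r k v x₀ x z hfG hδ hv hr hr2 hxz
      ((mem_closedBall.1 hx₀).trans (by rw [← hs]; nlinarith))
    rw [← hval, ← hZ, ← hD] at h1 h2
    have h3 : avg (8 * s) f (x + (8 * s) • v) ≤ maxT (δ * 2 ^ (k + 1)) f x := by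
      refine hub2 _ _ (by linarith) ?_
      rw [dist_self_add_right, norm_smul, hv, mul_one, Real.norm_eq_abs,
        abs_of_pos (by positivity)]
    by_cases hgap : Z - M x ≤ 8 * C₁ * D
    · exact Or.inl ⟨hx₀, by linarith, h1⟩
    refine Or.inr (mem_iUnion.2 ?_)
    rw [not_le] at hgap
    have hC₁D : 0 ≤ C₁ * D := mul_nonneg hC₁ hD0
    have hle : M x ≤ Z := by linarith
    by_contra hno
    push Not at hno
    have hlt : ∑ i ∈ Finset.range (k + 1), 8 * C₁ * e i x <
        ∑ i ∈ Finset.range (k + 1), 1 / 5 * (4 / 5 : ℝ) ^ (k - i) * (Z - M x) := by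
      refine Finset.sum_lt_sum_of_nonempty ⟨0, by simp⟩ fun i hi => ?_
      by_contra hn
      exact hno ⟨i, Finset.mem_range.1 hi⟩ ⟨hle, not_lt.1 hn⟩
    rw [← Finset.mul_sum, ← Finset.sum_mul] at hlt
    have hw := mul_le_mul_of_nonneg_right (sum_weight_le k) (sub_nonneg.2 hle)
    have h2' : C₁ * (D + ∑ i ∈ Finset.range (k + 1), e i x) =
        C₁ * D + C₁ * ∑ i ∈ Finset.range (k + 1), e i x := mul_add _ _ _
    rw [← hs] at h2
    linarith
  -- the coarse piece
  have hbA : ∫⁻ x in A, ‖fderiv ℝ M x‖ₑ ≤ ENNReal.ofReal (C₂ * (9 * C₁) * ε ^ (d - 1) *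
      ∑ n ∈ Finset.range (k + 1), (9 / 10 : ℝ) ^ (k - n) * I n) := by
    refine (hgeo f G s (ε * s) x₀ _ _ hfG hnn (by positivity) ?_).trans (ENNReal.ofReal_le_ofReal ?_)
    · rw [mul_right_comm]
      exact mul_le_of_le_one_left hs0.le hεd
    have hpow : s / s ^ d * (ε * s) ^ (d - 1) = ε ^ (d - 1) := scale_pow hd1 hs0
    calc C₂ * (ε * s) ^ (d - 1) * (Z + C₁ * D - (Z - 8 * C₁ * D))
        = C₂ * (9 * C₁) * (s / s ^ d * (ε * s) ^ (d - 1)) *
            ∑ n ∈ Finset.range (k + 1), (1 / 2 : ℝ) ^ (k - n) * I n := by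
          rw [hD, coarseErr, ← hs]
          simp only [hI]
          ring
      _ ≤ _ := by
          rw [hpow]
          refine mul_le_mul_of_nonneg_left (Finset.sum_le_sum fun n _ => ?_) (by positivity)
          exact mul_le_mul_of_nonneg_right (pow_le_pow_left₀ (by norm_num) (by norm_num) _) (hI0 n)
  -- the fine pieces
  have hbP : ∀ i, i ≤ k → ∫⁻ x in P i, ‖fderiv ℝ M x‖ₑ ≤ ENNReal.ofReal (C₃ *
      ((89 / 100 : ℝ) ^ (k - i) * ∑ n ∈ Finset.range (i + 1), (1 / 2 : ℝ) ^ (i - n) * I n)) := by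
    intro i hi
    set q := Real.sqrt (1 / 2) with hq
    have hq0 : 0 < q := by positivity
    have hq89 : q * (5 / 4) ≤ 89 / 100 := by
      have : q ≤ 712 / 1000 := by
        rw [hq, Real.sqrt_le_iff]
        norm_num
      linarith
    have hq1 : q ≤ 1 := by
      rw [hq, Real.sqrt_le_one]
      norm_num
    set j := k - i
    set B₀ := closedBall x₀ (40 * s) with hB₀
    set R := K * s * q ^ j with hR
    set ρ := ε * s * q ^ j with hρ
    have hR0 : 0 < R := by positivity
    have hρ0 : 0 < ρ := by positivity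
    have hρR : ρ ≤ R := by
      rw [hρ, hR]
      exact mul_le_mul_of_nonneg_right
        (mul_le_mul_of_nonneg_right (show ε ≤ K by linarith) hs0.le) (pow_nonneg hq0.le _)
    have hρd : ρ * Real.sqrt d ≤ s := by
      have hqj : q ^ j ≤ 1 := pow_le_one₀ hq0.le hq1
      calc ρ * Real.sqrt d = ε * Real.sqrt d * (s * q ^ j) := by ring
        _ ≤ 1 * (s * q ^ j) := mul_le_mul_of_nonneg_right hεd (by positivity)
        _ ≤ s := by rw [one_mul]; exact mul_le_of_le_one_right hs0.le hqj
    set w : ℝ := 1 / 5 * (4 / 5 : ℝ) ^ j with hwdef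
    have hw0 : 0 < w := by positivity
    set J : Euc d → ℝ := fun c => s / s ^ d * ∑ n ∈ Finset.range (i + 1), (1 / 2 : ℝ) ^ (i - n) *
      ∫ y in closedBall c (2 * R) ∩ B₀, disp v (mol δ G n) y with hJ
    have hJe : ∀ c x, dist x c ≤ ρ → e i x ≤ J c := by
      intro c x hxc
      refine mul_le_mul_of_nonneg_left (Finset.sum_le_sum fun n _ =>
        mul_le_mul_of_nonneg_left ?_ (by positivity)) (by positivity)
      refine setIntegral_mono_set (hint n).integrableOn
        (Eventually.of_forall fun y => disp_nonneg hv _ y)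
        (inter_subset_inter_left _ fun y hy => ?_).eventuallyLE
      rw [mem_closedBall] at hy ⊢
      have := dist_triangle y x c
      rw [← hs, ← hq] at hy
      linarith
    have hJ0 : ∀ c, 0 ≤ J c := fun c => mul_nonneg (by positivity)
      (Finset.sum_nonneg fun n _ => mul_nonneg (by positivity)
        (integral_nonneg fun y => disp_nonneg hv _ y))
    have hec : Continuous (e i) := by
      refine continuous_const.mul (continuous_finsetSum _ fun n _ => continuous_const.mul ?_)
      exact continuous_setIntegral_inter (hint n) _ measurableSet_closedBall (by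
        rw [← hs, ← hq]; exact hR0)
    have hPm : MeasurableSet (P i) :=
      ((isClosed_le hLM.continuous continuous_const).inter
        (isClosed_le (continuous_const.mul (continuous_const.sub hLM.continuous))
          (continuous_const.mul hec))).measurableSet
    -- each small ball
    have hball : ∀ c, ∫⁻ x in closedBall c ρ ∩ P i, ‖fderiv ℝ M x‖ₑ ≤
        ENNReal.ofReal (C₂ * ρ ^ (d - 1) * (8 * C₁ / w) * J c) := by
      intro c
      refine (lintegral_mono_set ?_).trans ((hgeo f G s ρ c (Z - 8 * C₁ * J c / w) Z hfG hnn hρ0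
        hρd).trans (ENNReal.ofReal_le_ofReal (le_of_eq (by ring))))
      rintro x ⟨hxc, hxZ, hxe⟩
      refine ⟨hxc, ?_, hxZ⟩
      have h := hxe.trans (mul_le_mul_of_nonneg_left (hJe c x (mem_closedBall.1 hxc))
        (by positivity : 0 ≤ 8 * C₁))
      rw [mul_comm w, ← le_div_iff₀ hw0] at h
      linarith
    -- averaging over the centres
    have havi : ∀ n, Integrable fun c => ∫ y in closedBall c (2 * R) ∩ B₀,
        disp v (mol δ G n) y := fun n => by
      simp only [setIntegral_inter_eq_avg B₀ measurableSet_closedBall (show 0 < 2 * R by positivity)]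
      exact (integrable_avg (by positivity) ((hint n).indicator measurableSet_closedBall)).const_mul _
    have hJi : Integrable J :=
      (integrable_finsetSum _ fun n _ => (havi n).const_mul _).const_mul _
    have hJint : ∫ c, J c = volume.real (closedBall (0 : Euc d) (2 * R)) *
        (s / s ^ d * ∑ n ∈ Finset.range (i + 1), (1 / 2 : ℝ) ^ (i - n) * I n) := by
      simp only [hJ]
      rw [integral_const_mul, integral_finsetSum _ fun n _ => (havi n).const_mul _]
      simp only [setIntegral_inter_eq_avg B₀ measurableSet_closedBall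
        (show 0 < 2 * R by positivity), integral_const_mul]
      rw [mul_left_comm (volume.real _), Finset.mul_sum (a := volume.real _)]
      refine congrArg _ (Finset.sum_congr rfl fun n _ => ?_)
      rw [integral_avg (by positivity) ((hint n).indicator measurableSet_closedBall),
        integral_indicator measurableSet_closedBall]
      simp only [hI]
      ring
    have hav := lintegral_closedBall_inter (measurable_fderiv ℝ M).enorm hPm ρ
    have hV : volume (closedBall (0 : Euc d) ρ) =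
        ENNReal.ofReal (volume.real (closedBall (0 : Euc d) ρ)) :=
      (ofReal_measureReal measure_closedBall_lt_top.ne).symm
    have hVρ := volume_real_closedBall_pos (0 : Euc d) hρ0
    have hkey : ENNReal.ofReal (volume.real (closedBall (0 : Euc d) ρ)) *
        ∫⁻ x in P i, ‖fderiv ℝ M x‖ₑ ≤
        ENNReal.ofReal (C₂ * ρ ^ (d - 1) * (8 * C₁ / w) * ∫ c, J c) := by
      rw [← hV, ← hav, ← integral_const_mul,
        ofReal_integral_eq_lintegral_ofReal (hJi.const_mul _)
          (Eventually.of_forall fun c => mul_nonneg (by positivity) (hJ0 c))]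
      exact lintegral_mono hball
    rw [mul_comm, ← ENNReal.le_div_iff_mul_le (Or.inl (ENNReal.ofReal_pos.2 hVρ).ne')
      (Or.inl ENNReal.ofReal_ne_top), ← ENNReal.ofReal_div_of_pos hVρ] at hkey
    refine hkey.trans (ENNReal.ofReal_le_ofReal ?_)
    rw [hJint, volume_real_closedBall 0 (show 0 ≤ 2 * R by positivity),
      volume_real_closedBall 0 hρ0.le]
    have hu := (volume_real_unit_pos (d := d)).ne'
    set U := volume.real (closedBall (0 : Euc d) 1)
    set Sm := ∑ n ∈ Finset.range (i + 1), (1 / 2 : ℝ) ^ (i - n) * I n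
    have hSm0 : 0 ≤ Sm := Finset.sum_nonneg fun n _ => mul_nonneg (by positivity) (hI0 n)
    have hpow : s / s ^ d * ρ ^ (d - 1) = ε ^ (d - 1) * (q ^ j) ^ (d - 1) := by
      rw [hρ, mul_right_comm ε s, scale_pow hd1 hs0, mul_pow]
    have hratio : (2 * R) ^ d / ρ ^ d = (2 * K / ε) ^ d := by
      rw [← div_pow]
      congr 1
      rw [hR, hρ]
      field_simp
    have hqw : (q ^ j) ^ (d - 1) / w ≤ 5 * (89 / 100 : ℝ) ^ j := by
      have h1 : (q ^ j) ^ (d - 1) ≤ q ^ j :=
        (pow_le_pow_of_le_one (by positivity) (pow_le_one₀ hq0.le hq1)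
          (show 1 ≤ d - 1 by omega)).trans_eq (pow_one _)
      rw [hwdef, div_le_iff₀ (by positivity)]
      refine h1.trans (le_of_le_of_eq (pow_le_pow_left₀ hq0.le
        (show q ≤ 89 / 100 * (4 / 5) by linarith) j) ?_)
      rw [mul_pow]
      ring
    calc C₂ * ρ ^ (d - 1) * (8 * C₁ / w) * ((2 * R) ^ d * U * (s / s ^ d * Sm)) / (ρ ^ d * U)
        = C₂ * (8 * C₁) * ((2 * R) ^ d / ρ ^ d) * ((s / s ^ d * ρ ^ (d - 1)) / w) * Sm := by
          field_simp
      _ = C₂ * (8 * C₁) * ((2 * K / ε) ^ d * ε ^ (d - 1)) * ((q ^ j) ^ (d - 1) / w) * Sm := by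
          rw [hratio, hpow]
          ring
      _ ≤ C₂ * (8 * C₁) * ((2 * K / ε) ^ d * ε ^ (d - 1)) * (5 * (89 / 100 : ℝ) ^ j) * Sm :=
          mul_le_mul_of_nonneg_right (mul_le_mul_of_nonneg_left hqw (by positivity)) hSm0
      _ = _ := by rw [hC₃]; ring
  -- putting the pieces together
  calc ∫⁻ x in closedBall x₀ (ε * s) ∩ window δ f k, ‖fderiv ℝ M x‖ₑ
      ≤ ∫⁻ x in A ∪ ⋃ i : Fin (k + 1), P i, ‖fderiv ℝ M x‖ₑ := lintegral_mono_set hcov
    _ ≤ (∫⁻ x in A, ‖fderiv ℝ M x‖ₑ) + ∑ i : Fin (k + 1), ∫⁻ x in P i, ‖fderiv ℝ M x‖ₑ :=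
        (lintegral_union_le _ _ _).trans (add_le_add le_rfl
          ((lintegral_iUnion_le _ _).trans_eq (tsum_fintype _)))
    _ ≤ ENNReal.ofReal (C₂ * (9 * C₁) * ε ^ (d - 1) *
          ∑ n ∈ Finset.range (k + 1), (9 / 10 : ℝ) ^ (k - n) * I n) +
        ∑ i : Fin (k + 1), ENNReal.ofReal (C₃ * ((89 / 100 : ℝ) ^ (k - (i : ℕ)) *
          ∑ n ∈ Finset.range ((i : ℕ) + 1), (1 / 2 : ℝ) ^ ((i : ℕ) - n) * I n)) :=
        add_le_add hbA (Finset.sum_le_sum fun i _ => hbP i (Nat.lt_succ_iff.1 i.2))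
    _ ≤ _ := by
        have hnn9 : 0 ≤ ∑ n ∈ Finset.range (k + 1), (9 / 10 : ℝ) ^ (k - n) * I n :=
          Finset.sum_nonneg fun n _ => mul_nonneg (by positivity) (hI0 n)
        have hnn8 : ∀ i : ℕ, 0 ≤ C₃ * ((89 / 100 : ℝ) ^ (k - i) *
            ∑ n ∈ Finset.range (i + 1), (1 / 2 : ℝ) ^ (i - n) * I n) := fun i =>
          mul_nonneg hC₃0 (mul_nonneg (by positivity)
            (Finset.sum_nonneg fun n _ => mul_nonneg (by positivity) (hI0 n)))
        rw [← ENNReal.ofReal_sum_of_nonneg fun i _ => hnn8 _,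
          ← ENNReal.ofReal_add (mul_nonneg (by positivity) hnn9)
            (Finset.sum_nonneg fun i _ => hnn8 _)]
        refine ENNReal.ofReal_le_ofReal ?_
        rw [Fin.sum_univ_eq_sum_range (fun i => C₃ * ((89 / 100 : ℝ) ^ (k - i) *
          ∑ n ∈ Finset.range (i + 1), (1 / 2 : ℝ) ^ (i - n) * I n)), ← Finset.mul_sum, add_mul]
        rw [mul_assoc C₃]
        exact add_le_add le_rfl (mul_le_mul_of_nonneg_left (sum_fine_le hI0 k) hC₃0)

theorem exists_scaleBound {d : ℕ} (hd : 2 ≤ d) : ∃ C, ScaleBound d C := by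
  have hd1 : 1 ≤ d := by omega
  obtain ⟨C, ε, hC, hε, hloc⟩ := exists_lintegral_window_ball_le hd
  refine ⟨C * (256 / ε) ^ d, fun f G δ k hfG hnn hδ => ?_⟩
  set s := δ * 2 ^ k with hs
  have hs0 : 0 < s := by positivity
  set S := δ * 2 ^ (k + 8) with hS
  obtain ⟨L, hL⟩ := exists_lipschitzWith_maxT hd1 hs0 hfG hnn
  obtain ⟨L', hL'⟩ :=
    exists_lipschitzWith_maxT hd1 (show 0 < δ * 2 ^ (k + 1) by positivity) hfG hnn
  have hWm : MeasurableSet (window δ f k) := (isOpen_lt hL'.continuous hL.continuous).measurableSet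
  set Φ : Euc d → ℝ := fun x₀ => C * (volume.real (closedBall (0 : Euc d) S) *
    ∑ n ∈ Finset.range (k + 1), (9 / 10 : ℝ) ^ (k - n) * excess δ G k n x₀) with hΦ
  have hpt : ∀ x₀, ∫⁻ x in closedBall x₀ (ε * s) ∩ window δ f k, ‖fderiv ℝ (maxT s f) x‖ₑ ≤
      ENNReal.ofReal (Φ x₀) ∧ 0 ≤ Φ x₀ := by
    intro x₀
    obtain ⟨v, hv, hex⟩ := setIntegral_disp_le_excess hd1 hδ hfG.2.1 k x₀
    have hle : C * (∑ n ∈ Finset.range (k + 1), (9 / 10 : ℝ) ^ (k - n) *
        ∫ y in closedBall x₀ (40 * s), disp v (mol δ G n) y) ≤ Φ x₀ := by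
      rw [hΦ]
      refine mul_le_mul_of_nonneg_left ?_ hC
      rw [Finset.mul_sum]
      refine Finset.sum_le_sum fun n hn => (mul_le_mul_of_nonneg_left
        (hex n (Nat.lt_succ_iff.1 (Finset.mem_range.1 hn))) (by positivity)).trans_eq ?_
      rw [← hS]
      ring
    exact ⟨(hloc f G δ k v x₀ hfG hnn hδ hv).trans (ENNReal.ofReal_le_ofReal hle),
      le_trans (mul_nonneg hC (Finset.sum_nonneg fun n _ => mul_nonneg (by positivity)
        (integral_nonneg fun y => disp_nonneg hv _ y))) hle⟩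
  have hexi := fun n => integrable_excess hδ hfG.2.1 k n
  have hsi : Integrable fun x₀ =>
      ∑ n ∈ Finset.range (k + 1), (9 / 10 : ℝ) ^ (k - n) * excess δ G k n x₀ :=
    integrable_finsetSum _ fun n _ => (hexi n).const_mul _
  have hΦi : Integrable Φ := (hsi.const_mul _).const_mul C
  have hint : ∫ x₀, Φ x₀ ≤ C * (volume.real (closedBall (0 : Euc d) S) *
      ∑ n ∈ Finset.range (k + 1),
        (9 / 10 : ℝ) ^ (k - n) * (molNorm δ G n - molNorm δ G (k + 10))) := by
    simp only [hΦ]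
    rw [integral_const_mul, integral_const_mul,
      integral_finsetSum _ fun n _ => (hexi n).const_mul _]
    simp only [integral_const_mul]
    exact mul_le_mul_of_nonneg_left (mul_le_mul_of_nonneg_left (Finset.sum_le_sum fun n _ =>
      mul_le_mul_of_nonneg_left (integral_excess_le hδ hfG.2.1 k n) (by positivity))
        measureReal_nonneg) hC
  have hεs : 0 < ε * s := by positivity
  have hVε := volume_real_closedBall_pos (0 : Euc d) hεs
  have hkey : ENNReal.ofReal (volume.real (closedBall (0 : Euc d) (ε * s))) *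
      ∫⁻ x in window δ f k, ‖fderiv ℝ (maxT s f) x‖ₑ ≤ ENNReal.ofReal (∫ x₀, Φ x₀) := by
    rw [ofReal_measureReal measure_closedBall_lt_top.ne,
      ← lintegral_closedBall_inter (measurable_fderiv ℝ _).enorm hWm,
      ofReal_integral_eq_lintegral_ofReal hΦi (Eventually.of_forall fun x => (hpt x).2)]
    exact lintegral_mono fun x => (hpt x).1
  rw [mul_comm, ← ENNReal.le_div_iff_mul_le (Or.inl (ENNReal.ofReal_pos.2 hVε).ne')
    (Or.inl ENNReal.ofReal_ne_top), ← ENNReal.ofReal_div_of_pos hVε] at hkey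
  refine hkey.trans (ENNReal.ofReal_le_ofReal ?_)
  rw [div_le_iff₀ hVε]
  refine hint.trans_eq ?_
  rw [hS, pow_add, ← mul_assoc δ, ← hs, volume_real_closedBall 0 (by positivity),
    volume_real_closedBall 0 hεs.le, div_pow, mul_pow, mul_pow]
  field_simp
  norm_num
  ring

end Vale.Agent.P137
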